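import Vale.Agent.P232.Interfaces

/-!
# P232: statements of the rigidity argument for minimisers

See `notes/P232_helper42_uniqueness.md`. A minimiser is used through Lipschitz approximants whose
total gradients do not exceed the candidate in the limit, so no further theory of the perimeter is
needed. Everything is for volumes at most one half.
-/

open MeasureTheory Set Filter
open scoped Topology NNReal

namespace Vale.Agent.P232.Rigid

/-- Equality of sets up to a null set. -/
def SetAE (E F : Set R3) : Prop := E =ᵐ[volume] F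

/-- The indicator. -/
noncomputable def ind (E : Set R3) : R3 → ℝ := E.indicator fun _ => 1

/-- A periodic set of volume `V` approximated in `L¹` by Lipschitz functions of energy at most
`candidate V` in the limit. -/
structure Min (V : ℝ) (E : Set R3) : Prop where
  meas : MeasurableSet E
  per : IsPeriodic fun x => x ∈ E
  vol : volume.real (E ∩ cube) = V
  approx : ∃ f : ℕ → R3 → ℝ, (∀ k, ∃ L : ℝ≥0, LipschitzWith L (f k)) ∧ (∀ k, IsPeriodic (f k)) ∧
    (∀ k x, f k x ∈ Icc (0 : ℝ) 1) ∧
    Tendsto (fun k => ∫ x in cube, |f k x - ind E x|) atTop (𝓝 0) ∧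
    ∀ ε > 0, ∀ᶠ k in atTop, ∫ x in cube, gradNorm (f k) x ≤ candidate V + ε

/-- The distance to the nearest integer. -/
noncomputable def dist1 (t : ℝ) : ℝ := |t - round t|

/-- The trace of `E` on a line in direction `i`, over one period. -/
def lineSet (i : Fin 3) (E : Set R3) (y : Fin 2 → ℝ) : Set ℝ :=
  {t ∈ Icc (0 : ℝ) 1 | (i.insertNth t y : R3) ∈ E}

/-- The length of that trace. -/
noncomputable def lineLen (i : Fin 3) (E : Set R3) (y : Fin 2 → ℝ) : ℝ :=
  volume.real (lineSet i E y)

/-- A line trace is an arc up to a null set (possibly empty or full). -/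
def IsArc (A : Set ℝ) : Prop :=
  ∃ m : ℝ, A =ᵐ[volume.restrict (Icc (0 : ℝ) 1)] {t | dist1 (t - m) < volume.real A / 2}

/-- Steiner symmetrisation about `x i = 0`. -/
noncomputable def steiner (i : Fin 3) (E : Set R3) : Set R3 :=
  {x | dist1 (x i) < lineLen i E (i.removeNth x) / 2}

/-- The set is symmetric about `x i = c`. -/
def EvenAt (i : Fin 3) (c : ℝ) (E : Set R3) : Prop :=
  SetAE {x | Function.update x i (2 * c - x i) ∈ E} E

/-- The set is symmetric decreasing in the coordinate `i`. -/
def Dec (i : Fin 3) (E : Set R3) : Prop := SetAE (steiner i E) E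

/-- Invariance under translations along the axis `a`. -/
def InvAxis (a : Fin 3) (E : Set R3) : Prop :=
  ∀ t : ℝ, SetAE {x | x + Pi.single a t ∈ E} E

/-- The half of `E` on the side `σ = ±1` of `x i = a`, reflected at both planes bounding it. -/
noncomputable def fold (i : Fin 3) (a σ : ℝ) (E : Set R3) : Set R3 :=
  {x | Function.update x i (a + σ * dist1 (x i - a)) ∈ E}

/-- Balls (three coordinates), tubes (two) and slabs (one). -/
def body (s : Finset (Fin 3)) (R : ℝ) (c : R3) : Set R3 :=
  {x | ∑ i ∈ s, dist1 (x i - c i) ^ 2 < R ^ 2}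

/-- The bodies that attain the candidate. -/
structure Shape (V : ℝ) (s : Finset (Fin 3)) (R : ℝ) : Prop where
  nonempty : s.Nonempty
  pos : 0 < R
  lt_half : R < 1 / 2
  vol : ∀ c, volume.real (body s R c ∩ cube) = V
  area : candidate V = s.card * V / R

/-- A translate of a ball, tube or slab attaining the candidate. -/
def IsCanon (V : ℝ) (E : Set R3) : Prop :=
  ∃ s R c, Shape V s R ∧ SetAE E (body s R c)

/-- Symmetrisation preserves minimisers and the symmetries in the other coordinates. -/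
def StmtSteiner : Prop :=
  ∀ V ∈ Ioc (0 : ℝ) (1 / 2), ∀ E, Min V E → ∀ i : Fin 3,
    Min V (steiner i E) ∧ Dec i (steiner i E) ∧ EvenAt i 0 (steiner i E) ∧
      ∀ k, k ≠ i →
        (∀ c, EvenAt k c E → EvenAt k c (steiner i E)) ∧ (Dec k E → Dec k (steiner i E))

/-- A plane bisecting the volume gives two minimisers by reflection. -/
def StmtBisect : Prop :=
  ∀ V ∈ Ioc (0 : ℝ) (1 / 2), ∀ E, Min V E → ∀ i : Fin 3,
    ∃ a : ℝ, Min V (fold i a 1 E) ∧ Min V (fold i a (-1) E)

/-- One symmetrisation step backwards. -/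
def StmtBack : Prop :=
  ∀ V ∈ Ioc (0 : ℝ) (1 / 2), ∀ E, Min V E → ∀ (i : Fin 3) s R c, Shape V s R →
    (∀ᵐ y : Fin 2 → ℝ, lineLen i E y = lineLen i (body s R c) y) →
    (i ∉ s → SetAE E (body s R c)) ∧ (∀ a, a ∉ s → InvAxis a E) ∧
      ∀ᵐ y : Fin 2 → ℝ, IsArc (lineSet i E y)

/-- Minimisers decreasing in all three coordinates. -/
def StmtDec : Prop :=
  ∀ V ∈ Ioc (0 : ℝ) (1 / 2), ∀ E, Min V E → (∀ i, Dec i E) →
    ∃ s R, Shape V s R ∧ SetAE E (body s R 0)

/-- Classification of minimisers of volume at most one half. -/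
def StmtClassify : Prop :=
  ∀ V ∈ Ioc (0 : ℝ) (1 / 2), ∀ E, Min V E → IsCanon V E

/-- A relative minimiser in the cube, with approximants having the property `P`. -/
structure CubeMin (P : (R3 → ℝ) → Prop) (V : ℝ) (E : Set R3) : Prop where
  meas : MeasurableSet E
  vol : volume.real (E ∩ cube) = V
  approx : ∃ g : ℕ → R3 → ℝ, (∀ k, ∃ L : ℝ≥0, LipschitzWith L (g k)) ∧
    (∀ k x, g k x ∈ Icc (0 : ℝ) 1) ∧ (∀ k, CubeAntitone (g k) ∧ P (g k)) ∧
    Tendsto (fun k => ∫ x in cube, |g k x - ind E x|) atTop (𝓝 0) ∧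
    ∀ ε > 0, ∀ᶠ k in atTop, ∫ x in cube, gradNorm (g k) x ≤ cubeCandidate V + ε

/-- The octant of a centred body, dilated to the cube. -/
def quad (s : Finset (Fin 3)) (R : ℝ) : Set R3 := {x | ∑ i ∈ s, x i ^ 2 < (2 * R) ^ 2}

/-- Sorted relative minimisers in the cube. -/
def StmtSorted : Prop :=
  ∀ V ∈ Ioc (0 : ℝ) (1 / 2), ∀ E, CubeMin CubeSorted V E →
    ∃ s R, Shape V s R ∧ E =ᵐ[volume.restrict cube] quad s R

/-- Relative minimisers in the cube: undoing the polarisations. -/
def StmtCube : Prop :=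
  ∀ V ∈ Ioc (0 : ℝ) (1 / 2), ∀ E, CubeMin (fun _ => True) V E →
    ∃ s R, Shape V s R ∧ E =ᵐ[volume.restrict cube] quad s R

end Vale.Agent.P232.Rigid
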