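import Vale.Agent.P232.Rigid.Field

/-!
# P232: a periodic line whose total variation stays below four is an arc in the limit
-/

open MeasureTheory Set Filter
open scoped Topology NNReal ENNReal

namespace Vale.Agent.P232.Rigid

/-- The variation over one period. -/
noncomputable def lineTV (u : ℝ → ℝ) : ℝ≥0∞ := ∫⁻ t in Icc (0 : ℝ) 1, ‖deriv u t‖ₑ

theorem ofReal_abs_sub_le {u : ℝ → ℝ} {L : ℝ≥0} (hu : LipschitzWith L u) {a b : ℝ} (hab : a ≤ b) :
    ENNReal.ofReal |u b - u a| ≤ ∫⁻ t in Ioc a b, ‖deriv u t‖ₑ := by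
  have hac : AbsolutelyContinuousOnInterval u a b :=
    (hu.lipschitzOnWith (s := uIcc a b)).absolutelyContinuousOnInterval
  rw [← hac.integral_deriv_eq_sub, intervalIntegral.integral_of_le hab, ← Real.norm_eq_abs,
    ofReal_norm_eq_enorm]
  exact enorm_integral_le_lintegral_enorm _

/-- Four points of a period, cyclically. -/
theorem sum_four_le {u : ℝ → ℝ} {L : ℝ≥0} (hu : LipschitzWith L u) (hp : u 1 = u 0) {a b c d : ℝ}
    (h0 : 0 ≤ a) (hab : a ≤ b) (hbc : b ≤ c) (hcd : c ≤ d) (h1 : d ≤ 1) :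
    ENNReal.ofReal (|u b - u a| + |u c - u b| + |u d - u c| + |u a - u d|) ≤ lineTV u := by
  set μ := (volume : Measure ℝ).withDensity fun t => ‖deriv u t‖ₑ with hμ
  have e : ∀ p q, p ≤ q → ENNReal.ofReal |u q - u p| ≤ μ (Ioc p q) := fun p q h => by
    rw [hμ, withDensity_apply _ measurableSet_Ioc]; exact ofReal_abs_sub_le hu h
  have hw : ENNReal.ofReal |u a - u d| ≤ μ (Ioc d 1) + μ (Ioc 0 a) := by
    refine le_trans ?_ (add_le_add (e d 1 h1) (e 0 a h0))
    rw [← ENNReal.ofReal_add (abs_nonneg _) (abs_nonneg _), hp]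
    exact ENNReal.ofReal_le_ofReal (by linarith [abs_sub_le (u a) (u 0) (u d)])
  have hsum : μ (Ioc 0 a) + μ (Ioc a b) + μ (Ioc b c) + μ (Ioc c d) + μ (Ioc d 1) =
      μ (Ioc 0 1) := by
    have u2 : ∀ p q r : ℝ, p ≤ q → q ≤ r → μ (Ioc p q) + μ (Ioc q r) = μ (Ioc p r) :=
      fun p q r hpq hqr => by
        rw [← measure_union (Ioc_disjoint_Ioc_of_le le_rfl) measurableSet_Ioc,
          Ioc_union_Ioc_eq_Ioc hpq hqr]
    rw [u2 0 a b h0 hab, u2 0 b c (h0.trans hab) hbc, u2 0 c d (by linarith) hcd,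
      u2 0 d 1 (by linarith) h1]
  rw [ENNReal.ofReal_add (by positivity) (abs_nonneg _),
    ENNReal.ofReal_add (by positivity) (abs_nonneg _),
    ENNReal.ofReal_add (abs_nonneg _) (abs_nonneg _)]
  calc _ ≤ μ (Ioc a b) + μ (Ioc b c) + μ (Ioc c d) + (μ (Ioc d 1) + μ (Ioc 0 a)) :=
        add_le_add (add_le_add (add_le_add (e a b hab) (e b c hbc)) (e c d hcd)) hw
    _ = μ (Ioc 0 1) := by rw [← hsum]; ring
    _ ≤ lineTV u := by
      rw [hμ, withDensity_apply _ measurableSet_Ioc]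
      exact lintegral_mono_set Ioc_subset_Icc_self

theorem isArc_null {A : Set ℝ} (hA : A ⊆ Icc (0 : ℝ) 1) (h : volume.real A = 0) : IsArc A := by
  have h0 : volume A = 0 := (measureReal_eq_zero_iff
    (ne_top_of_le_ne_top (by rw [Real.volume_Icc]; exact ENNReal.ofReal_ne_top)
      (measure_mono hA))).1 h
  refine ⟨0, ?_⟩
  have e : ({t : ℝ | dist1 (t - 0) < volume.real A / 2} : Set ℝ) = ∅ := by
    ext t; simp [h, dist1]
  rw [e, ae_eq_empty]
  exact Measure.absolutelyContinuous_of_le Measure.restrict_le_self h0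

/-- An open interval in the period, or the complement of one, is an arc. -/
theorem isArc_interval {A : Set ℝ} {p q : ℝ} (h0 : 0 ≤ p) (hpq : p ≤ q) (h1 : q ≤ 1)
    (hA : A ⊆ Icc (0 : ℝ) 1)
    (h : (A =ᵐ[volume.restrict (Icc (0 : ℝ) 1)] (Ioo p q : Set ℝ)) ∨
      A =ᵐ[volume.restrict (Icc (0 : ℝ) 1)] ((Ioo p q)ᶜ : Set ℝ)) : IsArc A := by
  have hvol : ∀ {S : Set ℝ}, MeasurableSet S → A =ᵐ[volume.restrict (Icc (0 : ℝ) 1)] S →
      volume.real A = volume.real (S ∩ Icc 0 1) := fun {S} hS he => by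
    rw [← inter_eq_left.2 hA, ← measureReal_restrict_apply' measurableSet_Icc,
      measureReal_congr he, measureReal_restrict_apply' measurableSet_Icc]
  have hne : ∀ᵐ t ∂volume.restrict (Icc (0 : ℝ) 1),
      t ∈ Ioo (0 : ℝ) 1 ∧ t ≠ p ∧ t ≠ q := by
    have e : ∀ r : ℝ, ∀ᵐ t ∂volume.restrict (Icc (0 : ℝ) 1), t ≠ r := fun r =>
      ae_restrict_of_ae (Measure.ae_ne volume r)
    filter_upwards [ae_restrict_mem measurableSet_Icc, e 0, e 1, e p, e q] with t ht a b c d
    exact ⟨⟨lt_of_le_of_ne ht.1 (Ne.symm a), lt_of_le_of_ne ht.2 b⟩, c, d⟩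
  rcases h with h | h
  · have hv : volume.real A = q - p := by
      rw [hvol measurableSet_Ioo h, inter_eq_left.2 (Ioo_subset_Icc_self.trans (Icc_subset_Icc h0 h1)),
        Real.volume_real_Ioo_of_le hpq]
    refine ⟨(p + q) / 2, h.trans ?_⟩
    filter_upwards [hne] with t h3
    have ht := h3.1
    refine propext ⟨fun hin => ?_, fun hd => ?_⟩
    · show dist1 _ < _
      refine (round_le (t - (p + q) / 2) 0).trans_lt ?_
      rw [Int.cast_zero, sub_zero, hv, abs_lt]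
      exact ⟨by linarith [hin.1], by linarith [hin.2]⟩
    · replace hd : dist1 (t - (p + q) / 2) < volume.real A / 2 := hd
      rw [hv, dist1, abs_lt] at hd
      obtain hn | hn | hn : round (t - (p + q) / 2) ≤ -1 ∨ round (t - (p + q) / 2) = 0 ∨
          1 ≤ round (t - (p + q) / 2) := by omega
      · have : (round (t - (p + q) / 2) : ℝ) ≤ -1 := by exact_mod_cast hn
        linarith [hd.2, ht.1]
      · rw [hn, Int.cast_zero, sub_zero] at hd
        exact ⟨by linarith [hd.1], by linarith [hd.2]⟩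
      · have : (1 : ℝ) ≤ round (t - (p + q) / 2) := by exact_mod_cast hn
        linarith [hd.1, ht.2]
  · have hv : volume.real A = 1 - (q - p) := by
      rw [hvol measurableSet_Ioo.compl h, inter_comm, ← sdiff_eq,
        measureReal_sdiff (Ioo_subset_Icc_self.trans (Icc_subset_Icc h0 h1)) measurableSet_Ioo
          (by rw [Real.volume_Icc]; exact ENNReal.ofReal_ne_top),
        Real.volume_real_Icc_of_le zero_le_one, Real.volume_real_Ioo_of_le hpq, sub_zero]
    refine ⟨(p + q) / 2 + 1 / 2, h.trans ?_⟩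
    filter_upwards [hne] with t h3
    obtain ⟨ht, hp, hq⟩ := h3
    refine propext ⟨fun hout => ?_, fun hd hin => ?_⟩
    · show dist1 _ < _
      rw [hv]
      rcases lt_or_gt_of_ne hp with h' | h'
      · refine (round_le _ (-1)).trans_lt (abs_lt.2 ⟨?_, ?_⟩) <;> push_cast <;>
          linarith [ht.1, ht.2]
      · have : q < t := lt_of_le_of_ne (not_lt.1 fun hh => hout ⟨h', hh⟩) (Ne.symm hq)
        refine (round_le _ 0).trans_lt (abs_lt.2 ⟨?_, ?_⟩) <;> push_cast <;>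
          linarith [ht.1, ht.2]
    · replace hd : dist1 (t - ((p + q) / 2 + 1 / 2)) < volume.real A / 2 := hd
      rw [hv, dist1, abs_lt] at hd
      obtain hn | hn : round (t - ((p + q) / 2 + 1 / 2)) ≤ -1 ∨
          0 ≤ round (t - ((p + q) / 2 + 1 / 2)) := by omega
      · have : (round (t - ((p + q) / 2 + 1 / 2)) : ℝ) ≤ -1 := by exact_mod_cast hn
        linarith [hd.2, hin.1]
      · have : (0 : ℝ) ≤ round (t - ((p + q) / 2 + 1 / 2)) := by exact_mod_cast hn
        linarith [hd.1, hin.2]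

/-- A set of a line all whose alternations have length two is an interval or a complement. -/
theorem exists_interval {A G : Set ℝ} (hG : G ⊆ Ioo (0 : ℝ) 1)
    (hG' : ∀ᵐ t ∂volume.restrict (Icc (0 : ℝ) 1), t ∈ G)
    (hA : (A ∩ G).Nonempty) (hB : (G \ A).Nonempty)
    (h1 : ∀ a b a' b', a ∈ A ∩ G → b ∈ G \ A → a' ∈ A ∩ G → b' ∈ G \ A →
      ¬(a < b ∧ b < a' ∧ a' < b') ∧ ¬(b < a ∧ a < b' ∧ b' < a')) :
    ∃ p q, 0 ≤ p ∧ p ≤ q ∧ q ≤ 1 ∧
      ((A =ᵐ[volume.restrict (Icc (0 : ℝ) 1)] (Ioo p q : Set ℝ)) ∨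
        A =ᵐ[volume.restrict (Icc (0 : ℝ) 1)] ((Ioo p q)ᶜ : Set ℝ)) := by
  have hne : ∀ r : ℝ, ∀ᵐ t ∂volume.restrict (Icc (0 : ℝ) 1), t ≠ r := fun r =>
    ae_restrict_of_ae (Measure.ae_ne volume r)
  have key : ∀ C : Set ℝ, C ⊆ G → C.Nonempty →
      (∀ a ∈ C, ∀ a' ∈ C, ∀ b ∈ G, a < b → b < a' → b ∈ C) →
      0 ≤ sInf C ∧ sInf C ≤ sSup C ∧ sSup C ≤ 1 ∧
        ∀ t ∈ G, t ≠ sInf C → t ≠ sSup C → (t ∈ C ↔ t ∈ Ioo (sInf C) (sSup C)) := by
    intro C hC hne' hconv
    have bb : BddBelow C := ⟨0, fun t ht => (hG (hC ht)).1.le⟩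
    have ba : BddAbove C := ⟨1, fun t ht => (hG (hC ht)).2.le⟩
    refine ⟨le_csInf hne' fun t ht => (hG (hC ht)).1.le, (csInf_le bb hne'.some_mem).trans (le_csSup ba hne'.some_mem),
      csSup_le hne' fun t ht => (hG (hC ht)).2.le, fun t ht h1 h2 => ?_⟩
    refine ⟨fun htC => ⟨lt_of_le_of_ne (csInf_le bb htC) (Ne.symm h1),
      lt_of_le_of_ne (le_csSup ba htC) h2⟩, fun ⟨hl, hr⟩ => ?_⟩
    obtain ⟨a, ha, hat⟩ := (csInf_lt_iff bb hne').1 hl
    obtain ⟨a', ha', hta⟩ := (lt_csSup_iff ba hne').1 hr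
    exact hconv a ha a' ha' t ht hat hta
  by_cases hc : ∀ a ∈ A ∩ G, ∀ a' ∈ A ∩ G, ∀ b ∈ G, a < b → b < a' → b ∈ A ∩ G
  · obtain ⟨k0, k1, k2, k3⟩ := key (A ∩ G) inter_subset_right hA hc
    refine ⟨_, _, k0, k1, k2, .inl ?_⟩
    filter_upwards [hG', hne (sInf (A ∩ G)), hne (sSup (A ∩ G))] with t ht a b
    exact propext ⟨fun hx => (k3 t ht a b).1 ⟨hx, ht⟩, fun hx => ((k3 t ht a b).2 hx).1⟩
  · push Not at hc
    obtain ⟨a, ha, a', ha', b, hb, hab, hba, hbA⟩ := hc
    have hb' : b ∈ G \ A := ⟨hb, fun h => hbA ⟨h, hb⟩⟩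
    obtain ⟨k0, k1, k2, k3⟩ := key (G \ A) sdiff_subset hB (by
      intro c hc c' hc' x hx hcx hxc
      by_contra hxA
      have hx' : x ∈ A ∩ G := ⟨by_contra fun h => hxA ⟨hx, h⟩, hx⟩
      rcases lt_trichotomy c a with h | rfl | h
      · exact (h1 a c a' b ha hc ha' hb').2 ⟨h, hab, hba⟩
      · exact hc.2 ha.1
      · exact (h1 a c x c' ha hc hx' hc').1 ⟨h, hcx, hxc⟩)
    refine ⟨_, _, k0, k1, k2, .inr ?_⟩
    filter_upwards [hG', hne (sInf (G \ A)), hne (sSup (G \ A))] with t ht u v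
    refine propext ⟨fun hx hI => ((k3 t ht u v).2 hI).2 hx, fun hx => ?_⟩
    exact by_contra fun h => hx ((k3 t ht u v).1 ⟨ht, h⟩)

/-- The limit of lines: nontrivial traces cost two, all but arcs cost four. -/
theorem line_limit {A : Set ℝ} (hAm : MeasurableSet A) (hAI : A ⊆ Icc (0 : ℝ) 1) {v : ℕ → ℝ → ℝ}
    (hL : ∀ n, ∃ L : ℝ≥0, LipschitzWith L (v n)) (hp : ∀ n, v n 1 = v n 0)
    (hlim : ∀ᵐ t ∂volume.restrict (Icc (0 : ℝ) 1),
      Tendsto (fun n => v n t) atTop (𝓝 (A.indicator (fun _ => (1 : ℝ)) t))) :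
    (0 < volume.real A → volume.real A < 1 → 2 ≤ liminf (fun n => lineTV (v n)) atTop) ∧
      (¬IsArc A → 4 ≤ liminf (fun n => lineTV (v n)) atTop) := by
  set G : Set ℝ := {t ∈ Ioo (0 : ℝ) 1 |
    Tendsto (fun n => v n t) atTop (𝓝 (A.indicator (fun _ => (1 : ℝ)) t))} with hGd
  have hG' : ∀ᵐ t ∂volume.restrict (Icc (0 : ℝ) 1), t ∈ G := by
    filter_upwards [hlim, ae_restrict_mem measurableSet_Icc,
      ae_restrict_of_ae (Measure.ae_ne volume (0 : ℝ)),
      ae_restrict_of_ae (Measure.ae_ne volume (1 : ℝ))] with t ht hI a b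
    exact ⟨⟨lt_of_le_of_ne hI.1 (Ne.symm a), lt_of_le_of_ne hI.2 b⟩, ht⟩
  have hnull : volume (Icc (0 : ℝ) 1 \ G) = 0 := by
    have h := ae_iff.1 hG'
    rwa [Measure.restrict_apply' measurableSet_Icc,
      show {t | ¬t ∈ G} ∩ Icc (0 : ℝ) 1 = Icc (0 : ℝ) 1 \ G by
        ext t; simp [and_comm]] at h
  have htop : ∀ S ⊆ Icc (0 : ℝ) 1, volume S ≠ ⊤ := fun S hS =>
    ne_top_of_le_ne_top (by rw [Real.volume_Icc]; exact ENNReal.ofReal_ne_top) (measure_mono hS)
  have hA : 0 < volume.real A → (A ∩ G).Nonempty := fun h => by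
    by_contra hn
    have : volume A ≤ volume (Icc (0 : ℝ) 1 \ G) :=
      measure_mono fun t ht => ⟨hAI ht, fun hg => hn ⟨t, ht, hg⟩⟩
    rw [hnull, nonpos_iff_eq_zero] at this
    simp [measureReal_def, this] at h
  have hB : volume.real A < 1 → (G \ A).Nonempty := fun h => by
    by_contra hn
    have h1 : volume (Icc (0 : ℝ) 1) ≤ volume A + volume (Icc (0 : ℝ) 1 \ G) :=
      le_trans (measure_mono fun t ht => by
        by_cases hg : t ∈ G
        · exact Or.inl (by_contra fun ha => hn ⟨t, hg, ha⟩)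
        · exact Or.inr ⟨ht, hg⟩) (measure_union_le _ _)
    rw [hnull, add_zero, Real.volume_Icc, sub_zero] at h1
    have := ENNReal.toReal_mono (htop A hAI) h1
    rw [ENNReal.toReal_ofReal zero_le_one] at this
    exact absurd h (not_lt.2 this)
  have bound : ∀ a b c d, a ∈ G → b ∈ G → c ∈ G → d ∈ G → a ≤ b → b ≤ c → c ≤ d →
      ENNReal.ofReal
        (|A.indicator (fun _ => (1 : ℝ)) b - A.indicator (fun _ => (1 : ℝ)) a| +
          |A.indicator (fun _ => (1 : ℝ)) c - A.indicator (fun _ => (1 : ℝ)) b| +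
          |A.indicator (fun _ => (1 : ℝ)) d - A.indicator (fun _ => (1 : ℝ)) c| +
          |A.indicator (fun _ => (1 : ℝ)) a - A.indicator (fun _ => (1 : ℝ)) d|) ≤
        liminf (fun n => lineTV (v n)) atTop := by
    intro a b c d ha hb hc hd hab hbc hcd
    have hT := ENNReal.continuous_ofReal.continuousAt.tendsto.comp
      ((((hb.2.sub ha.2).abs.add (hc.2.sub hb.2).abs).add (hd.2.sub hc.2).abs).add
        (ha.2.sub hd.2).abs)
    refine hT.liminf_eq.ge.trans (liminf_le_liminf (Eventually.of_forall fun n => ?_))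
    obtain ⟨L, hLn⟩ := hL n
    exact sum_four_le hLn (hp n) ha.1.1.le hab hbc hcd hd.1.2.le
  refine ⟨fun h0 h1 => ?_, fun harc => ?_⟩
  · obtain ⟨a, haA, ha⟩ := hA h0
    obtain ⟨b, hb, hbA⟩ := hB h1
    rcases le_total a b with h | h
    · have := bound a b b b ha hb hb hb h le_rfl le_rfl
      norm_num [indicator_of_mem haA, indicator_of_notMem hbA] at this ⊢
      exact this
    · have := bound b a a a hb ha ha ha h le_rfl le_rfl
      norm_num [indicator_of_mem haA, indicator_of_notMem hbA] at this ⊢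
      exact this
  · have h0 : 0 < volume.real A := measureReal_nonneg.lt_of_ne' fun h => harc (isArc_null hAI h)
    have h1 : volume.real A < 1 := by
      refine lt_of_not_ge fun h => harc (isArc_interval le_rfl le_rfl zero_le_one hAI (Or.inr ?_))
      rw [Ioo_self, compl_empty, ae_eq_univ, Measure.restrict_apply' measurableSet_Icc,
        inter_comm, ← sdiff_eq]
      have hd := measureReal_sdiff hAI hAm (μ := volume) (htop _ subset_rfl)
      rw [Real.volume_real_Icc_of_le zero_le_one, sub_zero] at hd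
      refine (measureReal_eq_zero_iff (htop _ sdiff_subset)).1 (le_antisymm ?_ measureReal_nonneg)
      linarith
    by_contra hlt
    refine harc ?_
    have hG01 : G ⊆ Ioo (0 : ℝ) 1 := fun t ht => ht.1
    obtain ⟨p, q, h0', hpq, hq, h⟩ := exists_interval hG01 hG' (hA h0) (hB h1) fun a b a' b' ha hb ha' hb' => by
      refine ⟨fun ⟨u, v, w⟩ => hlt ?_, fun ⟨u, v, w⟩ => hlt ?_⟩
      · have := bound a b a' b' ha.2 hb.1 ha'.2 hb'.1 u.le v.le w.le
        norm_num [indicator_of_mem ha.1, indicator_of_notMem hb.2, indicator_of_mem ha'.1,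
          indicator_of_notMem hb'.2] at this ⊢
        exact this
      · have := bound b a b' a' hb.1 ha.2 hb'.1 ha'.2 u.le v.le w.le
        norm_num [indicator_of_mem ha.1, indicator_of_notMem hb.2, indicator_of_mem ha'.1,
          indicator_of_notMem hb'.2] at this ⊢
        exact this
    exact isArc_interval h0' hpq hq hAI h

end Vale.Agent.P232.Rigid
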