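import Vale.Agent.P232.Rigid.Arc
import Vale.Agent.P232.Lower

/-!
# P232: one symmetrisation step backwards
-/

open MeasureTheory Set Filter
open scoped Topology NNReal ENNReal

namespace Vale.Agent.P232.Rigid

variable {i : Fin 3} {s : Finset (Fin 3)} {R V : ℝ} {c : R3} {E : Set R3}

theorem measurableSet_body : MeasurableSet (body s R c) :=
  measurableSet_lt (continuous_finsetSum _ fun _ _ =>
    (continuous_dist1.comp ((continuous_apply _).sub continuous_const)).pow 2).measurable
    measurable_const

theorem body_periodic : IsPeriodic fun x => x ∈ body s R c := fun x k => by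
  simp only [body, mem_ofPred_eq, Pi.add_apply, add_sub_right_comm, dist1_add_intCast]

theorem body_shift {a : Fin 3} (ha : a ∉ s) (t : ℝ) :
    {x | x + Pi.single a t ∈ body s R c} = body s R c := by
  ext x
  simp only [body, mem_ofPred_eq]
  rw [Finset.sum_congr rfl fun j hj => by
    rw [Pi.add_apply, Pi.single_eq_of_ne (ne_of_mem_of_not_mem hj ha), add_zero]]

theorem ind_mem_Icc (E : Set R3) (x : R3) : ind E x ∈ Icc (0 : ℝ) 1 :=
  ⟨indicator_nonneg (fun _ _ => zero_le_one) x, indicator_le_self' (fun _ _ => zero_le_one) x⟩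

theorem abs_ind_le (E : Set R3) (x : R3) : |ind E x| ≤ 1 := abs_indicator_one_le E x

theorem integrable_ind (hE : MeasurableSet E) : Integrable (ind E) (volume.restrict cube) :=
  (integrable_const (1 : ℝ)).indicator hE

theorem setIntegral_ind (hE : MeasurableSet E) :
    ∫ x in cube, ind E x = volume.real (E ∩ cube) := by
  rw [ind, setIntegral_indicator hE, setIntegral_const, smul_eq_mul, mul_one, inter_comm]

theorem ae_of_lines (i : Fin 3) {P : R3 → Prop} (hP : MeasurableSet {x | P x})
    (h : ∀ᵐ y ∂volume.restrict sq, ∀ᵐ t ∂volume.restrict (Icc (0 : ℝ) 1), P (i.insertNth t y)) :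
    ∀ᵐ x ∂volume.restrict cube, P x := by
  rw [ae_iff]
  have hN : MeasurableSet {x | ¬P x} := hP.compl
  rw [← lintegral_indicator_one hN,
    lintegral_cube_lines i ((measurable_one (α := ℝ≥0∞)).indicator hN)]
  refine (lintegral_congr_ae ?_).trans lintegral_zero
  filter_upwards [h] with y hy
  refine (lintegral_congr_ae ?_).trans lintegral_zero
  filter_upwards [hy] with t ht
  exact indicator_of_notMem (not_not.2 ht) _

theorem lintegral_lineLen (hE : MeasurableSet E) (hV : volume.real (E ∩ cube) = V) (i : Fin 3) :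
    ∫⁻ y in sq, ENNReal.ofReal (lineLen i E y) = ENNReal.ofReal V := by
  have h := lintegral_cube_lines i (measurable_const.indicator hE : Measurable
    (E.indicator fun _ => (1 : ℝ≥0∞)))
  rw [lintegral_indicator hE, setLIntegral_one, Measure.restrict_apply hE] at h
  rw [← hV, measureReal_def, ENNReal.ofReal_toReal
    (ne_top_of_le_ne_top (by rw [volume_cube]; exact ENNReal.one_ne_top)
      (measure_mono inter_subset_right)), h]
  refine lintegral_congr fun y => ?_
  have hm : MeasurableSet {t : ℝ | (i.insertNth t y : R3) ∈ E} :=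
    hE.preimage ((measurable_lineMap i).comp (measurable_id.prodMk measurable_const))
  rw [← volume_lineSet, show (fun t => E.indicator (fun _ => (1 : ℝ≥0∞)) (i.insertNth t y)) =
    {t : ℝ | (i.insertNth t y : R3) ∈ E}.indicator fun _ => 1 from rfl, lintegral_indicator hm,
    setLIntegral_one, Measure.restrict_apply hm]
  exact congrArg _ (by ext t; simp [lineSet, and_comm])

/-- The case of a body not involving the direction. -/
theorem eq_of_notMem (hm : MeasurableSet E) (hp : IsPeriodic fun x => x ∈ E) (hi : i ∉ s)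
    (hlen : ∀ᵐ y, lineLen i E y = lineLen i (body s R c) y) : SetAE E (body s R c) := by
  refine setAE_of_cube hp body_periodic ?_
  have hP : MeasurableSet {x | (x ∈ E) ↔ x ∈ body s R c} := by
    rw [show {x | (x ∈ E) ↔ x ∈ body s R c} = (E ∩ body s R c) ∪ (Eᶜ ∩ (body s R c)ᶜ) by
      ext x; simp only [mem_ofPred_eq, mem_union, mem_inter_iff, mem_compl_iff]; tauto]
    exact (hm.inter measurableSet_body).union (hm.compl.inter measurableSet_body.compl)
  refine (ae_of_lines i hP ?_).mono fun x hx => propext hx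
  filter_upwards [ae_restrict_of_ae hlen] with y hy
  have hfin : volume (Icc (0 : ℝ) 1) ≠ ⊤ := by
    rw [Real.volume_Icc]; exact ENNReal.ofReal_ne_top
  rcases lineSet_body_of_notMem hi (R := R) (c := c) y with h | h
  · rw [lineLen, lineLen, h, measureReal_empty] at hy
    have h0 := (measureReal_eq_zero_iff
      (ne_top_of_le_ne_top hfin (measure_mono fun t ht => ht.1))).1 hy
    filter_upwards [ae_restrict_mem measurableSet_Icc,
      measure_eq_zero_iff_ae_notMem.1 (Measure.absolutelyContinuous_of_le
        (Measure.restrict_le_self (s := Icc (0 : ℝ) 1)) h0)] with t ht hn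
    exact iff_of_false (fun hh => hn ⟨ht, hh⟩) fun hh => by
      have : t ∈ lineSet i (body s R c) y := ⟨ht, hh⟩
      rw [h] at this; exact this
  · rw [lineLen, lineLen, h] at hy
    have hd := measureReal_sdiff (μ := volume) (fun t ht => (ht : t ∈ lineSet i E y).1)
      (measurableSet_lineSet hm i y) hfin
    rw [hy, sub_self] at hd
    have h0 := (measureReal_eq_zero_iff (ne_top_of_le_ne_top hfin
      (measure_mono sdiff_subset))).1 hd
    filter_upwards [ae_restrict_mem measurableSet_Icc,
      measure_eq_zero_iff_ae_notMem.1 (Measure.absolutelyContinuous_of_le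
        (Measure.restrict_le_self (s := Icc (0 : ℝ) 1)) h0)] with t ht hn
    refine iff_of_true (by_contra fun hh => hn ⟨ht, fun hl => hh hl.2⟩) ?_
    have : t ∈ lineSet i (body s R c) y := by rw [h]; exact ht
    exact this.2

theorem invAxis_congr {F : Set R3} (h : SetAE E F) {a : Fin 3}
    (hF : ∀ t : ℝ, {x | x + Pi.single a t ∈ F} = F) : InvAxis a E := by
  intro t
  have h2 : ({x : R3 | x + (Pi.single a t : R3) ∈ E} : Set R3) =ᵐ[volume]
      ({x : R3 | x + (Pi.single a t : R3) ∈ F} : Set R3) :=
    (measurePreserving_add_right (volume : Measure R3) (Pi.single a t)).quasiMeasurePreserving.ae_eq h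
  exact h2.trans ((Filter.EventuallyEq.of_eq (hF t)).trans h.symm)


theorem hasDerivAt_line {f : R3 → ℝ} {t : ℝ} {y : Fin 2 → ℝ}
    (h : DifferentiableAt ℝ f (i.insertNth t y)) :
    HasDerivAt (fun u => f (i.insertNth u y)) (pd f i (i.insertNth t y)) t := by
  have e : ∀ u, (i.insertNth u y : R3) = Function.update (i.insertNth t y) i u := fun u => by
    rw [Fin.update_insertNth]
  have h' := h.hasFDerivAt
  rw [e t] at h'
  have := h'.comp_hasDerivAt t (hasDerivAt_update (i.insertNth t y : R3) i t)
  simp only [Function.comp_def, ← e] at this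
  exact this

/-- A subsequence converging almost everywhere. -/
theorem Min.exists_ae (h : Min V E) : ∃ f : ℕ → R3 → ℝ,
    (∀ k, ∃ L : ℝ≥0, LipschitzWith L (f k)) ∧ (∀ k, IsPeriodic (f k)) ∧
    (∀ k x, f k x ∈ Icc (0 : ℝ) 1) ∧
    (∀ᵐ x ∂volume.restrict cube, Tendsto (fun k => f k x) atTop (𝓝 (ind E x))) ∧
    ∀ ε > 0, ∀ᶠ k in atTop, ∫ x in cube, gradNorm (f k) x ≤ candidate V + ε := by
  obtain ⟨f, hL, hp, hr, hl, he⟩ := h.approx
  have hc : ∀ k, Continuous (f k) := fun k => (hL k).choose_spec.continuous
  have hm : ∀ k, AEStronglyMeasurable (f k) (volume.restrict cube) :=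
    fun k => (hc k).aestronglyMeasurable
  have hi : ∀ k, Integrable (fun x => f k x - ind E x) (volume.restrict cube) := fun k =>
    ((hc k).continuousOn.integrableOn_compact isCompact_cube).sub (integrable_ind h.meas)
  have hT : TendstoInMeasure (volume.restrict cube) f atTop (ind E) := by
    refine tendstoInMeasure_of_tendsto_eLpNorm one_ne_zero hm
      (integrable_ind h.meas).aestronglyMeasurable ?_
    have e : ∀ k, eLpNorm (f k - ind E) 1 (volume.restrict cube) =
        ENNReal.ofReal (∫ x in cube, |f k x - ind E x|) := fun k => by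
      rw [eLpNorm_one_eq_lintegral_enorm,
        ← ofReal_integral_norm_eq_lintegral_enorm (f := f k - ind E) (hi k)]
      rfl
    simp only [e]
    simpa using ENNReal.tendsto_ofReal hl
  obtain ⟨φ, hφ, hae⟩ := hT.exists_seq_tendsto_ae
  exact ⟨fun k => f (φ k), fun k => hL _, fun k => hp _, fun k => hr _, hae,
    fun ε hε => hφ.tendsto_atTop.eventually (he ε hε)⟩

/-- The pointwise calibration. -/
theorem calib_le {η : ℝ} (hη : 0 < η) (hR : 0 < R) {a : Fin 3} (hia : a ≠ i) (ha : a ∉ s) {e ψ : ℝ}
    (he : 0 ≤ e) (he1 : e ≤ 1) (hψ : |ψ| ≤ 1) (f : R3 → ℝ) (x : R3) :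
    Real.sqrt (1 - e ^ 2) *
        (eta0 i s R c x * |pd f i x| - ∑ j, pd f j x * chi i s R η c x j) - e * ψ * pd f a x ≤
      gradNorm f x := by
  set l := Real.sqrt (1 - e ^ 2)
  set g := eta0 i s R c x * if 0 ≤ pd f i x then (1 : ℝ) else -1
  set b : Fin 3 → ℝ := fun j =>
    l * ((Pi.single i g : R3) j - chi i s R η c x j) - e * ψ * (Pi.single a (1 : ℝ) : R3) j
  have hci : chi i s R η c x i = 0 := chi_of_notMem (Finset.notMem_erase i s)
  have hca : chi i s R η c x a = 0 := chi_of_notMem fun h => ha (Finset.mem_of_mem_erase h)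
  have hg2 : g ^ 2 = eta0 i s R c x ^ 2 := by simp only [g]; split_ifs <;> ring
  have hb : ∑ j, b j ^ 2 ≤ 1 := by
    have hsq : ∀ j, b j ^ 2 = l ^ 2 * ((Pi.single i (g ^ 2) : R3) j + chi i s R η c x j ^ 2) +
        (e * ψ) ^ 2 * (Pi.single a (1 : ℝ) : R3) j := fun j => by
      simp only [b]
      rcases eq_or_ne j i with rfl | hj
      · rw [Pi.single_eq_same, Pi.single_eq_same, Pi.single_eq_of_ne hia.symm, hci]; ring
      · rw [Pi.single_eq_of_ne hj, Pi.single_eq_of_ne hj]
        rcases eq_or_ne j a with rfl | hja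
        · rw [Pi.single_eq_same, hca]; ring
        · rw [Pi.single_eq_of_ne hja]; ring
    simp only [hsq, Finset.sum_add_distrib, ← Finset.mul_sum, Finset.sum_pi_single',
      Finset.mem_univ, if_true]
    have hl : l ^ 2 = 1 - e ^ 2 := Real.sq_sqrt (sub_nonneg.2 (pow_le_one₀ he he1))
    rw [hl, hg2, mul_one]
    have h1 := chi_add_eta0_le (i := i) (s := s) (c := c) (x := x) hη hR
    have h2 : (e * ψ) ^ 2 ≤ e ^ 2 := by
      rw [mul_pow]
      exact mul_le_of_le_one_right (sq_nonneg e) ((sq_le_one_iff_abs_le_one _).2 hψ)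
    have h3 : (1 - e ^ 2) * (eta0 i s R c x ^ 2 + ∑ j, chi i s R η c x j ^ 2) ≤ 1 - e ^ 2 :=
      mul_le_of_le_one_right (sub_nonneg.2 (pow_le_one₀ he he1)) (by linarith)
    linarith
  refine le_trans (le_of_eq ?_) (sum_mul_le (a := fun j => pd f j x) hb)
  simp only [b, mul_sub, Finset.sum_sub_distrib, mul_left_comm (pd f _ x), ← Finset.mul_sum]
  simp only [Pi.single_apply, mul_ite, mul_zero, mul_one, Finset.sum_ite_eq', Finset.mem_univ,
    if_true]
  have : g * pd f i x = eta0 i s R c x * |pd f i x| := by
    simp only [g]; split_ifs with h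
    · rw [abs_of_nonneg h]; ring
    · rw [abs_of_neg (not_le.1 h)]; ring
  rw [mul_comm (pd f i x) g, this]

/-- Integrated calibration: weighted variation in direction `i` plus two fluxes. -/
theorem energy_ge {η : ℝ} (hη : 0 < η) (hR : 0 < R) (hR' : R ^ 2 + η < 1 / 4) {a : Fin 3}
    (hia : a ≠ i) (ha : a ∉ s) {e : ℝ} (he : 0 ≤ e) (he1 : e ≤ 1) {ψ : R3 → ℝ}
    (hψ : ContDiff ℝ 1 ψ) (hψp : IsPeriodic ψ) (hψ1 : ∀ x, |ψ x| ≤ 1)
    {f : R3 → ℝ} {L : ℝ≥0} (hf : LipschitzWith L f) (hp : IsPeriodic f) :
    Real.sqrt (1 - e ^ 2) * ((∫ x in cube, eta0 i s R c x * |pd f i x|) +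
        ∫ x in cube, f x * divg (chi i s R η c) x) + e * ∫ x in cube, f x * pd ψ a x ≤
      ∫ x in cube, gradNorm f x := by
  set φ : R3 → R3 := fun x => Pi.single a (ψ x) with hφd
  have hφj : ∀ x j, φ x j = if j = a then ψ x else 0 := fun x j => Pi.single_apply _ _ _
  have hφ : TestField φ := ⟨contDiff_pi.2 fun j => by
      rcases eq_or_ne j a with rfl | h
      · simpa [hφj] using hψ
      · simpa [hφj, h] using contDiff_const, fun x k => by simp only [hφd, hψp x k],
    fun x => by
      simp only [hφj, ite_pow, ne_eq, OfNat.ofNat_ne_zero, not_false_eq_true, zero_pow,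
        Finset.sum_ite_eq', Finset.mem_univ, if_true]
      exact (sq_le_one_iff_abs_le_one _).2 (hψ1 x)⟩
  have hdiv : ∀ x, divg φ x = pd ψ a x := fun x => by
    simp only [divg, ← fderiv_component hφ.1, hφj]
    rw [Finset.sum_eq_single a (fun j _ hj => by simp [hj]) (by simp)]
    simp [pd]
  have hχ := testField_chi (i := i) (s := s) (c := c) hη hR hR'
  have h1 := integral_mul_divg hf hp hχ
  have h2 := integral_mul_divg hf hp hφ
  simp only [hdiv] at h2
  simp only [hφj, mul_ite, mul_zero, Finset.sum_ite_eq', Finset.mem_univ, if_true] at h2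
  have hb : ∀ {G : R3 → ℝ} (C : ℝ), Measurable G → (∀ x, |G x| ≤ C) →
      Integrable G (volume.restrict cube) := fun C hG hC =>
    Integrable.mono' (integrable_const C) hG.aestronglyMeasurable (Eventually.of_forall hC)
  have hpd : ∀ j x, |pd f j x| ≤ (L : ℝ) := fun j x =>
    (abs_apply_le _ j).trans (norm_fderiv_le_of_lipschitz ℝ hf)
  have hpm : ∀ j, Measurable (pd f j) := fun j => measurable_fderiv_apply_const ℝ f _
  have heb : ∀ x, eta0 i s R c x ≤ 1 := fun x => Real.sqrt_le_one.2
    (max_le zero_le_one (sub_le_self _ (div_nonneg tr2_nonneg (sq_nonneg R))))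
  have i1 : Integrable (fun x => eta0 i s R c x * |pd f i x|) (volume.restrict cube) :=
    hb L (continuous_eta0.measurable.mul (continuous_abs.measurable.comp (hpm i))) fun x => by
      rw [abs_mul, abs_abs, abs_of_nonneg eta0_nonneg]
      exact (mul_le_of_le_one_left (abs_nonneg _) (heb x)).trans (hpd i x)
  have i2 : Integrable (fun x => ∑ j, pd f j x * chi i s R η c x j) (volume.restrict cube) :=
    integrable_finsetSum _ fun j _ => hb L
      ((hpm j).mul ((continuous_apply j).comp hχ.1.continuous).measurable) fun x => by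
      rw [abs_mul]
      exact (mul_le_of_le_one_right (abs_nonneg _) (hχ.abs_le_one x j)).trans (hpd j x)
  have i3 : Integrable (fun x => pd f a x * ψ x) (volume.restrict cube) :=
    hb L ((hpm a).mul hψ.continuous.measurable) fun x => by
      rw [abs_mul]
      exact (mul_le_of_le_one_right (abs_nonneg _) (hψ1 x)).trans (hpd a x)
  have hle : ∫ x in cube, (Real.sqrt (1 - e ^ 2) *
      (eta0 i s R c x * |pd f i x| - ∑ j, pd f j x * chi i s R η c x j) -
        e * (pd f a x * ψ x)) ≤ ∫ x in cube, gradNorm f x := by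
    refine integral_mono (((i1.sub i2).const_mul _).sub (i3.const_mul _))
      (integrableOn_gradNorm hf) fun x => ?_
    have h := calib_le (c := c) hη hR hia ha he he1 (hψ1 x) f x
    show _ - e * (pd f a x * ψ x) ≤ _
    rw [mul_comm (pd f a x), ← mul_assoc]
    exact h
  have i12 : Integrable (fun x => eta0 i s R c x * |pd f i x| -
      ∑ j, pd f j x * chi i s R η c x j) (volume.restrict cube) := i1.sub i2
  rw [integral_sub (i12.const_mul _) (i3.const_mul _), integral_const_mul,
    integral_sub i1 i2, integral_const_mul] at hle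
  rw [h1, h2]
  linarith

/-- The calibration without an extra axis. -/
theorem energy_ge_plain {η : ℝ} (hη : 0 < η) (hR : 0 < R) (hR' : R ^ 2 + η < 1 / 4)
    {f : R3 → ℝ} {L : ℝ≥0} (hf : LipschitzWith L f) (hp : IsPeriodic f) :
    (∫ x in cube, eta0 i s R c x * |pd f i x|) + ∫ x in cube, f x * divg (chi i s R η c) x ≤
      ∫ x in cube, gradNorm f x := by
  have hχ := testField_chi (i := i) (s := s) (c := c) hη hR hR'
  have h1 := integral_mul_divg hf hp hχ
  have hb : ∀ {G : R3 → ℝ} (C : ℝ), Measurable G → (∀ x, |G x| ≤ C) →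
      Integrable G (volume.restrict cube) := fun C hG hC =>
    Integrable.mono' (integrable_const C) hG.aestronglyMeasurable (Eventually.of_forall hC)
  have hpd : ∀ j x, |pd f j x| ≤ (L : ℝ) := fun j x =>
    (abs_apply_le _ j).trans (norm_fderiv_le_of_lipschitz ℝ hf)
  have hpm : ∀ j, Measurable (pd f j) := fun j => measurable_fderiv_apply_const ℝ f _
  have i1 : Integrable (fun x => eta0 i s R c x * |pd f i x|) (volume.restrict cube) :=
    hb L (continuous_eta0.measurable.mul (continuous_abs.measurable.comp (hpm i))) fun x => by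
      rw [abs_mul, abs_abs, abs_of_nonneg eta0_nonneg]
      exact (mul_le_of_le_one_left (abs_nonneg _) (Real.sqrt_le_one.2
        (max_le zero_le_one (sub_le_self _ (div_nonneg tr2_nonneg (sq_nonneg R)))))).trans (hpd i x)
  have i2 : Integrable (fun x => ∑ j, pd f j x * chi i s R η c x j) (volume.restrict cube) :=
    integrable_finsetSum _ fun j _ => hb L
      ((hpm j).mul ((continuous_apply j).comp hχ.1.continuous).measurable) fun x => by
      rw [abs_mul]
      exact (mul_le_of_le_one_right (abs_nonneg _) (hχ.abs_le_one x j)).trans (hpd j x)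
  have hle : ∫ x in cube, (eta0 i s R c x * |pd f i x| -
      ∑ j, pd f j x * chi i s R η c x j) ≤ ∫ x in cube, gradNorm f x := by
    refine integral_mono (i1.sub i2) (integrableOn_gradNorm hf) fun x => ?_
    set g := eta0 i s R c x * if 0 ≤ pd f i x then (1 : ℝ) else -1
    have hg2 : g ^ 2 = eta0 i s R c x ^ 2 := by simp only [g]; split_ifs <;> ring
    have hb2 : ∑ j, ((Pi.single i g : R3) j - chi i s R η c x j) ^ 2 ≤ 1 := by
      refine le_trans (le_of_eq ?_) (chi_add_eta0_le (i := i) (s := s) (c := c) (x := x) hη hR)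
      rw [show eta0 i s R c x ^ 2 = ∑ j, (Pi.single i (g ^ 2) : R3) j by simp [hg2],
        ← Finset.sum_add_distrib]
      refine Finset.sum_congr rfl fun j _ => ?_
      rcases eq_or_ne j i with rfl | hj
      · simp [chi_of_notMem (Finset.notMem_erase j s)]
      · simp [Pi.single_eq_of_ne hj]
    refine le_trans (le_of_eq ?_) (sum_mul_le (a := fun j => pd f j x) hb2)
    have hgi : g * pd f i x = eta0 i s R c x * |pd f i x| := by
      simp only [g]; split_ifs with h
      · rw [abs_of_nonneg h]; ring
      · rw [abs_of_neg (not_le.1 h)]; ring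
    simp only [mul_sub, Finset.sum_sub_distrib, Pi.single_apply, mul_ite, mul_zero,
      Finset.sum_ite_eq', Finset.mem_univ, if_true]
    rw [mul_comm (pd f i x) g, hgi]
  rw [integral_sub i1 i2] at hle
  rw [h1]
  linarith

/-- The lines of a set having the line lengths of a body lie in its projection. -/
theorem ae_tr2_lt (hm : MeasurableSet E) (hi : i ∈ s) (hS : Shape V s R)
    (hlen : ∀ᵐ y, lineLen i E y = lineLen i (body s R c) y) :
    ∀ᵐ x ∂volume.restrict cube, x ∈ E → tr2 i s c x < R ^ 2 := by
  refine ae_of_lines i ?_ ?_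
  · rw [show {x | x ∈ E → tr2 i s c x < R ^ 2} = Eᶜ ∪ {x | tr2 i s c x < R ^ 2} by
      ext x; simp [imp_iff_not_or]]
    exact hm.compl.union (measurableSet_lt continuous_tr2.measurable measurable_const)
  filter_upwards [ae_restrict_of_ae hlen] with y hy
  by_cases hu : tr2 i s c (i.insertNth 0 y) < R ^ 2
  · exact Eventually.of_forall fun t _ => by rw [tr2_insertNth t y]; exact hu
  · have hR := hS.pos
    have h0 : eta0 i s R c (i.insertNth 0 y) = 0 := by
      rw [eta0, max_eq_left (sub_nonpos.2 ((one_le_div (by positivity)).2 (not_lt.1 hu))),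
        Real.sqrt_zero]
    rw [lineLen_body hi hS.pos hS.lt_half y, h0, mul_zero, lineLen] at hy
    have hn := (measureReal_eq_zero_iff
      (ne_top_of_le_ne_top (by rw [Real.volume_Icc]; exact ENNReal.ofReal_ne_top)
        (measure_mono fun t ht => (ht : t ∈ lineSet i E y).1))).1 hy
    filter_upwards [ae_restrict_mem measurableSet_Icc,
      measure_eq_zero_iff_ae_notMem.1 (Measure.absolutelyContinuous_of_le
        (Measure.restrict_le_self (s := Icc (0 : ℝ) 1)) hn)] with t ht h hE'
    exact absurd ⟨ht, hE'⟩ h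

theorem integral_mul_divg_chi (hm : MeasurableSet E) (hV : volume.real (E ∩ cube) = V)
    (hi : i ∈ s) (hS : Shape V s R) (hlen : ∀ᵐ y, lineLen i E y = lineLen i (body s R c) y)
    {η : ℝ} (hη : 0 < η) (hR' : R ^ 2 + η < 1 / 4) :
    ∫ x in cube, ind E x * divg (chi i s R η c) x =
      ((s.card : ℝ) - 1) * V / Real.sqrt (R ^ 2 + η) := by
  have e : ((s.erase i).card : ℝ) = (s.card : ℝ) - 1 := by
    rw [Finset.card_erase_of_mem hi, Nat.cast_sub (Finset.card_pos.2 hS.nonempty)]; simp
  have h : (fun x => ind E x * divg (chi i s R η c) x) =ᵐ[volume.restrict cube]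
      fun x => ((s.card : ℝ) - 1) / Real.sqrt (R ^ 2 + η) * ind E x := by
    filter_upwards [ae_tr2_lt hm hi hS hlen] with x hx
    by_cases hxE : x ∈ E
    · rw [divg_chi hη hR' (hx hxE), e, mul_comm]
    · simp [ind, indicator_of_notMem hxE]
  rw [integral_congr_ae h, integral_const_mul, setIntegral_ind hm, hV]
  ring

theorem lintegral_eta0 (hm : MeasurableSet E) (hV : volume.real (E ∩ cube) = V)
    (hi : i ∈ s) (hS : Shape V s R) (hlen : ∀ᵐ y, lineLen i E y = lineLen i (body s R c) y) :
    ∫⁻ y in sq, ENNReal.ofReal (eta0 i s R c (i.insertNth 0 y)) * 2 = ENNReal.ofReal (V / R) := by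
  have h : ∀ᵐ y ∂volume.restrict sq, ENNReal.ofReal (eta0 i s R c (i.insertNth 0 y)) * 2 =
      ENNReal.ofReal (1 / R) * ENNReal.ofReal (lineLen i E y) := by
    filter_upwards [ae_restrict_of_ae hlen] with y hy
    rw [hy, lineLen_body hi hS.pos hS.lt_half, ← ENNReal.ofReal_mul (by have := hS.pos; positivity),
      ← ENNReal.ofReal_ofNat, ← ENNReal.ofReal_mul eta0_nonneg]
    congr 1
    have := hS.pos.ne'
    field_simp
  rw [lintegral_congr_ae h, lintegral_const_mul _ (measurable_lineLen hm i).ennreal_ofReal,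
    lintegral_lineLen hm hV, ← ENNReal.ofReal_mul (by have := hS.pos; positivity)]
  congr 1; ring

/-- The weighted variation in direction `i` is the weighted variation of the lines. -/
theorem ofReal_weighted_eq {f : R3 → ℝ} {L : ℝ≥0} (hf : LipschitzWith L f) :
    ENNReal.ofReal (∫ x in cube, eta0 i s R c x * |pd f i x|) =
      ∫⁻ y in sq, ENNReal.ofReal (eta0 i s R c (i.insertNth 0 y)) *
        lineTV fun t => f (i.insertNth t y) := by
  have hmeas : Measurable fun x => eta0 i s R c x * |pd f i x| :=
    continuous_eta0.measurable.mul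
      (continuous_abs.measurable.comp (measurable_fderiv_apply_const ℝ f _))
  have hint : Integrable (fun x => eta0 i s R c x * |pd f i x|) (volume.restrict cube) := by
    refine Integrable.mono' (integrable_const (L : ℝ)) hmeas.aestronglyMeasurable
      (Eventually.of_forall fun x => ?_)
    rw [Real.norm_eq_abs, abs_mul, abs_abs, abs_of_nonneg eta0_nonneg]
    refine (mul_le_of_le_one_left (abs_nonneg _) (Real.sqrt_le_one.2
      (max_le zero_le_one (sub_le_self _ (div_nonneg tr2_nonneg (sq_nonneg R)))))).trans ?_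
    exact (abs_apply_le _ i).trans (norm_fderiv_le_of_lipschitz ℝ hf)
  rw [ofReal_integral_eq_lintegral_ofReal hint
    (Eventually.of_forall fun x => mul_nonneg eta0_nonneg (abs_nonneg _)),
    lintegral_cube_lines i hmeas.ennreal_ofReal]
  refine lintegral_congr_ae ?_
  filter_upwards [ae_lines i (ae_restrict_of_ae hf.ae_differentiableAt)] with y hy
  rw [lineTV, ← lintegral_const_mul' _ _ ENNReal.ofReal_ne_top]
  refine lintegral_congr_ae ?_
  filter_upwards [hy] with t ht
  rw [(hasDerivAt_line ht).deriv, eta0_insertNth t y, ← ofReal_norm_eq_enorm, Real.norm_eq_abs,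
    ← ENNReal.ofReal_mul eta0_nonneg]

/-- Arcs, and zero flux along the axes of the body. -/
theorem back_core (hE : Min V E) (hi : i ∈ s) (hS : Shape V s R)
    (hlen : ∀ᵐ y, lineLen i E y = lineLen i (body s R c) y) :
    (∀ᵐ y ∂volume.restrict sq, IsArc (lineSet i E y)) ∧
      ∀ a, a ∉ s → ∀ ψ : R3 → ℝ, ContDiff ℝ 1 ψ → IsPeriodic ψ → (∀ x, |ψ x| ≤ 1) →
        ∫ x in cube, ind E x * pd ψ a x = 0 := by
  obtain ⟨f, hL, hp, hr, hlim, hen⟩ := hE.exists_ae
  choose L hL using hL
  set J := candidate V with hJd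
  have hR := hS.pos
  have hJ : J = (s.card : ℝ) * V / R := hS.area
  set X : ℕ → ℝ := fun k => ∫ x in cube, eta0 i s R c x * |pd (f k) i x|
  have hflux : ∀ D : R3 → ℝ, Continuous D → Tendsto (fun k => ∫ x in cube, f k x * D x) atTop
      (𝓝 (∫ x in cube, ind E x * D x)) := fun D hD => by
    obtain ⟨C, hC⟩ := isCompact_cube.exists_bound_of_continuousOn hD.continuousOn
    refine tendsto_integral_of_dominated_convergence (fun _ => C)
      (fun k => ((hL k).continuous.mul hD).aestronglyMeasurable) (integrable_const C)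
      (fun k => ?_) (hlim.mono fun x hx => hx.mul_const _)
    filter_upwards [ae_restrict_mem measurableSet_cube] with x hx
    rw [norm_mul]
    refine (mul_le_of_le_one_left (norm_nonneg _) ?_).trans (hC x hx)
    rw [Real.norm_eq_abs, abs_of_nonneg (hr k x).1]
    exact (hr k x).2
  obtain ⟨η₀, hη₀, hη₀'⟩ : ∃ η₀ > 0, ∀ η ∈ Ioo (0 : ℝ) η₀, R ^ 2 + η < 1 / 4 :=
    ⟨1 / 4 - R ^ 2, by nlinarith [hS.lt_half], fun η h => by linarith [h.2]⟩
  -- the weighted variation
  set T : ℕ → (Fin 2 → ℝ) → ℝ≥0∞ := fun k y => lineTV fun t => f k (i.insertNth t y)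
  set w : (Fin 2 → ℝ) → ℝ≥0∞ := fun y => ENNReal.ofReal (eta0 i s R c (i.insertNth 0 y))
  have hwm : Measurable w := (continuous_eta0.measurable.comp
    ((measurable_lineMap i).comp (measurable_const.prodMk measurable_id))).ennreal_ofReal
  have hTm : ∀ k, Measurable (T k) := fun k => by
    have h : Measurable fun q : (Fin 2 → ℝ) × ℝ =>
        ‖deriv (fun t => f k (i.insertNth t q.1)) q.2‖ₑ := by
      refine (measurable_deriv_with_param (f := fun (y : Fin 2 → ℝ) t => f k (i.insertNth t y)) ?_).enorm
      exact (hL k).continuous.comp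
        (Continuous.finInsertNth (A := fun _ : Fin 3 => ℝ) i continuous_snd continuous_fst)
    exact h.lintegral_prod_right' (ν := volume.restrict (Icc (0 : ℝ) 1))
  have hXT : ∀ k, ENNReal.ofReal (X k) = ∫⁻ y in sq, w y * T k y := fun k =>
    ofReal_weighted_eq (hL k)
  -- the lower bound on almost every line
  have hline : ∀ᵐ y ∂volume.restrict sq, (0 < eta0 i s R c (i.insertNth 0 y) →
      2 ≤ liminf (fun k => T k y) atTop) ∧
      (¬IsArc (lineSet i E y) → 4 ≤ liminf (fun k => T k y) atTop) := by
    filter_upwards [ae_lines i hlim, ae_restrict_of_ae hlen] with y hy hly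
    have hins : LipschitzWith 1 fun t : ℝ => (i.insertNth t y : R3) := by
      refine LipschitzWith.of_dist_le_mul fun u v => ?_
      rw [NNReal.coe_one, one_mul, dist_pi_le_iff dist_nonneg]
      intro j
      rcases Fin.eq_self_or_eq_succAbove i j with rfl | ⟨l, rfl⟩ <;> simp
    have h := line_limit (A := lineSet i E y) (v := fun k t => f k (i.insertNth t y))
      (measurableSet_lineSet hE.meas i y) (fun t ht => ht.1)
      (fun k => ⟨L k * 1, (hL k).comp hins⟩) (fun k => ?_) ?_
    · refine ⟨fun hpos => h.1 ?_ ?_, h.2⟩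
      · show 0 < lineLen i E y
        rw [hly, lineLen_body hi hR hS.lt_half]; positivity
      · show lineLen i E y < 1
        rw [hly, lineLen_body hi hR hS.lt_half]
        have : eta0 i s R c (i.insertNth 0 y) ≤ 1 := Real.sqrt_le_one.2
          (max_le zero_le_one (sub_le_self _ (div_nonneg tr2_nonneg (sq_nonneg R))))
        nlinarith [hS.lt_half]
    · show f k (i.insertNth 1 y) = f k (i.insertNth 0 y)
      rw [← (hp k).shift i (i.insertNth 0 y)]
      congr 1
      ext j
      rcases Fin.eq_self_or_eq_succAbove i j with rfl | ⟨l, rfl⟩ <;> simp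
    · filter_upwards [hy, ae_restrict_mem measurableSet_Icc] with t ht hI
      convert ht using 2
      by_cases hx : (i.insertNth t y : R3) ∈ E
      · rw [ind, indicator_of_mem hx,
          indicator_of_mem (show t ∈ lineSet i E y from ⟨hI, hx⟩)]
      · rw [ind, indicator_of_notMem hx,
          indicator_of_notMem (show t ∉ lineSet i E y from fun h => hx h.2)]
  have hlow : (fun y => w y * 2) ≤ᵐ[volume.restrict sq]
      fun y => liminf (fun k => w y * T k y) atTop := by
    filter_upwards [hline] with y hy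
    rcases (eta0_nonneg (i := i) (s := s) (R := R) (c := c) (x := i.insertNth 0 y)).eq_or_lt
      with h | h
    · simp [w, ← h]
    · refine le_trans (mul_le_mul_right (hy.1 h) _) (le_of_eq ?_)
      exact (ENNReal.liminf_const_mul_of_ne_top ENNReal.ofReal_ne_top).symm
  have hint2 : ∫⁻ y in sq, w y * 2 = ENNReal.ofReal (V / R) :=
    lintegral_eta0 hE.meas hE.vol hi hS hlen
  have hfatou : ∫⁻ y in sq, liminf (fun k => w y * T k y) atTop ≤
      liminf (fun k => ENNReal.ofReal (X k)) atTop := by
    refine (lintegral_liminf_le fun k => hwm.mul (hTm k)).trans (le_of_eq ?_)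
    simp only [hXT]; rfl
  -- upper bound
  have hupper : ∀ η ∈ Ioo (0 : ℝ) η₀, ∀ e ∈ Icc (0 : ℝ) 1, ∀ a, a ∉ s → ∀ ψ : R3 → ℝ,
      ContDiff ℝ 1 ψ → IsPeriodic ψ → (∀ x, |ψ x| ≤ 1) → ∀ δ > 0, ∀ᶠ k in atTop,
      Real.sqrt (1 - e ^ 2) * (X k + ((s.card : ℝ) - 1) * V / Real.sqrt (R ^ 2 + η)) +
        e * ∫ x in cube, ind E x * pd ψ a x ≤ J + δ := by
    intro η hη e he a ha ψ hψ hψp hψ1 δ hδ
    have hia : a ≠ i := fun h => ha (h ▸ hi)
    have t1 := hflux _ (continuous_divg (contDiff_chi (i := i) (s := s) (c := c) hη.1 (hη₀' η hη)))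
    rw [integral_mul_divg_chi hE.meas hE.vol hi hS hlen hη.1 (hη₀' η hη)] at t1
    have t2 := hflux (pd ψ a) ((hψ.continuous_fderiv one_ne_zero).clm_apply continuous_const)
    filter_upwards [hen (δ / 2) (by linarith),
      ((t1.const_mul (Real.sqrt (1 - e ^ 2))).add (t2.const_mul e)).eventually
        (lt_mem_nhds (sub_lt_self _ (show (0 : ℝ) < δ / 2 by linarith)))] with k hk1 hk2
    have hk := energy_ge (c := c) hη.1 hR (hη₀' η hη) hia ha he.1 he.2 hψ hψp hψ1 (hL k) (hp k)
    show Real.sqrt (1 - e ^ 2) * (X k + _) + _ ≤ _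
    simp only [mul_add] at hk hk2 ⊢
    linarith
  have hup0 : ∀ η ∈ Ioo (0 : ℝ) η₀, ∀ δ > 0, ∀ᶠ k in atTop,
      X k + ((s.card : ℝ) - 1) * V / Real.sqrt (R ^ 2 + η) ≤ J + δ := by
    intro η hη δ hδ
    by_cases hs : ∃ a, a ∉ s
    · obtain ⟨a, ha⟩ := hs
      simpa using hupper η hη 0 ⟨le_rfl, zero_le_one⟩ a ha (fun _ => 0) contDiff_const
        (fun _ _ => rfl) (fun _ => by simp) δ hδ
    · -- no invariant axis: use the calibration with a vanishing extra field
      push Not at hs
      have hall : s = Finset.univ := Finset.eq_univ_iff_forall.2 hs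
      have t1 := hflux _ (continuous_divg (contDiff_chi (i := i) (s := s) (c := c) hη.1 (hη₀' η hη)))
      rw [integral_mul_divg_chi hE.meas hE.vol hi hS hlen hη.1 (hη₀' η hη)] at t1
      filter_upwards [hen (δ / 2) (by linarith),
        t1.eventually (lt_mem_nhds (sub_lt_self _ (show (0 : ℝ) < δ / 2 by linarith)))] with k hk1 hk2
      have hk := energy_ge_plain (i := i) (s := s) (c := c) hη.1 hR (hη₀' η hη) (hL k) (hp k)
      show X k + _ ≤ _
      linarith
  have hXle : ∀ δ > 0, ∀ᶠ k in atTop, X k ≤ V / R + δ := by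
    intro δ hδ
    have ht : Tendsto (fun η : ℝ => ((s.card : ℝ) - 1) * V / Real.sqrt (R ^ 2 + η)) (𝓝[>] 0)
        (𝓝 (((s.card : ℝ) - 1) * V / R)) := by
      have hden : ContinuousAt (fun η : ℝ => Real.sqrt (R ^ 2 + η)) 0 := by fun_prop
      have h := (continuousAt_const (y := ((s.card : ℝ) - 1) * V)).div hden
        (by simp [Real.sqrt_sq hR.le, hR.ne'])
      simpa [Real.sqrt_sq hR.le, Pi.div_def] using h.tendsto.mono_left nhdsWithin_le_nhds
    obtain ⟨η, h1, h2⟩ := ((ht.eventually (lt_mem_nhds (sub_lt_self _ (show (0 : ℝ) < δ / 2 by linarith)))).and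
      (Ioo_mem_nhdsGT hη₀)).exists
    filter_upwards [hup0 η h2 (δ / 2) (by linarith)] with k hk
    rw [hJ] at hk
    have : (s.card : ℝ) * V / R = ((s.card : ℝ) - 1) * V / R + V / R := by ring
    linarith
  have hX0 : ∀ k, 0 ≤ X k := fun k =>
    integral_nonneg fun x => mul_nonneg eta0_nonneg (abs_nonneg _)
  have hVR : 0 ≤ V / R := div_nonneg (hE.vol ▸ measureReal_nonneg) hR.le
  have hlimle : liminf (fun k => ENNReal.ofReal (X k)) atTop ≤ ENNReal.ofReal (V / R) := by
    refine ENNReal.le_of_forall_pos_le_add fun δ hδ _ => ?_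
    rw [← ENNReal.ofReal_coe_nnreal (p := δ), ← ENNReal.ofReal_add hVR δ.coe_nonneg]
    exact liminf_le_of_frequently_le'
      ((hXle δ (NNReal.coe_pos.2 hδ)).mono fun k hk => ENNReal.ofReal_le_ofReal hk).frequently
  have heq : (fun y => w y * 2) =ᵐ[volume.restrict sq]
      fun y => liminf (fun k => w y * T k y) atTop :=
    ae_eq_of_ae_le_of_lintegral_le hlow (by rw [hint2]; exact ENNReal.ofReal_ne_top)
      (Measurable.liminf fun k => hwm.mul (hTm k)).aemeasurable
      (by rw [hint2]; exact hfatou.trans hlimle)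
  refine ⟨?_, fun a ha ψ hψ hψp hψ1 => ?_⟩
  · filter_upwards [heq, hline, ae_restrict_of_ae hlen] with y hy hyl hly
    by_contra harc
    rcases (eta0_nonneg (i := i) (s := s) (R := R) (c := c) (x := i.insertNth 0 y)).eq_or_lt
      with h | h
    · refine harc (isArc_null (fun t ht => ht.1) ?_)
      show lineLen i E y = 0
      rw [hly, lineLen_body hi hR hS.lt_half, ← h, mul_zero]
    · rw [ENNReal.liminf_const_mul_of_ne_top ENNReal.ofReal_ne_top] at hy
      have hw0 : w y ≠ 0 := (ENNReal.ofReal_pos.2 h).ne'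
      have h4 := hyl.2 harc
      have h2 : (2 : ℝ≥0∞) = liminf (fun k => T k y) atTop :=
        (ENNReal.mul_right_inj hw0 ENNReal.ofReal_ne_top).1 hy
      rw [← h2] at h4
      norm_num at h4
  · -- lower bound for the weighted variation
    have hXge : ∀ δ > 0, ∀ᶠ k in atTop, V / R - δ ≤ X k := by
      intro δ hδ
      have h : ENNReal.ofReal (V / R) ≤ liminf (fun k => ENNReal.ofReal (X k)) atTop := by
        rw [← hint2]; exact (lintegral_mono_ae hlow).trans hfatou
      by_cases hneg : V / R - δ ≤ 0
      · exact Eventually.of_forall fun k => hneg.trans (hX0 k)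
      · refine (eventually_lt_of_lt_liminf (lt_of_lt_of_le
          ((ENNReal.ofReal_lt_ofReal_iff (by linarith)).2 (by linarith : V / R - δ < V / R)) h)).mono
          fun k hk => ?_
        exact ((ENNReal.ofReal_le_ofReal_iff (hX0 k)).1 hk.le)
    have key : ∀ χ : R3 → ℝ, ContDiff ℝ 1 χ → IsPeriodic χ → (∀ x, |χ x| ≤ 1) →
        ∫ x in cube, ind E x * pd χ a x ≤ 0 := by
      intro χ hχ hχp hχ1
      set D := ∫ x in cube, ind E x * pd χ a x
      have hJ0 : 0 ≤ J := by rw [hJ]; exact div_nonneg (mul_nonneg (Nat.cast_nonneg _)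
        (hE.vol ▸ measureReal_nonneg)) hR.le
      refine le_of_forall_pos_le_add fun d hd => ?_
      obtain ⟨e, he0, he1, hed⟩ : ∃ e : ℝ, 0 < e ∧ e ≤ 1 ∧ e * J ≤ d := by
        refine ⟨min 1 (d / (J + 1)), lt_min one_pos (by positivity), min_le_left _ _, ?_⟩
        calc min 1 (d / (J + 1)) * J ≤ d / (J + 1) * (J + 1) :=
              mul_le_mul (min_le_right _ _) (by linarith) hJ0 (by positivity)
          _ = d := div_mul_cancel₀ _ (by linarith)
      set l := Real.sqrt (1 - e ^ 2) with hl
      have hl0 : 0 ≤ l := Real.sqrt_nonneg _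
      have hl1 : 1 - e ^ 2 ≤ l := by
        have h := Real.sq_sqrt (show 0 ≤ 1 - e ^ 2 by nlinarith)
        have : l ≤ 1 := Real.sqrt_le_one.2 (by nlinarith)
        nlinarith
      have hmain : l * J + e * D ≤ J := by
        refine le_of_forall_pos_le_add fun δ hδ => ?_
        have ht : Tendsto (fun η : ℝ => l * (V / R + ((s.card : ℝ) - 1) * V / Real.sqrt (R ^ 2 + η)))
            (𝓝[>] 0) (𝓝 (l * J)) := by
          have hden : ContinuousAt (fun η : ℝ => Real.sqrt (R ^ 2 + η)) 0 := by fun_prop
          have h := ((continuousAt_const (y := ((s.card : ℝ) - 1) * V)).div hden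
            (by simp [Real.sqrt_sq hR.le, hR.ne'])).const_add (V / R) |>.const_mul l
          have e : V / R + ((s.card : ℝ) - 1) * V / R = J := by rw [hJ]; ring
          simpa [Real.sqrt_sq hR.le, Pi.div_def, e] using h.tendsto.mono_left nhdsWithin_le_nhds
        obtain ⟨η, h1, h2⟩ := ((ht.eventually (lt_mem_nhds (sub_lt_self _ (show (0 : ℝ) < δ / 3 by linarith)))).and
          (Ioo_mem_nhdsGT hη₀)).exists
        obtain ⟨k, hk1, hk2⟩ := ((hupper η h2 e ⟨he0.le, he1⟩ a ha χ hχ hχp hχ1 (δ / 3)
          (by linarith)).and (hXge (δ / 3) (by linarith))).exists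
        have : l * (V / R - δ / 3) ≤ l * X k := mul_le_mul_of_nonneg_left hk2 hl0
        have hl' : l ≤ 1 := Real.sqrt_le_one.2 (by nlinarith)
        have : l * (δ / 3) ≤ δ / 3 := mul_le_of_le_one_left (by linarith) hl'
        simp only [← hl, mul_add, mul_sub] at *
        linarith
      have : (1 - e ^ 2) * J ≤ l * J := mul_le_mul_of_nonneg_right hl1 hJ0
      have h2 : e * D ≤ e * (e * J) := by nlinarith
      have h3 : D ≤ e * J := le_of_mul_le_mul_left h2 he0
      linarith
    refine le_antisymm (key ψ hψ hψp hψ1) ?_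
    have h := key (fun x => -ψ x) hψ.neg (fun x k => by simp only [hψp x k]) (fun x => by simpa using hψ1 x)
    simp only [pd, fderiv_fun_neg, neg_apply, mul_neg, integral_neg] at h
    simp only [pd]
    linarith

/-- Zero fluxes along an axis give invariance. -/
theorem invAxis_of_flux (hE : Min V E) (a : Fin 3)
    (h : ∀ ψ : R3 → ℝ, ContDiff ℝ 1 ψ → IsPeriodic ψ → (∀ x, |ψ x| ≤ 1) →
      ∫ x in cube, ind E x * pd ψ a x = 0) : InvAxis a E := by
  set u : R3 := Pi.single a 1
  have hu : ∀ t : ℝ, t • u = Pi.single a t := fun t => by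
    ext j; rcases eq_or_ne j a with rfl | hj <;> simp [u, *]
  have hmove : ∀ (k : ℕ) (t : ℝ), ∫ x in cube, ind E x * mollify E k (x + t • u) =
      ∫ x in cube, ind E x * mollify E k x := by
    intro k t
    set m := mollify E k
    have hm : ContDiff ℝ 1 m := (contDiff_mollify hE.meas k).of_le one_le_two
    have hmp : IsPeriodic m := isPeriodic_mollify hE.per k
    obtain ⟨C, hC, -⟩ := hmp.exists_lipschitz hm
    have hd : ∀ t : ℝ, HasDerivAt (fun t : ℝ => ∫ x in cube, ind E x * m (x + t • u))
        (∫ x in cube, ind E x * pd m a (x + t • u)) t := by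
      intro t
      have hmeas : ∀ t : ℝ, AEStronglyMeasurable (fun x => ind E x * m (x + t • u))
          (volume.restrict cube) := fun t => (integrable_ind hE.meas).aestronglyMeasurable.mul
        (hm.continuous.comp (continuous_id.add continuous_const)).aestronglyMeasurable
      refine (hasDerivAt_integral_of_dominated_loc_of_deriv_le (s := univ)
        (F := fun t x => ind E x * m (x + t • u))
        (F' := fun t x => ind E x * pd m a (x + t • u)) (bound := fun _ => (C : ℝ)) univ_mem
        (Eventually.of_forall hmeas) ?_ ?_ ?_ (integrable_const _) ?_).2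
      · refine Integrable.mono' (integrable_const (1 : ℝ)) (hmeas t)
          (Eventually.of_forall fun x => ?_)
        rw [norm_mul]
        refine mul_le_one₀ (abs_ind_le E x) (norm_nonneg _) ?_
        rw [Real.norm_eq_abs, abs_of_nonneg (mollify_mem_Icc k _).1]
        exact (mollify_mem_Icc k _).2
      · exact (integrable_ind hE.meas).aestronglyMeasurable.mul
          ((((hm.continuous_fderiv one_ne_zero).clm_apply continuous_const).comp
            (continuous_id.add continuous_const))).aestronglyMeasurable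
      · refine Eventually.of_forall fun x t _ => ?_
        rw [norm_mul]
        exact (mul_le_of_le_one_left (norm_nonneg _) (abs_ind_le E x)).trans
          ((abs_apply_le _ a).trans (norm_fderiv_le_of_lipschitz ℝ hC))
      · refine Eventually.of_forall fun x t _ => ?_
        have h1 : HasDerivAt (fun s : ℝ => x + s • u) u t := by
          simpa using ((hasDerivAt_id t).smul_const u).const_add x
        exact ((hm.differentiable one_ne_zero _).hasFDerivAt.comp_hasDerivAt t h1).const_mul _
    have hzero : ∀ t : ℝ, ∫ x in cube, ind E x * pd m a (x + t • u) = 0 := fun t => by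
      have h := h (fun x => m (x + t • u)) (hm.comp (contDiff_id.add contDiff_const))
        (hmp.comp_add _) fun x => abs_le.2
          ⟨by linarith [(mollify_mem_Icc (E := E) k (x + t • u)).1], (mollify_mem_Icc k _).2⟩
      simpa [pd, fderiv_comp_add_right] using h
    have hconst := is_const_of_deriv_eq_zero
      (fun t => (hd t).differentiableAt) (fun t => by rw [(hd t).deriv, hzero]) t 0
    simpa using hconst
  have hsub : ∀ t : ℝ, ∀ᵐ x, x ∈ E → x + t • u ∈ E := by
    intro t
    refine ae_of_periodic (fun x k hx hE' => ?_) ?_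
    · have e1 : (x + (fun j => (k j : ℝ))) + t • u = x + t • u + fun j => (k j : ℝ) := by abel
      rw [e1]
      refine (eq_iff_iff.1 (hE.per (x + t • u) k)).2 ?_
      exact hx ((eq_iff_iff.1 (hE.per x k)).1 hE')
    have hae := ae_tendsto_mollify (E := E) hE.meas
    have hae' : ∀ᵐ x, Tendsto (fun k => mollify E k (x + t • u)) atTop (𝓝 (ind E (x + t • u))) :=
      (measurePreserving_add_right (volume : Measure R3) (t • u)).quasiMeasurePreserving.ae hae
    have lim : ∀ v : R3, (∀ᵐ x, Tendsto (fun k => mollify E k (x + v)) atTop (𝓝 (ind E (x + v)))) →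
        Tendsto (fun k => ∫ x in cube, ind E x * mollify E k (x + v)) atTop
          (𝓝 (∫ x in cube, ind E x * ind E (x + v))) := fun v hv => by
      refine tendsto_integral_of_dominated_convergence (fun _ => 1)
        (fun k => (integrable_ind hE.meas).aestronglyMeasurable.mul
          ((contDiff_mollify hE.meas k).continuous.comp
            (continuous_id.add continuous_const)).aestronglyMeasurable)
        (integrable_const 1) (fun k => Eventually.of_forall fun x => ?_)
        ((ae_restrict_of_ae hv).mono fun x hx => hx.const_mul _)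
      rw [norm_mul]
      refine mul_le_one₀ (abs_ind_le E x) (norm_nonneg _) ?_
      rw [Real.norm_eq_abs, abs_of_nonneg (mollify_mem_Icc k _).1]
      exact (mollify_mem_Icc k _).2
    have l1 := lim (t • u) hae'
    have l0 := lim 0 (by simpa [ind] using hae)
    simp only [add_zero] at l0
    have heq := tendsto_nhds_unique l1 (l0.congr fun k => (hmove k t).symm)
    have hsq : ∀ x, ind E x * ind E x = ind E x := fun x => by
      by_cases hx : x ∈ E <;> simp [ind, hx]
    simp only [hsq] at heq
    have hint : Integrable (fun x => ind E x * ind E (x + t • u)) (volume.restrict cube) := by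
      refine Integrable.mono' (integrable_const (1 : ℝ))
        ((integrable_ind hE.meas).aestronglyMeasurable.mul
          ((measurable_const.indicator hE.meas).comp (measurable_add_const _)).aestronglyMeasurable)
        (Eventually.of_forall fun x => ?_)
      rw [norm_mul]
      exact mul_le_one₀ (abs_ind_le E x) (norm_nonneg _) (abs_ind_le E _)
    have hd : ∫ x in cube, (ind E x - ind E x * ind E (x + t • u)) = 0 := by
      rw [integral_sub (integrable_ind hE.meas) hint, heq, sub_self]
    have h0 := (integral_eq_zero_iff_of_nonneg (fun x => sub_nonneg.2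
      (mul_le_of_le_one_right (ind_mem_Icc E x).1 (ind_mem_Icc E _).2))
      ((integrable_ind hE.meas).sub hint)).1 hd
    refine h0.mono fun x hx hxE => ?_
    by_contra hn
    simp [ind, hxE, hn] at hx
  intro t
  have h1 := hsub t
  have h2 := (measurePreserving_add_right (volume : Measure R3) (t • u)).quasiMeasurePreserving.ae
    (hsub (-t))
  filter_upwards [h1, h2] with x hx hx'
  refine propext ⟨fun hin => ?_, fun hxE => ?_⟩
  · have := hx' (by rw [hu]; exact hin)
    simp only [neg_smul, add_neg_cancel_right] at this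
    exact this
  · show x + Pi.single a t ∈ E
    rw [← hu]; exact hx hxE

/-- One symmetrisation step backwards. -/
theorem stmtBack : StmtBack := by
  intro V _ E hE i s R c hS hlen
  by_cases hi : i ∈ s
  · obtain ⟨harc, hflux⟩ := back_core hE hi hS hlen
    refine ⟨fun h => absurd hi h, fun a ha => invAxis_of_flux hE a (hflux a ha), ?_⟩
    exact ae_of_periodic (fun y k hy => by rwa [lineSet_periodic hE.per]) harc
  · have he := eq_of_notMem hE.meas hE.per hi hlen
    refine ⟨fun _ => he, fun a ha => invAxis_congr he (body_shift ha), ?_⟩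
    filter_upwards [hlen] with y hy
    have hb := lineSet_body_of_notMem hi (R := R) (c := c) y
    rcases hb with h | h
    · refine isArc_null (fun t ht => ht.1) ?_
      show lineLen i E y = 0
      rw [hy, lineLen, h, measureReal_empty]
    · refine isArc_interval le_rfl le_rfl zero_le_one (fun t ht => ht.1) (Or.inr ?_)
      rw [Ioo_self, compl_empty, ae_eq_univ, Measure.restrict_apply' measurableSet_Icc,
        inter_comm, ← sdiff_eq]
      have hfin : volume (Icc (0 : ℝ) 1) ≠ ⊤ := by
        rw [Real.volume_Icc]; exact ENNReal.ofReal_ne_top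
      have hd := measureReal_sdiff (μ := volume) (fun t ht => (ht : t ∈ lineSet i E y).1)
        (measurableSet_lineSet hE.meas i y) hfin
      rw [← lineLen, hy, lineLen, h, sub_self] at hd
      exact (measureReal_eq_zero_iff (ne_top_of_le_ne_top hfin
        (measure_mono sdiff_subset))).1 hd

end Vale.Agent.P232.Rigid
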