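import Vale.Agent.P232.Rigid.Defs
import Vale.Agent.P232.Lower
import Vale.Agent.P232.Upper
import Vale.Agent.P232.Symm.CubeTools

/-!
# P232: a bisecting plane gives two minimisers by reflection

The two foldings of a periodic function at a plane add up to the function plus its mirror image,
and so do the lengths of their gradients. Hence the energies of the two foldings of the
approximants add up to twice the original energy, while the functional inequality bounds each of
them below by the candidate.
-/

open MeasureTheory Set Filter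
open scoped Topology NNReal

namespace Vale.Agent.P232.Rigid

/-- The folding map at the plane `x i = a`, onto the side `σ`. -/
noncomputable def foldMap (i : Fin 3) (a σ : ℝ) (x : R3) : R3 :=
  Function.update x i (a + σ * dist1 (x i - a))

theorem zdist_dist1_add_int (t : ℝ) (k : ℤ) : dist1 (t + k) = dist1 t := zdist_add_int t k

theorem abs_dist1_sub (s t : ℝ) : |dist1 s - dist1 t| ≤ |s - t| := abs_zdist_sub s t

theorem dist1_add_half (t : ℝ) : dist1 (t + 1 / 2) = 1 / 2 - dist1 t := by
  have h := abs_le.1 (abs_sub_round t)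
  rw [show t + 1 / 2 = (t - round t + 1 / 2) + ((round t : ℤ) : ℝ) by ring, zdist_dist1_add_int]
  rcases le_or_gt (t - round t) 0 with hs | hs
  · have e : dist1 (t - round t + 1 / 2) = t - round t + 1 / 2 := by
      rw [show dist1 = zdist from rfl, zdist_eq_abs (by rw [abs_le]; constructor <;> linarith),
        abs_of_nonneg (by linarith)]
    rw [e, dist1, abs_of_nonpos hs]
    ring
  · have e : dist1 (t - round t + 1 / 2) = -(t - round t - 1 / 2) := by
      rw [show t - (round t : ℝ) + 1 / 2 = (t - round t - 1 / 2) + ((1 : ℤ) : ℝ) by push_cast; ring,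
        zdist_dist1_add_int, show dist1 = zdist from rfl,
        zdist_eq_abs (by rw [abs_le]; constructor <;> linarith), abs_of_nonpos (by linarith)]
    rw [e, dist1, abs_of_pos hs]
    ring

/-- A periodic function does not change when an integer is added to one coordinate. -/
theorem periodic_update {α : Type*} {G : R3 → α} (hG : IsPeriodic G) (x : R3) (i : Fin 3) (c : ℝ)
    (k : ℤ) : G (Function.update x i (c + k)) = G (Function.update x i c) := by
  rw [← hG (Function.update x i c) (Pi.single i k)]
  congr 1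
  ext j
  rcases eq_or_ne j i with rfl | h
  · simp
  · simp [h]

theorem foldMap_cases (i : Fin 3) (a : ℝ) (x : R3) {α : Type*} {G : R3 → α} (hG : IsPeriodic G) :
    (G (foldMap i a 1 x) = G x ∧ G (foldMap i a (-1) x) = G (Symm.mirror i a x)) ∨
      (G (foldMap i a 1 x) = G (Symm.mirror i a x) ∧ G (foldMap i a (-1) x) = G x) := by
  have hx : G (Function.update x i (x i)) = G x := by rw [Function.update_eq_self]
  rcases le_total 0 (x i - a - round (x i - a)) with h | h
  · refine .inl ⟨?_, ?_⟩
    · rw [← hx, ← periodic_update hG x i (x i) (-round (x i - a)), foldMap, dist1, abs_of_nonneg h]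
      congr 2; push_cast; ring
    · rw [Symm.mirror, ← periodic_update hG x i (2 * a - x i) (round (x i - a)), foldMap, dist1,
        abs_of_nonneg h]
      congr 2; ring
  · refine .inr ⟨?_, ?_⟩
    · rw [Symm.mirror, ← periodic_update hG x i (2 * a - x i) (round (x i - a)), foldMap, dist1,
        abs_of_nonpos h]
      congr 2; ring
    · rw [← hx, ← periodic_update hG x i (x i) (-round (x i - a)), foldMap, dist1, abs_of_nonpos h]
      congr 2; push_cast; ring

/-- The two foldings add up to the function and its mirror image. -/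
theorem foldMap_add (i : Fin 3) (a : ℝ) {G : R3 → ℝ} (hG : IsPeriodic G) (x : R3) :
    G (foldMap i a 1 x) + G (foldMap i a (-1) x) = G x + G (Symm.mirror i a x) := by
  rcases foldMap_cases i a x hG with ⟨h1, h2⟩ | ⟨h1, h2⟩ <;> rw [h1, h2]
  exact add_comm _ _

theorem foldMap_le (i : Fin 3) (a : ℝ) {σ : ℝ} (hσ : σ = 1 ∨ σ = -1) {G : R3 → ℝ}
    (hG : IsPeriodic G) (h0 : ∀ x, 0 ≤ G x) (x : R3) :
    G (foldMap i a σ x) ≤ G x + G (Symm.mirror i a x) := by
  rw [← foldMap_add i a hG x]
  rcases hσ with rfl | rfl
  · linarith [h0 (foldMap i a (-1) x)]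
  · linarith [h0 (foldMap i a 1 x)]

theorem lipschitz_foldMap (i : Fin 3) (a : ℝ) {σ : ℝ} (hσ : |σ| = 1) :
    LipschitzWith 1 (foldMap i a σ) := by
  refine LipschitzWith.of_dist_le_mul fun x y => ?_
  rw [NNReal.coe_one, one_mul, dist_pi_le_iff dist_nonneg]
  intro j
  rcases eq_or_ne j i with rfl | h
  · simp only [foldMap, Function.update_self, Real.dist_eq]
    rw [show a + σ * dist1 (x j - a) - (a + σ * dist1 (y j - a)) =
      σ * (dist1 (x j - a) - dist1 (y j - a)) by ring, abs_mul, hσ, one_mul]
    refine (abs_dist1_sub _ _).trans ?_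
    rw [show x j - a - (y j - a) = x j - y j by ring, ← Real.dist_eq]
    exact dist_le_pi_dist x y j
  · simpa [foldMap, h] using dist_le_pi_dist x y j

theorem isPeriodic_comp_foldMap {α : Type*} {G : R3 → α} (hG : IsPeriodic G) (i : Fin 3) (a σ : ℝ) :
    IsPeriodic fun x => G (foldMap i a σ x) := fun x k => by
  have h := hG (foldMap i a σ x) (Function.update k i 0)
  show G _ = G _
  rw [← h]
  congr 1
  ext j
  rcases eq_or_ne j i with rfl | hj
  · simp [foldMap, add_sub_right_comm _ ((k j : ℤ) : ℝ) a, zdist_dist1_add_int]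
  · simp [foldMap, hj]

theorem isPeriodic_gradNorm {f : R3 → ℝ} (hp : IsPeriodic f) : IsPeriodic (gradNorm f) :=
  fun x k => by simp only [gradNorm, isPeriodic_pd hp _ x k]

theorem gradNorm_comp_add (f : R3 → ℝ) (c x : R3) :
    gradNorm (fun y => f (y + c)) x = gradNorm f (x + c) := by
  simp only [gradNorm, pd, fderiv_comp_add_right]

/-- Away from the two planes the folding preserves the length of the gradient. -/
theorem gradNorm_foldMap {f : R3 → ℝ} (i : Fin 3) (a : ℝ) {σ : ℝ} (hσ : σ = 1 ∨ σ = -1) (x : R3)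
    (hx : ∀ m : ℤ, 2 * (x i - a) ≠ m) :
    gradNorm (fun y => f (foldMap i a σ y)) x = gradNorm f (foldMap i a σ x) := by
  set u := x i - a
  set n := round u
  have h := abs_le.1 (abs_sub_round u)
  have h1 : u - n ≠ 0 := fun e => hx (2 * n) (by push_cast; linarith)
  have h2 : u - n ≠ 1 / 2 := fun e => hx (2 * n + 1) (by push_cast; linarith)
  have h3 : u - n ≠ -(1 / 2) := fun e => hx (2 * n - 1) (by push_cast; linarith)
  have hlo : -(1 / 2) < u - n := lt_of_le_of_ne h.1 (Ne.symm h3)
  have hhi : u - n < 1 / 2 := lt_of_le_of_ne h.2 h2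
  have hc : ContinuousAt (fun y : R3 => y i - a - n) x :=
    (((continuous_apply i).continuousAt).sub continuousAt_const).sub continuousAt_const
  have hd : ∀ᶠ y in 𝓝 x, |y i - a - n| ≤ 1 / 2 := by
    filter_upwards [hc.eventually_const_lt hlo, hc.eventually_lt_const hhi] with y hy hy'
    exact abs_le.2 ⟨hy.le, hy'.le⟩
  have hdist : ∀ y : R3, |y i - a - n| ≤ 1 / 2 → dist1 (y i - a) = |y i - a - n| := fun y hy => by
    rw [← zdist_eq_abs hy, ← zdist_add_int (y i - a - n) n, sub_add_cancel]
    rfl
  obtain ⟨s, hs, hev⟩ : ∃ s : ℝ, (s = 1 ∨ s = -1) ∧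
      ∀ᶠ y in 𝓝 x, dist1 (y i - a) = s * (y i - a - n) := by
    rcases lt_or_gt_of_ne h1 with hneg | hpos
    · refine ⟨-1, .inr rfl, ?_⟩
      filter_upwards [hd, hc.eventually_lt_const hneg] with y hy hy'
      rw [hdist y hy, abs_of_neg hy']; ring
    · refine ⟨1, .inl rfl, ?_⟩
      filter_upwards [hd, hc.eventually_const_lt hpos] with y hy hy'
      rw [hdist y hy, abs_of_pos hy', one_mul]
  have key : ∀ (F : R3 → R3), (∀ᶠ y in 𝓝 x, foldMap i a σ y = F y) →
      gradNorm (fun y => f (foldMap i a σ y)) x = gradNorm (fun y => f (F y)) x ∧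
        foldMap i a σ x = F x := fun F hF =>
    ⟨Symm.gradNorm_congr (g := fun y => f (F y))
      (EventuallyEq.fderiv_eq (hF.mono fun y hy => congrArg f hy)), hF.self_of_nhds⟩
  by_cases hpos : σ * s = 1
  · have e : ∀ᶠ y in 𝓝 x, foldMap i a σ y = y + Pi.single i (-(n : ℝ)) := by
      filter_upwards [hev] with y hy
      ext j
      rcases eq_or_ne j i with rfl | hj
      · simp only [foldMap, Function.update_self, hy, ← mul_assoc, hpos, Pi.add_apply,
          Pi.single_eq_same]
        ring
      · simp [foldMap, hj]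
    generalize (Pi.single i (-(n : ℝ)) : R3) = c at e
    obtain ⟨h1, h2⟩ := key (fun y => y + c) e
    rw [h1, h2]
    exact gradNorm_comp_add f c x
  · have hneg : σ * s = -1 := by
      have h' : ∀ p q : ℝ, (p = 1 ∨ p = -1) → (q = 1 ∨ q = -1) → p * q = 1 ∨ p * q = -1 := by
        rintro p q (rfl | rfl) (rfl | rfl) <;> norm_num
      exact (h' σ s hσ hs).resolve_left hpos
    have e : ∀ᶠ y in 𝓝 x, foldMap i a σ y = Symm.mirror i a y + Pi.single i (n : ℝ) := by
      filter_upwards [hev] with y hy
      ext j
      rcases eq_or_ne j i with rfl | hj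
      · simp only [foldMap, Symm.mirror, Function.update_self, hy, ← mul_assoc, hneg, Pi.add_apply,
          Pi.single_eq_same]
        ring
      · simp [foldMap, Symm.mirror, hj]
    generalize (Pi.single i (n : ℝ) : R3) = c at e
    obtain ⟨h1, h2⟩ := key (fun y => Symm.mirror i a y + c) e
    rw [h1, h2]
    exact ((Symm.mirror_refl i a).grad (fun z => f (z + c)) x).trans (gradNorm_comp_add f c _)

theorem ae_not_plane (i : Fin 3) (a : ℝ) : ∀ᵐ x : R3, ∀ m : ℤ, 2 * (x i - a) ≠ m := by
  rw [ae_all_iff]
  intro m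
  have h : ∀ᵐ t : ℝ, t ≠ a + (m : ℝ) / 2 := by simp [ae_iff]
  filter_upwards [(Measure.quasiMeasurePreserving_eval (μ := fun _ : Fin 3 => (volume : Measure ℝ)) i).ae h]
    with x hx e
  apply hx
  show x i = _
  linarith

/-- A periodic bounded function has the same integral as its mirror image. -/
theorem integral_mirror_periodic (i : Fin 3) (a : ℝ) {G : R3 → ℝ} (hG : IsPeriodic G)
    (hm : Measurable G) {C : ℝ} (hb : ∀ x, |G x| ≤ C) :
    ∫ x in cube, G (Symm.mirror i a x) = ∫ x in cube, G x :=
  Symm.integral_mirror i a (fun x => hG.shift i x) (Symm.integrableOn_cube hm hb)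
    (Symm.integrableOn_cube (hm.comp (Symm.mirror_refl i a).lip.continuous.measurable)
      fun _ => hb _)

theorem integral_foldMap_add (i : Fin 3) (a : ℝ) {G : R3 → ℝ} (hG : IsPeriodic G)
    (hm : Measurable G) {C : ℝ} (hb : ∀ x, |G x| ≤ C) :
    (∫ x in cube, G (foldMap i a 1 x)) + ∫ x in cube, G (foldMap i a (-1) x) =
      2 * ∫ x in cube, G x := by
  have hF : ∀ σ : ℝ, |σ| = 1 → IntegrableOn (fun x => G (foldMap i a σ x)) cube := fun σ hσ =>
    Symm.integrableOn_cube (hm.comp (lipschitz_foldMap i a hσ).continuous.measurable) fun _ => hb _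
  have hM : IntegrableOn (fun x => G (Symm.mirror i a x)) cube :=
    Symm.integrableOn_cube (hm.comp (Symm.mirror_refl i a).lip.continuous.measurable) fun _ => hb _
  rw [← integral_add (hF 1 (by simp)) (hF (-1) (by simp)),
    setIntegral_congr_fun measurableSet_cube fun x _ => foldMap_add i a hG x,
    integral_add (Symm.integrableOn_cube hm hb) hM, integral_mirror_periodic i a hG hm hb]
  ring

theorem integral_abs_foldMap_le (i : Fin 3) (a : ℝ) {σ : ℝ} (hσ : σ = 1 ∨ σ = -1) {G : R3 → ℝ}
    (hG : IsPeriodic G) (hm : Measurable G) {C : ℝ} (hb : ∀ x, |G x| ≤ C) :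
    ∫ x in cube, |G (foldMap i a σ x)| ≤ 2 * ∫ x in cube, |G x| := by
  have hb' : ∀ x, |(|G x|)| ≤ C := fun x => by rw [abs_abs]; exact hb x
  have hp : IsPeriodic fun x => |G x| := hG.comp fun z => |z|
  have hm' : Measurable fun x => |G x| := hm.abs
  rw [← integral_foldMap_add i a hp hm' hb']
  rcases hσ with rfl | rfl
  · exact le_add_of_nonneg_right (setIntegral_nonneg measurableSet_cube fun x _ => abs_nonneg _)
  · exact le_add_of_nonneg_left (setIntegral_nonneg measurableSet_cube fun x _ => abs_nonneg _)

theorem ind_mem (E : Set R3) (x : R3) : ind E x ∈ Icc (0 : ℝ) 1 := by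
  by_cases h : x ∈ E <;> simp [ind, h]

theorem isPeriodic_ind {E : Set R3} (hE : IsPeriodic fun x => x ∈ E) : IsPeriodic (ind E) :=
  fun x k => by
    classical
    simp only [ind, Set.indicator_apply]
    exact if_congr (eq_iff_iff.1 (hE x k)) rfl rfl

theorem measurable_ind_set {E : Set R3} (hE : MeasurableSet E) : Measurable (ind E) :=
  measurable_const.indicator hE

theorem integral_ind {E : Set R3} (hE : MeasurableSet E) :
    ∫ x in cube, ind E x = volume.real (E ∩ cube) := by
  rw [ind, setIntegral_indicator hE, setIntegral_const, smul_eq_mul, mul_one, inter_comm]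

theorem ind_fold (i : Fin 3) (a σ : ℝ) (E : Set R3) (x : R3) :
    ind (fold i a σ E) x = ind E (foldMap i a σ x) := by
  by_cases h : foldMap i a σ x ∈ E
  · rw [ind, ind, indicator_of_mem h, indicator_of_mem (show x ∈ fold i a σ E from h)]
  · rw [ind, ind, indicator_of_notMem h, indicator_of_notMem (show x ∉ fold i a σ E from h)]

theorem measurableSet_fold (i : Fin 3) (a : ℝ) {σ : ℝ} (hσ : |σ| = 1) {E : Set R3}
    (hE : MeasurableSet E) : MeasurableSet (fold i a σ E) :=
  (lipschitz_foldMap i a hσ).continuous.measurable hE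

theorem abs_sub_le_one {p q : ℝ} (hp : p ∈ Icc (0 : ℝ) 1) (hq : q ∈ Icc (0 : ℝ) 1) :
    |p - q| ≤ 1 := abs_le.2 ⟨by linarith [hp.1, hq.2], by linarith [hp.2, hq.1]⟩

/-- If functions converge in `L¹` to an indicator, their levels converge in volume. -/
theorem tendsto_levelVol {f : ℕ → R3 → ℝ} (hf : ∀ k, Measurable (f k))
    (h01 : ∀ k x, f k x ∈ Icc (0 : ℝ) 1) {E : Set R3} (hE : MeasurableSet E)
    (hlim : Tendsto (fun k => ∫ x in cube, |f k x - ind E x|) atTop (𝓝 0)) {t : ℝ}
    (ht : t ∈ Ioo (0 : ℝ) 1) :
    Tendsto (fun k => levelVol (f k) t) atTop (𝓝 (volume.real (E ∩ cube))) := by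
  have hd : 0 < min t (1 - t) := lt_min ht.1 (by linarith [ht.2])
  rw [tendsto_iff_norm_sub_tendsto_zero]
  refine squeeze_zero (fun k => norm_nonneg _) (fun k => ?_)
    (by simpa using hlim.const_mul (1 / min t (1 - t)))
  have hS : MeasurableSet {x | t < f k x} := measurableSet_lt measurable_const (hf k)
  have hb : ∀ x, |ind {x | t < f k x} x - ind E x| ≤ 1 := fun x =>
    abs_sub_le_one (ind_mem _ x) (ind_mem _ x)
  have hi : ∀ G : Set R3, MeasurableSet G → IntegrableOn (ind G) cube := fun G hG =>
    Symm.integrableOn_cube (measurable_ind_set hG) (C := 1) fun x => by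
      rw [abs_of_nonneg (ind_mem G x).1]; exact (ind_mem G x).2
  have e : levelVol (f k) t = ∫ x in cube, ind {x | t < f k x} x := by
    rw [integral_ind hS, inter_comm]; rfl
  rw [e, ← integral_ind hE, ← integral_sub (hi _ hS) (hi _ hE), ← integral_const_mul]
  refine (norm_integral_le_integral_norm _).trans (integral_mono ?_ ?_ fun x => ?_)
  · exact Symm.integrableOn_cube ((measurable_ind_set hS).sub (measurable_ind_set hE)).norm (C := 1)
      fun x => by rw [Real.norm_eq_abs, abs_abs]; exact hb x
  · exact (Symm.integrableOn_cube ((hf k).sub (measurable_ind_set hE)).abs (C := 1)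
      fun x => by rw [abs_abs]; exact abs_sub_le_one (h01 k x) (ind_mem _ x)).const_mul _
  · have h1 := h01 k x
    rw [Real.norm_eq_abs, ← div_eq_inv_mul, le_div_iff₀ hd]
    by_cases hxS : t < f k x <;> by_cases hxE : x ∈ E <;>
      simp [ind, hxS, hxE, abs_of_nonneg h1.1]
    · exact Or.inl hxS.le
    · rw [abs_of_nonpos (by linarith [h1.2])]
      exact Or.inr (by linarith [not_lt.1 hxS])
    · exact h1.1

/-- The integrals of the candidate at the levels converge. -/
theorem tendsto_integral_candidate_L1 {f : ℕ → R3 → ℝ} (hf : ∀ k, Measurable (f k))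
    (h01 : ∀ k x, f k x ∈ Icc (0 : ℝ) 1) {E : Set R3} (hE : MeasurableSet E)
    (hlim : Tendsto (fun k => ∫ x in cube, |f k x - ind E x|) atTop (𝓝 0)) :
    Tendsto (fun k => ∫ t in (0 : ℝ)..1, candidate (levelVol (f k) t)) atTop
      (𝓝 (candidate (volume.real (E ∩ cube)))) := by
  rw [show candidate (volume.real (E ∩ cube)) =
    ∫ _t in (0 : ℝ)..1, candidate (volume.real (E ∩ cube)) by simp]
  refine intervalIntegral.tendsto_integral_filter_of_dominated_convergence (fun _ => 2) ?_ ?_
    intervalIntegrable_const ?_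
  · exact Eventually.of_forall fun k =>
      (continuous_candidate.measurable.comp
        (levelVol_antitone (f k)).measurable).aestronglyMeasurable
  · refine Eventually.of_forall fun k => Eventually.of_forall fun t _ => ?_
    have h := levelVol_mem (f k) t
    rw [Real.norm_eq_abs, abs_of_nonneg (candidate_nonneg h.1 h.2)]
    exact candidate_le_two _
  · have h1 : ∀ᵐ t : ℝ ∂volume, t ≠ 1 := by simp [ae_iff]
    filter_upwards [h1] with t ht1 ht
    rw [uIoc_of_le zero_le_one] at ht
    exact (continuous_candidate.tendsto _).comp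
      (tendsto_levelVol hf h01 hE hlim ⟨ht.1, lt_of_le_of_ne ht.2 ht1⟩)

/-- The volume on the positive side, twice. -/
noncomputable def sideVol (i : Fin 3) (E : Set R3) (a : ℝ) : ℝ :=
  ∫ x in cube, ind E (foldMap i a 1 x)

theorem sideVol_add_half {E : Set R3} (hE : IsPeriodic fun x => x ∈ E) (i : Fin 3) (a : ℝ) :
    sideVol i E (a + 1 / 2) = ∫ x in cube, ind E (foldMap i a (-1) x) := by
  refine setIntegral_congr_fun measurableSet_cube fun x _ => ?_
  have h : dist1 (x i - (a + 1 / 2)) = 1 / 2 - dist1 (x i - a) := by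
    rw [← dist1_add_half (x i - a)]
    rw [show x i - a + 1 / 2 = x i - (a + 1 / 2) + ((1 : ℤ) : ℝ) by push_cast; ring, zdist_dist1_add_int]
  show ind E (Function.update x i _) = ind E (Function.update x i _)
  rw [h, ← periodic_update (isPeriodic_ind hE) x i (a + -1 * dist1 (x i - a)) 1]
  congr 2
  push_cast
  ring

/-- Some plane bisects a periodic set that is approximated by Lipschitz functions. -/
theorem exists_bisect {V : ℝ} {E : Set R3} (h : Min V E) (i : Fin 3) :
    ∃ a, sideVol i E a = V ∧ ∫ x in cube, ind E (foldMap i a (-1) x) = V := by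
  obtain ⟨f, hL, hp, h01, hlim, -⟩ := h.approx
  have hpi := isPeriodic_ind h.per
  have hsum : ∀ a, sideVol i E a + ∫ x in cube, ind E (foldMap i a (-1) x) = 2 * V := fun a => by
    rw [sideVol, integral_foldMap_add i a hpi (measurable_ind_set h.meas) (C := 1) (fun x => by
      rw [abs_of_nonneg (ind_mem E x).1]; exact (ind_mem E x).2), integral_ind h.meas, h.vol]
  have hcont : Continuous (sideVol i E) := by
    have hu : TendstoUniformly (fun k a => ∫ x in cube, f k (foldMap i a 1 x)) (sideVol i E)
        atTop := by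
      rw [Metric.tendstoUniformly_iff]
      intro ε hε
      filter_upwards [hlim.eventually (gt_mem_nhds (half_pos hε))] with k hk a
      obtain ⟨L, hLk⟩ := hL k
      have hF := (lipschitz_foldMap i a (σ := 1) abs_one).continuous.measurable
      have i1 : IntegrableOn (fun x => f k (foldMap i a 1 x)) cube :=
        Symm.integrableOn_cube (hLk.continuous.measurable.comp hF) (C := 1) fun x => by
          rw [abs_of_nonneg (h01 k _).1]; exact (h01 k _).2
      have i2 : IntegrableOn (fun x => ind E (foldMap i a 1 x)) cube :=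
        Symm.integrableOn_cube ((measurable_ind_set h.meas).comp hF) (C := 1) fun x => by
          rw [abs_of_nonneg (ind_mem E _).1]; exact (ind_mem E _).2
      rw [Real.dist_eq, sideVol, abs_sub_comm, ← integral_sub i1 i2]
      refine lt_of_le_of_lt (abs_integral_le_integral_abs.trans
        (integral_abs_foldMap_le i a (Or.inl rfl) (G := fun x => f k x - ind E x)
          ((hp k).op₂ hpi fun p q => p - q) (hLk.continuous.measurable.sub (measurable_ind_set h.meas))
          (C := 1) fun x => abs_sub_le_one (h01 k x) (ind_mem E x))) ?_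
      linarith
    refine hu.continuous (Eventually.frequently (Eventually.of_forall fun k => ?_))
    obtain ⟨L, hLk⟩ := hL k
    refine MeasureTheory.continuous_of_dominated (bound := fun _ => 1) (fun a => ?_) (fun a => ?_)
      (integrable_const _) (Eventually.of_forall fun x => ?_)
    · exact (hLk.continuous.measurable.comp
        (lipschitz_foldMap i a (σ := 1) abs_one).continuous.measurable).aestronglyMeasurable
    · exact Eventually.of_forall fun x => by
        rw [Real.norm_eq_abs, abs_of_nonneg (h01 k _).1]; exact (h01 k _).2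
    · refine hLk.continuous.comp (continuous_pi fun j => ?_)
      have hd : Continuous dist1 := (LipschitzWith.of_dist_le_mul (K := 1) fun s t => by
        simpa [Real.dist_eq] using abs_dist1_sub s t).continuous
      rcases eq_or_ne j i with rfl | hj
      · simp only [foldMap, Function.update_self]; fun_prop
      · simp only [foldMap, Function.update_of_ne hj]; fun_prop
  have h0 := hsum 0
  rw [← sideVol_add_half h.per, zero_add] at h0
  obtain ⟨a, -, ha⟩ := intermediate_value_uIcc hcont.continuousOn
    (show V ∈ Set.uIcc (sideVol i E 0) (sideVol i E (1 / 2)) by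
      rw [Set.mem_uIcc]
      rcases le_total (sideVol i E 0) V with hle | hle
      · exact Or.inl ⟨hle, by linarith⟩
      · exact Or.inr ⟨by linarith, hle⟩)
  exact ⟨a, ha, by linarith [hsum a]⟩

/-- A bisecting plane gives two minimisers by reflection. -/
theorem stmtBisect (H : FunIso) : StmtBisect := by
  intro V _ E hmin i
  obtain ⟨a, hp1, hm1⟩ := exists_bisect hmin i
  obtain ⟨f, hL, hp, h01, hlim, hen⟩ := hmin.approx
  have hpi := isPeriodic_ind hmin.per
  have hσ' : ∀ {σ : ℝ}, σ = 1 ∨ σ = -1 → |σ| = 1 := by rintro σ (rfl | rfl) <;> simp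
  choose L hLk using hL
  have hLσ : ∀ {σ : ℝ}, σ = 1 ∨ σ = -1 → ∀ k,
      LipschitzWith (L k) fun x => f k (foldMap i a σ x) := fun {σ} hσ k => by
    simpa [Function.comp_def] using (hLk k).comp (lipschitz_foldMap i a (hσ' hσ))
  have hvol : ∀ {σ : ℝ}, σ = 1 ∨ σ = -1 → volume.real (fold i a σ E ∩ cube) = V := fun {σ} hσ => by
    rw [← integral_ind (measurableSet_fold i a (hσ' hσ) hmin.meas)]
    simp only [ind_fold]
    rcases hσ with rfl | rfl
    · exact hp1
    · exact hm1
  have hlimσ : ∀ {σ : ℝ}, σ = 1 ∨ σ = -1 → Tendsto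
      (fun k => ∫ x in cube, |f k (foldMap i a σ x) - ind (fold i a σ E) x|) atTop (𝓝 0) :=
    fun {σ} hσ => by
    refine squeeze_zero (fun k => setIntegral_nonneg measurableSet_cube fun x _ => abs_nonneg _)
      (fun k => ?_) (by simpa using hlim.const_mul 2)
    simp only [ind_fold]
    exact integral_abs_foldMap_le i a hσ (G := fun x => f k x - ind E x)
      ((hp k).op₂ hpi fun p q => p - q) ((hLk k).continuous.measurable.sub (measurable_ind_set hmin.meas))
      (C := 1) fun x => abs_sub_le_one (h01 k x) (ind_mem E x)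
  have htot : ∀ k, (∫ x in cube, gradNorm (fun y => f k (foldMap i a 1 y)) x) +
      ∫ x in cube, gradNorm (fun y => f k (foldMap i a (-1) y)) x =
        2 * ∫ x in cube, gradNorm (f k) x := fun k => by
    have hC : ∀ x, |gradNorm (f k) x| ≤ 3 * (L k : ℝ) := fun x => by
      rw [abs_of_nonneg (gradNorm_nonneg _ _)]; exact Symm.gradNorm_le (hLk k) x
    rw [← integral_foldMap_add i a (isPeriodic_gradNorm (hp k)) (measurable_gradNorm _) hC]
    congr 1 <;> refine integral_congr_ae ?_ <;>
      filter_upwards [ae_restrict_of_ae (ae_not_plane i a)] with x hx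
    · exact gradNorm_foldMap i a (Or.inl rfl) x hx
    · exact gradNorm_foldMap i a (Or.inr rfl) x hx
  have hlow : ∀ {σ : ℝ}, σ = 1 ∨ σ = -1 → ∀ ε > 0, ∀ᶠ k in atTop,
      candidate V - ε ≤ ∫ x in cube, gradNorm (fun y => f k (foldMap i a σ y)) x :=
    fun {σ} hσ ε hε => by
    have ht := tendsto_integral_candidate_L1 (fun k => (hLσ hσ k).continuous.measurable)
      (fun k x => h01 k _) (measurableSet_fold i a (hσ' hσ) hmin.meas) (hlimσ hσ)
    rw [hvol hσ] at ht
    filter_upwards [ht.eventually_const_le (show candidate V - ε < candidate V by linarith)] with k hk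
    exact hk.trans (H (L k) _ (hLσ hσ k) (isPeriodic_comp_foldMap (hp k) i a σ) fun x => h01 k _)
  have main : ∀ σ τ : ℝ, (σ = 1 ∨ σ = -1) → (τ = 1 ∨ τ = -1) →
      (∀ k, (∫ x in cube, gradNorm (fun y => f k (foldMap i a σ y)) x) +
        ∫ x in cube, gradNorm (fun y => f k (foldMap i a τ y)) x =
          2 * ∫ x in cube, gradNorm (f k) x) → Min V (fold i a σ E) := by
    intro σ τ hσ hτ hsum
    refine ⟨measurableSet_fold i a (hσ' hσ) hmin.meas,
      isPeriodic_comp_foldMap (G := fun x => x ∈ E) hmin.per i a σ, hvol hσ,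
      fun k x => f k (foldMap i a σ x), fun k => ⟨L k, hLσ hσ k⟩,
      fun k => isPeriodic_comp_foldMap (hp k) i a σ, fun k x => h01 k _, hlimσ hσ,
      fun ε hε => ?_⟩
    filter_upwards [hen (ε / 3) (by linarith), hlow hτ (ε / 3) (by linarith)] with k h1 h2
    linarith [hsum k]
  exact ⟨a, main 1 (-1) (Or.inl rfl) (Or.inr rfl) htot,
    main (-1) 1 (Or.inr rfl) (Or.inl rfl) fun k => by rw [add_comm]; exact htot k⟩

end Vale.Agent.P232.Rigid
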