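import Vale.Agent.P232.Rigid.Lines

/-!
# P232: lines of the bodies and the calibrating transversal field
-/

open MeasureTheory Set Filter
open scoped Topology NNReal ENNReal

namespace Vale.Agent.P232.Rigid

theorem dist1_le_half (t : ℝ) : dist1 t ≤ 1 / 2 := abs_sub_round t

theorem dist1_add_intCast (t : ℝ) (n : ℤ) : dist1 (t + n) = dist1 t := by
  simp [dist1, round_add_intCast]

theorem dist1_of_abs_lt {t : ℝ} (h : |t| < 1 / 2) : dist1 t = |t| := by
  have : round t = 0 := by
    rw [round_eq, Int.floor_eq_zero_iff]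
    constructor <;> linarith [(abs_lt.1 h).1, (abs_lt.1 h).2]
  simp [dist1, this]

theorem continuous_dist1 : Continuous dist1 := by
  refine (LipschitzWith.of_dist_le_mul (K := 1) fun a b => ?_).continuous
  simp only [NNReal.coe_one, one_mul, Real.dist_eq, dist1]
  have h1 := round_le a (round b)
  have h2 := round_le b (round a)
  rw [abs_sub_le_iff]
  refine ⟨?_, ?_⟩
  · linarith [abs_sub_le a b (round b)]
  · linarith [abs_sub_le b a (round a), abs_sub_comm a b]

/-- The round is constant near a point that is not half way between integers. -/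
theorem eventually_round_eq {t : ℝ} (h : dist1 t < 1 / 2) : ∀ᶠ u in 𝓝 t, round u = round t := by
  have hb := abs_lt.1 (show |t - round t| < 1 / 2 from h)
  filter_upwards [Ioo_mem_nhds (a := (round t : ℝ) - 1 / 2) (b := (round t : ℝ) + 1 / 2)
    (by linarith) (by linarith)] with u hu
  rw [round_eq, Int.floor_eq_iff]
  constructor <;> linarith [hu.1, hu.2]

theorem volume_arc_lt (m : ℝ) {r : ℝ} (h0 : 0 ≤ r) (h1 : r ≤ 1 / 2) :
    volume.real {t ∈ Icc (0 : ℝ) 1 | dist1 (t - m) < r} = 2 * r := by
  set S : Set ℝ := {t | dist1 (t - m) < r}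
  have hS : MeasurableSet S :=
    measurableSet_lt (continuous_dist1.comp (continuous_id.sub continuous_const)).measurable
      measurable_const
  set g : ℝ → ℝ := S.indicator fun _ => 1 with hg
  have hper : Function.Periodic g 1 := fun t => by
    have e : dist1 (t + 1 - m) = dist1 (t - m) := by
      have := dist1_add_intCast (t - m) 1
      rwa [Int.cast_one, ← add_sub_right_comm] at this
    simp only [hg, indicator, S, mem_ofPred_eq, e]
  have h := hper.intervalIntegral_add_eq 0 (m - 1 / 2)
  rw [zero_add, show m - 1 / 2 + 1 = m + 1 / 2 by ring] at h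
  have eA : ∀ a b : ℝ, a ≤ b → ∫ t in a..b, g t = volume.real (Ioc a b ∩ S) := fun a b hab => by
    rw [intervalIntegral.integral_of_le hab, hg, setIntegral_indicator hS, setIntegral_const,
      smul_eq_mul, mul_one]
  rw [eA 0 1 zero_le_one, eA _ _ (by linarith)] at h
  have e2 : ({t ∈ Icc (0 : ℝ) 1 | dist1 (t - m) < r} : Set ℝ) = Icc (0 : ℝ) 1 ∩ S := rfl
  rw [e2, measureReal_congr (Ioc_ae_eq_Icc.symm.inter (ae_eq_refl S)), h]
  have e3 : (Ioc (m - 1 / 2) (m + 1 / 2) ∩ S : Set ℝ) =ᵐ[volume] (Ioo (m - r) (m + r) : Set ℝ) := by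
    refine (Ioo_ae_eq_Ioc.symm.inter (ae_eq_refl S)).trans (Filter.EventuallyEq.of_eq ?_)
    ext t
    simp only [mem_inter_iff, mem_Ioo, S, mem_ofPred_eq]
    refine ⟨fun ⟨ht, hd⟩ => ?_, fun ht => ?_⟩
    · replace hd : dist1 (t - m) < r := hd
      rw [dist1_of_abs_lt (t := t - m) (abs_lt.2 ⟨by linarith [ht.1], by linarith [ht.2]⟩), abs_lt] at hd
      exact ⟨by linarith [hd.1], by linarith [hd.2]⟩
    · have hh : |t - m| < r := abs_lt.2 ⟨by linarith [ht.1], by linarith [ht.2]⟩
      refine ⟨⟨by linarith [ht.1], by linarith [ht.2]⟩, show dist1 (t - m) < r from ?_⟩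
      rwa [dist1_of_abs_lt (by linarith)]
  rw [measureReal_congr e3, Real.volume_real_Ioo_of_le (by linarith)]
  ring

/-- The squared distance to the axis of the body, transversally to the direction `i`. -/
noncomputable def tr2 (i : Fin 3) (s : Finset (Fin 3)) (c : R3) (x : R3) : ℝ :=
  ∑ j ∈ s.erase i, dist1 (x j - c j) ^ 2

/-- The weight of derivatives in direction `i`. -/
noncomputable def eta0 (i : Fin 3) (s : Finset (Fin 3)) (R : ℝ) (c : R3) (x : R3) : ℝ :=
  Real.sqrt (max 0 (1 - tr2 i s c x / R ^ 2))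

variable {i : Fin 3} {s : Finset (Fin 3)} {R η : ℝ} {c x : R3}

theorem continuous_tr2 : Continuous (tr2 i s c) :=
  continuous_finsetSum _ fun _ _ =>
    (continuous_dist1.comp ((continuous_apply _).sub continuous_const)).pow 2

theorem continuous_eta0 : Continuous (eta0 i s R c) :=
  (continuous_const.max (continuous_const.sub (continuous_tr2.div_const _))).sqrt

theorem tr2_nonneg : 0 ≤ tr2 i s c x := Finset.sum_nonneg fun _ _ => sq_nonneg _

theorem eta0_nonneg : 0 ≤ eta0 i s R c x := Real.sqrt_nonneg _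

theorem tr2_insertNth (t : ℝ) (y : Fin 2 → ℝ) :
    tr2 i s c (i.insertNth t y) = tr2 i s c (i.insertNth 0 y) := by
  refine Finset.sum_congr rfl fun j hj => ?_
  obtain ⟨l, rfl⟩ := Fin.exists_succAbove_eq (Finset.ne_of_mem_erase hj)
  simp

theorem eta0_insertNth (t : ℝ) (y : Fin 2 → ℝ) :
    eta0 i s R c (i.insertNth t y) = eta0 i s R c (i.insertNth 0 y) := by
  simp only [eta0, tr2_insertNth t y]

/-- The lines of a body. -/
theorem lineLen_body (hi : i ∈ s) (hR : 0 < R) (hR2 : R < 1 / 2) (y : Fin 2 → ℝ) :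
    lineLen i (body s R c) y = 2 * R * eta0 i s R c (i.insertNth 0 y) := by
  set u := tr2 i s c (i.insertNth 0 y) with hu
  have e : lineSet i (body s R c) y =
      {t ∈ Icc (0 : ℝ) 1 | dist1 (t - c i) < R * eta0 i s R c (i.insertNth 0 y)} := by
    ext t
    simp only [lineSet, body, mem_ofPred_eq]
    refine and_congr_right fun _ => ?_
    rw [← Finset.add_sum_erase s _ hi, show ∑ j ∈ s.erase i,
      dist1 ((i.insertNth t y : R3) j - c j) ^ 2 = u from tr2_insertNth t y,
      Fin.insertNth_apply_same, eta0, ← hu]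
    have hd : 0 ≤ dist1 (t - c i) := abs_nonneg _
    rcases le_or_gt (R ^ 2) u with h | h
    · rw [max_eq_left (by rw [sub_nonpos, one_le_div (by positivity)]; exact h), Real.sqrt_zero,
        mul_zero]
      constructor
      · intro hlt; nlinarith
      · intro hlt; linarith
    · rw [max_eq_right (sub_nonneg.2 ((div_le_one (by positivity)).2 h.le)),
        ← Real.sqrt_sq hR.le, ← Real.sqrt_mul (sq_nonneg R), Real.lt_sqrt hd,
        Real.sqrt_sq hR.le, mul_sub, mul_one, mul_div_cancel₀ _ (by positivity)]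
      exact lt_sub_iff_add_lt.symm
  rw [lineLen, e, volume_arc_lt _ (mul_nonneg hR.le eta0_nonneg) ?_, ← mul_assoc]
  have : eta0 i s R c (i.insertNth 0 y) ≤ 1 := by
    refine Real.sqrt_le_one.2 (max_le zero_le_one (sub_le_self _ ?_))
    exact div_nonneg tr2_nonneg (sq_nonneg R)
  nlinarith

/-- The lines of a body not involving the direction. -/
theorem lineSet_body_of_notMem (hi : i ∉ s) (y : Fin 2 → ℝ) :
    lineSet i (body s R c) y = ∅ ∨ lineSet i (body s R c) y = Icc (0 : ℝ) 1 := by
  have h : ∀ t, (i.insertNth t y : R3) ∈ body s R c ↔ (i.insertNth 0 y : R3) ∈ body s R c :=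
    fun t => by
      have e : ∀ j ∈ s, (i.insertNth t y : R3) j = (i.insertNth 0 y : R3) j := fun j hj => by
        obtain ⟨l, rfl⟩ := Fin.exists_succAbove_eq (ne_of_mem_of_not_mem hj hi)
        simp
      simp only [body, mem_ofPred_eq]
      rw [Finset.sum_congr rfl fun j hj => by rw [e j hj]]
  by_cases h0 : (i.insertNth 0 y : R3) ∈ body s R c
  · exact .inr (by ext t; simp [lineSet, h t, h0])
  · exact .inl (by ext t; simp [lineSet, h t, h0])

/-- The cut-off. -/
noncomputable def cutoff (R η u : ℝ) : ℝ := Real.smoothTransition ((R ^ 2 + η - u) / η)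

theorem cutoff_one {u : ℝ} (hη : 0 < η) (h : u ≤ R ^ 2) : cutoff R η u = 1 :=
  Real.smoothTransition.one_of_one_le ((one_le_div hη).2 (by linarith))

theorem cutoff_zero {u : ℝ} (hη : 0 < η) (h : R ^ 2 + η ≤ u) : cutoff R η u = 0 :=
  Real.smoothTransition.zero_of_nonpos (div_nonpos_of_nonpos_of_nonneg (by linarith) hη.le)

/-- The transversal field. -/
noncomputable def chi (i : Fin 3) (s : Finset (Fin 3)) (R η : ℝ) (c : R3) (x : R3) : R3 := fun j =>
  if j ∈ s.erase i then
    (x j - c j - round (x j - c j)) * cutoff R η (tr2 i s c x) / Real.sqrt (R ^ 2 + η)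
  else 0

theorem chi_of_notMem {j : Fin 3} (h : j ∉ s.erase i) : chi i s R η c x j = 0 := if_neg h

theorem isPeriodic_tr2 : IsPeriodic (tr2 i s c) := fun x k => by
  refine Finset.sum_congr rfl fun j _ => ?_
  rw [Pi.add_apply, add_sub_right_comm, dist1_add_intCast]

theorem isPeriodic_chi : IsPeriodic (chi i s R η c) := fun x k => by
  funext j
  simp only [chi, isPeriodic_tr2 x k]
  split_ifs
  · rw [Pi.add_apply, add_sub_right_comm, round_add_intCast]
    push_cast
    ring
  · rfl

theorem sum_chi_sq :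
    ∑ j, chi i s R η c x j ^ 2 =
      tr2 i s c x * cutoff R η (tr2 i s c x) ^ 2 / Real.sqrt (R ^ 2 + η) ^ 2 := by
  simp only [chi, ite_pow, ne_eq, OfNat.ofNat_ne_zero, not_false_eq_true, zero_pow,
    Finset.sum_ite_mem, Finset.univ_inter]
  rw [tr2, Finset.sum_mul, Finset.sum_div]
  refine Finset.sum_congr rfl fun j _ => ?_
  simp only [dist1, sq_abs]
  ring

theorem chi_add_eta0_le (hη : 0 < η) (hR : 0 < R) :
    ∑ j, chi i s R η c x j ^ 2 + eta0 i s R c x ^ 2 ≤ 1 := by
  rw [sum_chi_sq, eta0, Real.sq_sqrt (le_max_left _ _), Real.sq_sqrt (by positivity)]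
  have hu : 0 ≤ tr2 i s c x := tr2_nonneg
  rcases le_or_gt (tr2 i s c x) (R ^ 2) with h | h
  · rw [cutoff_one hη h, max_eq_right (sub_nonneg.2 ((div_le_one (by positivity)).2 h)), one_pow,
      mul_one]
    have : tr2 i s c x / (R ^ 2 + η) ≤ tr2 i s c x / R ^ 2 := by gcongr; linarith
    linarith
  · rw [max_eq_left (sub_nonpos.2 ((one_le_div (by positivity)).2 h.le)), add_zero,
      div_le_one (by positivity)]
    rcases le_or_gt (R ^ 2 + η) (tr2 i s c x) with h' | h'
    · rw [cutoff_zero hη h']; simp; positivity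
    · refine (mul_le_of_le_one_right hu (pow_le_one₀ (Real.smoothTransition.nonneg _)
        (Real.smoothTransition.le_one _))).trans h'.le

/-- Near a point of small transversal distance the field is the affine one times the cut-off. -/
theorem eventually_chi (hu : tr2 i s c x < 1 / 4) :
    ∀ᶠ z in 𝓝 x, ∀ j ∈ s.erase i, round (z j - c j) = round (x j - c j) := by
  refine (Finset.eventually_all _).2 fun j hj => ?_
  have hd : dist1 (x j - c j) < 1 / 2 := by
    have h := (Finset.single_le_sum (f := fun j => dist1 (x j - c j) ^ 2) (fun _ _ => sq_nonneg _)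
      hj).trans_lt hu
    nlinarith [abs_nonneg (x j - c j - round (x j - c j))]
  exact ((continuous_apply j).sub continuous_const : Continuous fun z : R3 => z j - c j).continuousAt
    |>.eventually (eventually_round_eq hd)

theorem contDiff_chi (hη : 0 < η) (hR : R ^ 2 + η < 1 / 4) :
    ContDiff ℝ 1 (chi i s R η c) := by
  refine contDiff_iff_contDiffAt.2 fun x => ?_
  rcases lt_or_ge (tr2 i s c x) (1 / 4) with h | h
  · set n : Fin 3 → ℝ := fun j => (round (x j - c j) : ℝ)
    have hsm : ContDiff ℝ 1 fun z : R3 => fun j : Fin 3 => if j ∈ s.erase i then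
        (z j - c j - n j) * Real.smoothTransition
          ((R ^ 2 + η - ∑ l ∈ s.erase i, (z l - c l - n l) ^ 2) / η) / Real.sqrt (R ^ 2 + η)
        else 0 := by
      refine contDiff_pi.2 fun j => ?_
      by_cases hj : j ∈ s.erase i
      · simp only [if_pos hj]
        refine (((contDiff_apply ℝ ℝ j).sub contDiff_const).sub contDiff_const).mul
          (Real.smoothTransition.contDiff.comp ?_) |>.div_const _
        exact (contDiff_const.sub (ContDiff.sum fun l _ =>
          (((contDiff_apply ℝ ℝ l).sub contDiff_const).sub contDiff_const).pow 2)).div_const _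
      · simp only [if_neg hj]; exact contDiff_const
    refine hsm.contDiffAt.congr_of_eventuallyEq ?_
    filter_upwards [eventually_chi h] with z hz
    funext j
    simp only [chi, cutoff, tr2, dist1, sq_abs]
    split_ifs with hj
    · rw [hz j hj, Finset.sum_congr rfl fun l hl => by rw [hz l hl]]
    · rfl
  · refine (contDiffAt_const (c := (0 : R3))).congr_of_eventuallyEq ?_
    filter_upwards [continuous_tr2.continuousAt.eventually (lt_mem_nhds (hR.trans_le h))] with z hz
    funext j
    simp only [chi, cutoff_zero hη hz.le, mul_zero, zero_div, ite_self, Pi.zero_apply]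

theorem testField_chi (hη : 0 < η) (hR : 0 < R) (hR' : R ^ 2 + η < 1 / 4) :
    TestField (chi i s R η c) :=
  ⟨contDiff_chi hη hR', isPeriodic_chi, fun x =>
    (le_add_of_nonneg_right (sq_nonneg _)).trans (chi_add_eta0_le hη hR)⟩

/-- The divergence inside the body. -/
theorem divg_chi (hη : 0 < η) (hR' : R ^ 2 + η < 1 / 4) (h : tr2 i s c x < R ^ 2) :
    divg (chi i s R η c) x = (s.erase i).card / Real.sqrt (R ^ 2 + η) := by
  have hc := contDiff_chi (i := i) (s := s) (c := c) hη hR'
  have hd : ∀ j, fderiv ℝ (chi i s R η c) x (Pi.single j 1) j =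
      if j ∈ s.erase i then 1 / Real.sqrt (R ^ 2 + η) else 0 := fun j => by
    rw [← fderiv_component hc]
    by_cases hj : j ∈ s.erase i
    · rw [if_pos hj]
      have e : (fun z => chi i s R η c z j) =ᶠ[𝓝 x]
          fun z => ((1 / Real.sqrt (R ^ 2 + η)) • ContinuousLinearMap.proj (R := ℝ) j : R3 →L[ℝ] ℝ) z
            + (-(c j) - round (x j - c j)) / Real.sqrt (R ^ 2 + η) := by
        filter_upwards [eventually_chi (h.trans (by linarith)),
          continuous_tr2.continuousAt.eventually (gt_mem_nhds h)] with z hz hz2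
        simp only [chi, if_pos hj, cutoff_one hη hz2.le, hz j hj, mul_one, smul_apply,
          ContinuousLinearMap.proj_apply, smul_eq_mul]
        ring
      rw [e.fderiv_eq, fderiv_add_const, ContinuousLinearMap.fderiv]
      simp
    · rw [if_neg hj]
      simp [chi, hj]
  simp only [divg, hd, Finset.sum_ite_mem, Finset.univ_inter, Finset.sum_const, nsmul_eq_mul]
  ring

end Vale.Agent.P232.Rigid
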