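import Vale.Agent.P232.Rigid.Defs
import Vale.Agent.P232.Lower
import Vale.Agent.P232.Upper

/-!
# P232: from sets attaining the profile to minimisers, and the classification for every volume

A competitor whose perimeter is at most the candidate is approximated by its mollifications. For
volumes above one half one passes to the complement.
-/

open MeasureTheory Set Filter
open scoped Topology ENNReal

namespace Vale.Agent.P232.Rigid

theorem candidate_one_sub (V : ℝ) : candidate (1 - V) = candidate V := by
  simp only [candidate, sub_sub_cancel, min_comm]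

/-- A competitor with perimeter at most the candidate is a minimiser. -/
theorem min_of_perimeter_le {V : ℝ} (h0 : 0 ≤ V) (h1 : V ≤ 1) {E : Set R3}
    (hE : IsCompetitor E V) (hP : perimeter E ≤ ENNReal.ofReal (candidate V)) : Min V E := by
  obtain ⟨hm, hp, hvol⟩ := hE
  have hflux : ∀ φ, TestField φ → ∫ x in E ∩ cube, divg φ x ≤ candidate V := fun φ hφ =>
    (ENNReal.ofReal_le_ofReal_iff (candidate_nonneg h0 h1)).1 ((le_perimeter hφ).trans hP)
  have hC : ∀ k, ContDiff ℝ 1 (mollify E k) := fun k => (contDiff_mollify hm k).of_le one_le_two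
  refine ⟨hm, hp, by rw [Measure.real, hvol, ENNReal.toReal_ofReal h0], mollify E, fun k => ?_,
    fun k => isPeriodic_mollify hp k, fun k x => mollify_mem_Icc k x, ?_, fun ε hε => ?_⟩
  · obtain ⟨L, hL, -⟩ := (isPeriodic_mollify hp k).exists_lipschitz (hC k)
    exact ⟨L, hL⟩
  · have h : Tendsto (fun k => ∫ x in cube, |mollify E k x - ind E x|) atTop
        (𝓝 (∫ _x in cube, (0 : ℝ))) := by
      refine tendsto_integral_of_dominated_convergence (fun _ => 1)
        (fun k => ((hC k).continuous.measurable.sub
          (measurable_const.indicator hm)).abs.aestronglyMeasurable) (integrable_const _)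
        (fun k => Eventually.of_forall fun x => ?_) ?_
      · have h1 := mollify_mem_Icc (E := E) k x
        have h2 : ind E x ∈ Icc (0 : ℝ) 1 := by by_cases h : x ∈ E <;> simp [ind, h]
        rw [Real.norm_eq_abs, abs_abs, abs_le]
        exact ⟨by linarith [h1.1, h2.2], by linarith [h1.2, h2.1]⟩
      · filter_upwards [ae_restrict_of_ae (ae_tendsto_mollify hm)] with x hx
        simpa [ind] using (hx.sub_const (ind E x)).abs
    simpa using h
  · exact Eventually.of_forall fun k =>
      (integral_gradNorm_mollify_le hm hp hflux k).trans (by linarith)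

/-- The classification of the sets attaining the profile, for every volume. -/
theorem classify_all (hc : StmtClassify) : ∀ V ∈ Ioo (0 : ℝ) 1, ∀ E, IsCompetitor E V →
    perimeter E = profile V → IsCanon V E ∨ IsCanon (1 - V) Eᶜ := by
  intro V hV E hE hP
  have hle : perimeter E ≤ ENNReal.ofReal (candidate V) := hP ▸ stmtUpper V hV
  rcases le_or_gt V (1 / 2) with h | h
  · exact Or.inl (hc V ⟨hV.1, h⟩ E (min_of_perimeter_le hV.1.le hV.2.le hE hle))
  · refine Or.inr (hc (1 - V) ⟨by linarith [hV.2], by linarith⟩ Eᶜ
      (min_of_perimeter_le (by linarith [hV.2]) (by linarith [hV.1]) (hE.compl hV.1.le) ?_))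
    rw [candidate_one_sub]
    exact (perimeter_compl_le hE.1).trans hle

/-- The same, spelled out: a body attaining the candidate or the complement of one. -/
theorem classify_all' (hc : StmtClassify) : ∀ V ∈ Ioo (0 : ℝ) 1, ∀ E, IsCompetitor E V →
    perimeter E = profile V → ∃ s R c,
      (Shape V s R ∧ SetAE E (body s R c)) ∨ (Shape (1 - V) s R ∧ SetAE E (body s R c)ᶜ) := by
  intro V hV E hE hP
  rcases classify_all hc V hV E hE hP with ⟨s, R, c, hS, hA⟩ | ⟨s, R, c, hS, hA⟩
  · exact ⟨s, R, c, Or.inl ⟨hS, hA⟩⟩
  · refine ⟨s, R, c, Or.inr ⟨hS, ?_⟩⟩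
    have h : (Eᶜ : Set R3) =ᵐ[volume] body s R c := hA
    simpa [SetAE] using h.compl

end Vale.Agent.P232.Rigid
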