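import Vale.Agent.P232.Rigid.IndTraces

/-!
# P232 rigidity: the canonical bodies and folds

Line lengths and marginals of bodies, the characterisation of a body by its marginals, and the
line traces of folded sets.
-/

open MeasureTheory Set Filter Function
open scoped Topology

namespace Vale.Agent.P232.Rigid.Ind

variable {E : Set R3} {V R : ℝ} {s : Finset (Fin 3)} {c : R3}

/-- The radial defect `R² - ∑ dist²` in the coordinates of `t`. -/
noncomputable def defect (t : Finset (Fin 3)) (R : ℝ) (c x : R3) : ℝ :=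
  R ^ 2 - ∑ l ∈ t, dist1 (x l - c l) ^ 2

theorem measurable_defect (t : Finset (Fin 3)) (R : ℝ) (c : R3) : Measurable (defect t R c) :=
  (Finset.measurable_sum _ fun l _ =>
    ((measurable_dist1.comp
      (show Measurable fun x : R3 => x l - c l by fun_prop)).pow_const 2)).const_sub _

theorem mem_body_iff {x : R3} : x ∈ body s R c ↔ 0 < defect s R c x := by
  simp [body, defect]

theorem measurableSet_body (s : Finset (Fin 3)) (R : ℝ) (c : R3) :
    MeasurableSet (body s R c) := by
  rw [show body s R c = {x | 0 < defect s R c x} from Set.ext fun x => mem_body_iff]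
  exact measurableSet_lt measurable_const (measurable_defect s R c)

theorem defect_periodic (t : Finset (Fin 3)) (R : ℝ) (c : R3) : IsPeriodic (defect t R c) := by
  intro x z
  unfold defect
  congr 1
  refine Finset.sum_congr rfl fun l _ => ?_
  show dist1 (x l + z l - c l) ^ 2 = dist1 (x l - c l) ^ 2
  rw [show x l + (z l : ℝ) - c l = x l - c l + z l by ring, dist1_add_int]

theorem body_periodic (s : Finset (Fin 3)) (R : ℝ) (c : R3) :
    IsPeriodic fun x => x ∈ body s R c := fun x z => by
  simp only [mem_body_iff, defect_periodic s R c x z]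

theorem dist1_lt_of_mem_body (hR : 0 ≤ R) {x : R3} (hx : x ∈ body s R c) {l : Fin 3}
    (hl : l ∈ s) : dist1 (x l - c l) < R := by
  have hx' : ∑ i ∈ s, dist1 (x i - c i) ^ 2 < R ^ 2 := hx
  have h1 := Finset.single_le_sum (f := fun i => dist1 (x i - c i) ^ 2)
    (fun i _ => sq_nonneg _) hl
  nlinarith [dist1_nonneg (x l - c l)]

theorem invAxis_body {l : Fin 3} (hl : l ∉ s) (R : ℝ) (c : R3) : InvAxis l (body s R c) := by
  intro t
  unfold SetAE
  suffices h : {x : R3 | x + Pi.single l t ∈ body s R c} = body s R c by rw [h]; exact ae_eq_refl _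
  ext x
  simp only [Set.mem_ofPred_eq]
  have e : defect s R c (x + Pi.single l t) = defect s R c x := by
    unfold defect
    congr 1
    refine Finset.sum_congr rfl fun i hi => ?_
    simp [Pi.single_eq_of_ne (show i ≠ l from fun h => hl (h ▸ hi))]
  rw [mem_body_iff, mem_body_iff, e]

theorem defect_erase {k : Fin 3} (hk : k ∈ s) (x : R3) :
    defect s R c x = defect (s.erase k) R c x - dist1 (x k - c k) ^ 2 := by
  unfold defect
  rw [← Finset.add_sum_erase s _ hk]
  ring

theorem defect_update {k : Fin 3} {t : Finset (Fin 3)} (hk : k ∉ t) (x : R3) (u : ℝ) :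
    defect t R c (update x k u) = defect t R c x := by
  unfold defect
  congr 1
  refine Finset.sum_congr rfl fun i hi => ?_
  rw [update_of_ne fun h : i = k => hk (h ▸ hi)]

/-- The squared half length of the line of a body. -/
noncomputable def rho (k : Fin 3) (s : Finset (Fin 3)) (R : ℝ) (c : R3) (y : Fin 2 → ℝ) : ℝ :=
  defect (s.erase k) R c (k.insertNth 0 y)

theorem defect_insertNth {k : Fin 3} (hk : k ∈ s) (t : ℝ) (y : Fin 2 → ℝ) :
    defect s R c (k.insertNth t y) = rho k s R c y - dist1 (t - c k) ^ 2 := by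
  rw [defect_erase hk, rho, Fin.insertNth_apply_same]
  congr 1
  rw [← defect_update (Finset.notMem_erase k s) (k.insertNth 0 y) t, Fin.update_insertNth]

theorem rho_le (k : Fin 3) (s : Finset (Fin 3)) (R : ℝ) (c : R3) (y : Fin 2 → ℝ) :
    rho k s R c y ≤ R ^ 2 :=
  sub_le_self _ (Finset.sum_nonneg fun _ _ => sq_nonneg _)

theorem sqrt_rho_le (hR : 0 ≤ R) (k : Fin 3) (y : Fin 2 → ℝ) :
    Real.sqrt (rho k s R c y) ≤ R :=
  (Real.sqrt_le_sqrt (rho_le k s R c y)).trans_eq (Real.sqrt_sq hR)

theorem mem_body_line {k : Fin 3} (hk : k ∈ s) (t : ℝ) (y : Fin 2 → ℝ) :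
    (k.insertNth t y : R3) ∈ body s R c ↔ dist1 (t - c k) < Real.sqrt (rho k s R c y) := by
  rw [mem_body_iff, defect_insertNth hk, sub_pos, Real.lt_sqrt (dist1_nonneg _)]

theorem ind_body_line {k : Fin 3} (hk : k ∈ s) (t : ℝ) (y : Fin 2 → ℝ) :
    ind (body s R c) (k.insertNth t y) = arc (c k) (Real.sqrt (rho k s R c y)) t := by
  by_cases h : (k.insertNth t y : R3) ∈ body s R c
  · rw [arc_of_lt ((mem_body_line hk t y).1 h), ind, indicator_of_mem h]
  · rw [arc_of_le (not_lt.1 fun h' => h ((mem_body_line hk t y).2 h')), ind, indicator_of_notMem h]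

theorem lineLen_body {k : Fin 3} (hk : k ∈ s) (hR : 0 ≤ R) (hR2 : R ≤ 1 / 2) (y : Fin 2 → ℝ) :
    lineLen k (body s R c) y = 2 * Real.sqrt (rho k s R c y) := by
  rw [lineLen_eq k (measurableSet_body s R c)]
  simp only [ind_body_line hk]
  exact integral_arc _ (Real.sqrt_nonneg _) ((sqrt_rho_le hR k y).trans hR2)

theorem lineLen_body_eq_zero {k : Fin 3} (hk : k ∉ s) (y : Fin 2 → ℝ)
    (h : rho k s R c y ≤ 0) : lineLen k (body s R c) y = 0 := by
  rw [lineLen_eq k (measurableSet_body s R c)]
  refine intervalIntegral.integral_zero_ae (Eventually.of_forall fun t _ => ?_)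
  refine indicator_of_notMem (fun hm => ?_) _
  have e : update (k.insertNth 0 y : R3) k t = k.insertNth t y := Fin.update_insertNth ..
  rw [mem_body_iff, ← e, defect_update hk] at hm
  rw [rho, Finset.erase_eq_of_notMem hk] at h
  linarith

theorem lineLen_steiner (i : Fin 3) (E : Set R3) (y : Fin 2 → ℝ) :
    lineLen i (steiner i E) y = lineLen i E y := by
  obtain ⟨h0, h1⟩ := lineLen_mem i E y
  have e : lineSet i (steiner i E) y =
      {t ∈ Icc (0 : ℝ) 1 | t ∈ {u | dist1 (u - 0) < lineLen i E y / 2}} := by
    ext t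
    simp [lineSet, steiner]
  rw [lineLen, e, measureReal_eq_integral (measurableSet_arc 0 _)]
  show ∫ t in (0 : ℝ)..1, arc 0 (lineLen i E y / 2) t = _
  rw [integral_arc 0 (by linarith) (by linarith)]
  ring

/-- The indicator of a band away from `a`. -/
noncomputable def band (a r : ℝ) (t : ℝ) : ℝ := 1 - arc a r t

theorem measurable_band (a r : ℝ) : Measurable (band a r) := (measurable_arc a r).const_sub 1

theorem abs_band_le (a r t : ℝ) : |band a r t| ≤ 1 := by
  obtain ⟨h0, h1⟩ := arc_mem a r t
  exact abs_le.2 ⟨by simp only [band]; linarith, by simp only [band]; linarith⟩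

theorem band_periodic (a r : ℝ) : Periodic (band a r) 1 := fun t => by
  simp [band, arc_periodic a r t]

theorem integral_band (a : ℝ) {r : ℝ} (h0 : 0 ≤ r) (h1 : r ≤ 1 / 2) :
    ∫ t in (0 : ℝ)..1, band a r t = 1 - 2 * r := by
  simp only [band]
  rw [intervalIntegral.integral_sub intervalIntegrable_const
    (intervalIntegrable_bdd (measurable_arc a r) (abs_arc_le a r) _ _), integral_arc a h0 h1]
  simp

theorem marg_body_band (hR : 0 ≤ R) {l : Fin 3} (hl : l ∈ s) {r : ℝ} (hr : R ≤ r) :
    marg (body s R c) l (band (c l) r) = 0 := by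
  refine integral_eq_zero_of_ae (Eventually.of_forall fun x => ?_)
  by_cases hx : x ∈ body s R c
  · simp [band, arc_of_lt ((dist1_lt_of_mem_body hR hx hl).trans_le hr)]
  · simp [ind, hx]

theorem marg_body_band_of_notMem {l : Fin 3} (hl : l ∉ s) (hV : ∀ c, volume.real (body s R c ∩ cube) = V)
    (a : ℝ) {r : ℝ} (h0 : 0 ≤ r) (h1 : r ≤ 1 / 2) :
    marg (body s R c) l (band a r) = V * (1 - 2 * r) := by
  rw [marg_of_invAxis (measurableSet_body s R c) (body_periodic s R c) (invAxis_body hl R c)
    (measurable_band a r) (band_periodic a r) (abs_band_le a r), hV, integral_band a h0 h1]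

/-- The test function of the marginal second moment. -/
noncomputable def moment (a t : ℝ) : ℝ := dist1 (t - a) ^ 2

theorem measurable_moment (a : ℝ) : Measurable (moment a) :=
  (measurable_dist1.comp (measurable_id.sub_const a)).pow_const 2

theorem abs_moment_le (a t : ℝ) : |moment a t| ≤ 1 := by
  rw [moment, abs_pow, abs_of_nonneg (dist1_nonneg _)]
  exact pow_le_one₀ (dist1_nonneg _) ((dist1_le_half _).trans (by norm_num))

theorem marg_moment_body (s : Finset (Fin 3)) (R : ℝ) (c : R3) (l : Fin 3) :
    marg (body s R c) l (moment (c l)) = marg (body s R 0) l (moment 0) := by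
  have hp : IsPeriodic fun x : R3 => ind (body s R 0) x * moment 0 (x l) := fun x z => by
    show ind _ _ * moment 0 (x l + z l) = _
    rw [isPeriodic_ind (body_periodic s R 0) x z]
    simp [moment, dist1_add_int]
  have e := setIntegral_comp_add (f := fun x => ind (body s R 0) x * moment 0 (x l)) hp (-c)
  refine Eq.trans (integral_congr_ae (Eventually.of_forall fun x => ?_)) e
  have hm : x + -c ∈ body s R 0 ↔ x ∈ body s R c := by simp [body, sub_eq_add_neg]
  by_cases h : x ∈ body s R c <;> simp [ind, h, hm, moment, sub_eq_add_neg]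

theorem marg_moment_eq (s : Finset (Fin 3)) (R : ℝ) {c c' : R3} {l : Fin 3} (h : c l = c' l) :
    marg (body s R c) l (moment (c l)) = marg (body s R c') l (moment (c l)) := by
  conv_rhs => rw [h, marg_moment_body s R c' l]
  rw [marg_moment_body]

/-- A set with the second moments and the volume of a body is the body. -/
theorem setAE_body_of_moments (hE : MeasurableSet E) (hp : IsPeriodic fun x => x ∈ E)
    (hv : volume.real (E ∩ cube) = volume.real (body s R c ∩ cube))
    (hm : ∀ l ∈ s, marg E l (moment (c l)) = marg (body s R c) l (moment (c l))) :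
    SetAE E (body s R c) := by
  set K := body s R c with hK
  have hKm := measurableSet_body s R c
  have hint : ∀ {F : Set R3}, MeasurableSet F → IntegrableOn (ind F) cube := fun hF =>
    integrableOn_bdd (measurable_ind hF) (abs_ind_le _)
  have hint2 : ∀ {F : Set R3}, MeasurableSet F → ∀ l : Fin 3,
      IntegrableOn (fun x => ind F x * moment (c l) (x l)) cube := fun hF l =>
    integrableOn_bdd ((measurable_ind hF).mul ((measurable_moment _).comp (measurable_pi_apply l)))
      (C := 1) fun x => by
        show |_ * _| ≤ _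
        rw [abs_mul]
        exact mul_le_one₀ (abs_ind_le _ x) (abs_nonneg _) (abs_moment_le _ _)
  have hh : ∀ {F : Set R3}, MeasurableSet F → ∫ x in cube, ind F x * defect s R c x =
      R ^ 2 * volume.real (F ∩ cube) - ∑ l ∈ s, marg F l (moment (c l)) := by
    intro F hF
    have e : ∀ x, ind F x * defect s R c x =
        R ^ 2 * ind F x - ∑ l ∈ s, ind F x * moment (c l) (x l) := fun x => by
      simp only [defect, moment, mul_sub, Finset.mul_sum]
      ring
    simp only [e]
    rw [integral_sub ((hint hF).const_mul _) (integrable_finsetSum _ fun l _ => hint2 hF l),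
      integral_const_mul, integral_ind hF, integral_finsetSum _ fun l _ => hint2 hF l]
    rfl
  have heq : ∫ x in cube, ind E x * defect s R c x = ∫ x in cube, ind K x * defect s R c x := by
    rw [hh hE, hh hKm, hv, Finset.sum_congr rfl hm]
  have hd : ∀ x, |defect s R c x| ≤ R ^ 2 + s.card := fun x => by
    have h1 : ∑ l ∈ s, dist1 (x l - c l) ^ 2 ≤ ∑ _l ∈ s, (1 : ℝ) := Finset.sum_le_sum fun l _ =>
      pow_le_one₀ (dist1_nonneg _) ((dist1_le_half _).trans (by norm_num))
    have h0 : 0 ≤ ∑ l ∈ s, dist1 (x l - c l) ^ 2 := Finset.sum_nonneg fun _ _ => sq_nonneg _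
    simp only [Finset.sum_const, nsmul_eq_mul, mul_one] at h1
    exact abs_le.2 ⟨by simp only [defect]; nlinarith [sq_nonneg R],
      by simp only [defect]; nlinarith⟩
  have hmd : ∀ {F : Set R3}, MeasurableSet F →
      IntegrableOn (fun x => ind F x * defect s R c x) cube := fun hF =>
    integrableOn_bdd ((measurable_ind hF).mul (measurable_defect s R c)) (C := R ^ 2 + s.card)
      fun x => by
        show |_ * _| ≤ _
        rw [abs_mul]
        exact (mul_le_of_le_one_left (abs_nonneg _) (abs_ind_le _ x)).trans (hd x)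
  have hnn : ∀ x, 0 ≤ ind K x * defect s R c x - ind E x * defect s R c x := fun x => by
    by_cases hx : x ∈ K
    · have := mem_body_iff.1 hx
      rw [ind, indicator_of_mem hx, one_mul]
      nlinarith [(ind_mem E x).2]
    · have h0 : defect s R c x ≤ 0 := not_lt.1 fun h => hx (mem_body_iff.2 h)
      rw [ind, indicator_of_notMem hx, zero_mul]
      nlinarith [(ind_mem E x).1]
  have hz : ∫ x in cube, (ind K x * defect s R c x - ind E x * defect s R c x) = 0 := by
    rw [integral_sub (hmd hKm) (hmd hE), heq, sub_self]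
  have hae := (integral_eq_zero_iff_of_nonneg_ae (Eventually.of_forall hnn)
    ((hmd hKm).sub (hmd hE))).1 hz
  have hge : ∀ᵐ x ∂(volume.restrict cube), ind K x ≤ ind E x := by
    filter_upwards [hae] with x hx
    by_cases hxK : x ∈ K
    · have h0 := mem_body_iff.1 hxK
      have e : ind K x = 1 := by simp [ind, hxK]
      simp only [Pi.zero_apply, e, one_mul] at hx
      have : ind E x = 1 := by
        have : (1 - ind E x) * defect s R c x = 0 := by linarith
        rcases mul_eq_zero.1 this with h | h <;> linarith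
      rw [e, this]
    · rw [ind, indicator_of_notMem hxK]; exact (ind_mem E x).1
  have hz2 : ∫ x in cube, (ind E x - ind K x) = 0 := by
    rw [integral_sub (hint hE) (hint hKm), integral_ind hE, integral_ind hKm, hv, sub_self]
  have hae2 := (integral_eq_zero_iff_of_nonneg_ae (hge.mono fun x hx => sub_nonneg.2 hx)
    ((hint hE).sub (hint hKm))).1 hz2
  have hae3 : ∀ᵐ x ∂(volume.restrict cube), (x ∈ E ↔ x ∈ K) := by
    filter_upwards [hae2] with x hx
    by_cases h1 : x ∈ E <;> by_cases h2 : x ∈ K <;> simp_all [ind]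
  filter_upwards [ae_of_cube (fun x z => by
    show (_ ↔ _) = (_ ↔ _)
    exact propext (iff_congr (Iff.of_eq (hp x z)) (Iff.of_eq (body_periodic s R c x z)))) hae3]
    with x hx
  exact propext hx

theorem ind_fold (i : Fin 3) (a σ : ℝ) (E : Set R3) (t : ℝ) (y : Fin 2 → ℝ) :
    ind (fold i a σ E) (i.insertNth t y) =
      ind E (i.insertNth (a + σ * dist1 (t - a)) y) := by
  have h : (i.insertNth t y : R3) ∈ fold i a σ E ↔
      (i.insertNth (a + σ * dist1 (t - a)) y : R3) ∈ E := by
    simp [fold, Fin.insertNth_apply_same, Fin.update_insertNth]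
  by_cases hx : (i.insertNth (a + σ * dist1 (t - a)) y : R3) ∈ E <;> simp [ind, hx, h]

theorem lineLen_fold (hE : MeasurableSet E) (i : Fin 3) (a σ : ℝ)
    (hF : MeasurableSet (fold i a σ E)) (y : Fin 2 → ℝ) :
    lineLen i (fold i a σ E) y =
      2 * ∫ u in (0 : ℝ)..1 / 2, ind E (i.insertNth (a + σ * u) y) := by
  set g : ℝ → ℝ := fun t => ind E (i.insertNth (a + σ * dist1 (t - a)) y) with hg
  have hgm : Measurable g := (measurable_ind hE).comp
    ((measurable_insertNth i y).comp (by fun_prop))
  have hgb : ∀ t, |g t| ≤ 1 := fun t => abs_ind_le _ _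
  have hgp : Periodic g 1 := fun t => by
    simp only [hg, show t + 1 - a = t - a + 1 by ring, dist1_periodic (t - a)]
  have hi := intervalIntegrable_bdd hgm hgb
  rw [lineLen_eq i hF]
  simp only [ind_fold]
  rw [← integral_period hgp (a - 1 / 2), show a - 1 / 2 + 1 = a + 1 / 2 by ring,
    ← intervalIntegral.integral_add_adjacent_intervals (hi _ a) (hi _ _)]
  have e1 : ∫ t in a - 1 / 2..a, g t = ∫ u in (0 : ℝ)..1 / 2, ind E (i.insertNth (a + σ * u) y) := by
    have h := intervalIntegral.integral_comp_sub_left g a (a := (0 : ℝ)) (b := 1 / 2)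
    rw [sub_zero] at h
    rw [← h]
    refine intervalIntegral.integral_congr fun u hu => ?_
    rw [uIcc_of_le (by norm_num)] at hu
    simp only [hg, sub_sub_cancel_left, dist1_neg,
      dist1_of_abs_le (abs_le.2 ⟨by linarith [hu.1], hu.2⟩), abs_of_nonneg hu.1]
  have e2 : ∫ t in a..a + 1 / 2, g t = ∫ u in (0 : ℝ)..1 / 2, ind E (i.insertNth (a + σ * u) y) := by
    have h := intervalIntegral.integral_comp_add_left g a (a := (0 : ℝ)) (b := 1 / 2)
    rw [add_zero] at h
    rw [← h]
    refine intervalIntegral.integral_congr fun u hu => ?_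
    rw [uIcc_of_le (by norm_num)] at hu
    simp only [hg, add_sub_cancel_left,
      dist1_of_abs_le (abs_le.2 ⟨by linarith [hu.1], hu.2⟩), abs_of_nonneg hu.1]
  rw [e1, e2]
  ring

theorem lineLen_fold_add (hE : MeasurableSet E) (hp : IsPeriodic fun x => x ∈ E) (i : Fin 3)
    (a : ℝ) (hF : MeasurableSet (fold i a 1 E)) (hF' : MeasurableSet (fold i a (-1) E))
    (y : Fin 2 → ℝ) :
    lineLen i (fold i a 1 E) y + lineLen i (fold i a (-1) E) y = 2 * lineLen i E y := by
  rw [lineLen_fold hE i a 1 hF, lineLen_fold hE i a (-1) hF', lineLen_eq i hE]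
  set g : ℝ → ℝ := fun t => ind E (i.insertNth t y) with hg
  have hgm : Measurable g := (measurable_ind hE).comp (measurable_insertNth i y)
  have hi := intervalIntegrable_bdd hgm (fun t => abs_ind_le _ _)
  have h1 := intervalIntegral.integral_comp_add_left g a (a := (0 : ℝ)) (b := 1 / 2)
  have h2 := intervalIntegral.integral_comp_sub_left g a (a := (0 : ℝ)) (b := 1 / 2)
  rw [add_zero] at h1
  rw [sub_zero] at h2
  have h3 := intervalIntegral.integral_add_adjacent_intervals (hi (a - 1 / 2) a) (hi a (a + 1 / 2))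
  have h4 := integral_period (periodic_ind_line hp i y) (a - 1 / 2)
  rw [show a - 1 / 2 + 1 = a + 1 / 2 by ring] at h4
  simp only [hg] at h1 h2 h3 h4 ⊢
  simp only [one_mul, neg_one_mul, ← sub_eq_add_neg]
  linarith

theorem quasiMeasurePreserving_foldMap (a : ℝ) {σ : ℝ} (hσ : σ = 1 ∨ σ = -1) :
    Measure.QuasiMeasurePreserving (fun t : ℝ => a + σ * dist1 (t - a)) volume volume := by
  have hm : Measurable fun t : ℝ => a + σ * dist1 (t - a) := by fun_prop
  refine ⟨hm, Measure.AbsolutelyContinuous.mk fun N hN h0 => ?_⟩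
  rw [Measure.map_apply hm hN]
  refine measure_mono_null (t := ⋃ n : ℤ, (fun t => t - (n : ℝ)) ⁻¹' N ∪
    (fun t => (2 * a + n) - t) ⁻¹' N) ?_ (measure_iUnion_null fun n => measure_union_null ?_ ?_)
  · intro t ht
    simp only [mem_preimage, dist1] at ht
    refine mem_iUnion.2 ⟨round (t - a), ?_⟩
    set n : ℝ := ((round (t - a) : ℤ) : ℝ) with hn
    have key : a + σ * |t - a - n| = t - n ∨ a + σ * |t - a - n| = 2 * a + n - t := by
      rcases hσ with rfl | rfl <;> rcases abs_choice (t - a - n) with h | h <;> rw [h] <;>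
        first | (left; linarith) | (right; linarith)
    rcases key with h | h <;> rw [h] at ht
    · exact Or.inl ht
    · exact Or.inr ht
  · rw [(measurePreserving_sub_right (volume : Measure ℝ) (n : ℝ)).measure_preimage
      hN.nullMeasurableSet, h0]
  · rw [(Measure.measurePreserving_sub_left (volume : Measure ℝ) (2 * a + n)).measure_preimage
      hN.nullMeasurableSet, h0]

theorem quasiMeasurePreserving_update (k : Fin 3) (a : ℝ) {σ : ℝ} (hσ : σ = 1 ∨ σ = -1) :
    Measure.QuasiMeasurePreserving
      (fun x : R3 => update x k (a + σ * dist1 (x k - a))) volume volume := by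
  have hφ := quasiMeasurePreserving_foldMap a hσ
  have h2 : Measure.QuasiMeasurePreserving
      (Prod.map (fun t : ℝ => a + σ * dist1 (t - a)) (id : (Fin 2 → ℝ) → (Fin 2 → ℝ)))
      ((volume : Measure ℝ).prod volume) ((volume : Measure ℝ).prod volume) := by
    refine ⟨hφ.measurable.prodMap measurable_id, ?_⟩
    rw [← Measure.map_prod_map _ _ hφ.measurable measurable_id, Measure.map_id]
    exact hφ.absolutelyContinuous.prod Measure.AbsolutelyContinuous.rfl
  have h := ((measurePreserving_insertNth k).quasiMeasurePreserving.comp h2).comp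
    (volume_preserving_piFinSuccAbove (fun _ : Fin 3 => ℝ) k).quasiMeasurePreserving
  have e : (fun x : R3 => update x k (a + σ * dist1 (x k - a))) =
      (((fun p => (k.insertNth p.1 p.2 : R3)) ∘
        Prod.map (fun t : ℝ => a + σ * dist1 (t - a)) id) ∘
        ⇑(MeasurableEquiv.piFinSuccAbove (fun _ : Fin 3 => ℝ) k)) := by
    funext x
    exact update_eq_insertNth k x _
  rw [e]
  exact h

theorem lineLen_fold_of_ne {l k : Fin 3} (hl : l ≠ k) (a σ : ℝ) (E : Set R3) (x : R3) :
    lineLen l (fold k a σ E) (l.removeNth x) =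
      lineLen l E (l.removeNth (update x k (a + σ * dist1 (x k - a)))) := by
  unfold lineLen lineSet
  congr 1
  ext t
  simp only [mem_setOf_eq, fold, ← update_eq_insertNth, update_of_ne hl.symm, update_comm hl]

theorem dec_fold {l k : Fin 3} (hl : l ≠ k) (a : ℝ) {σ : ℝ} (hσ : σ = 1 ∨ σ = -1)
    (hd : Dec l E) : Dec l (fold k a σ E) := by
  filter_upwards [(quasiMeasurePreserving_update k a hσ).ae hd] with x hx
  show (dist1 (x l) < lineLen l (fold k a σ E) (l.removeNth x) / 2) = (_ ∈ E)
  rw [lineLen_fold_of_ne hl]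
  have hx' : (dist1 (update x k (a + σ * dist1 (x k - a)) l) <
      lineLen l E (l.removeNth (update x k (a + σ * dist1 (x k - a)))) / 2) =
      (update x k (a + σ * dist1 (x k - a)) ∈ E) := hx
  rw [update_of_ne hl] at hx'
  exact hx'

end Vale.Agent.P232.Rigid.Ind
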