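import Vale.Agent.P232.Periodic
import Vale.Agent.P232.Rigid.Defs

/-!
# P232 rigidity: lines, marginals and the canonical bodies

Elementary facts about the line traces of periodic sets: lengths, Fubini, arcs, folds, the
marginals in one coordinate, and the characterisation of a body by its marginals.
-/

open MeasureTheory Set Filter Function
open scoped Topology

namespace Vale.Agent.P232.Rigid.Ind

theorem dist1_nonneg (t : ℝ) : 0 ≤ dist1 t := abs_nonneg _

theorem dist1_le_half (t : ℝ) : dist1 t ≤ 1 / 2 := abs_sub_round t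

theorem dist1_le_abs (t : ℝ) (n : ℤ) : dist1 t ≤ |t - n| := round_le t n

theorem dist1_add_int (t : ℝ) (n : ℤ) : dist1 (t + n) = dist1 t := by
  unfold dist1
  rw [round_add_intCast, Int.cast_add, add_sub_add_right_eq_sub]

theorem dist1_periodic : Periodic dist1 1 := fun t => by
  simpa using dist1_add_int t 1

theorem dist1_eq_min (t : ℝ) : dist1 t = min (Int.fract t) (1 - Int.fract t) :=
  abs_sub_round_eq_min t

theorem dist1_neg (t : ℝ) : dist1 (-t) = dist1 t := by
  rw [dist1_eq_min, dist1_eq_min]
  by_cases h : Int.fract t = 0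
  · rw [Int.fract_neg_eq_zero.2 h, h]
  · rw [Int.fract_neg h, sub_sub_cancel, min_comm]

theorem dist1_of_abs_le {t : ℝ} (h : |t| ≤ 1 / 2) : dist1 t = |t| := by
  refine le_antisymm (by simpa using dist1_le_abs t 0) ?_
  by_cases hr : round t = 0
  · simp [dist1, hr]
  · have h1 : (1 : ℝ) ≤ |(round t : ℝ)| := by
      exact_mod_cast Int.one_le_abs hr
    have h2 := abs_sub_abs_le_abs_sub (round t : ℝ) t
    rw [abs_sub_comm] at h2
    unfold dist1
    linarith

@[fun_prop]
theorem measurable_dist1 : Measurable dist1 := by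
  rw [show dist1 = fun t => min (Int.fract t) (1 - Int.fract t) from funext dist1_eq_min]
  exact measurable_fract.min (measurable_fract.const_sub 1)

/-- Integrals over one period of a periodic function. -/
theorem integral_period {g : ℝ → ℝ} (hg : Periodic g 1) (a : ℝ) :
    ∫ t in a..a + 1, g t = ∫ t in (0 : ℝ)..1, g t := by
  simpa using hg.intervalIntegral_add_eq a 0

theorem intervalIntegrable_bdd {g : ℝ → ℝ} (hg : Measurable g) {C : ℝ} (hC : ∀ t, |g t| ≤ C)
    (a b : ℝ) : IntervalIntegrable g volume a b :=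
  (intervalIntegrable_const (c := C)).mono_fun' hg.aestronglyMeasurable
    (Eventually.of_forall fun t => (Real.norm_eq_abs _).trans_le (hC t))

/-- The measure of a part of the unit interval as an integral. -/
theorem measureReal_eq_integral {S : Set ℝ} (hS : MeasurableSet S) :
    volume.real {t ∈ Icc (0 : ℝ) 1 | t ∈ S} = ∫ t in (0 : ℝ)..1, S.indicator (fun _ => (1 : ℝ)) t := by
  rw [intervalIntegral.integral_of_le zero_le_one, ← integral_Icc_eq_integral_Ioc,
    setIntegral_indicator hS, setIntegral_const, smul_eq_mul, mul_one]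
  rfl

/-- The indicator of an arc. -/
noncomputable def arc (m r : ℝ) : ℝ → ℝ := {t | dist1 (t - m) < r}.indicator fun _ => 1

theorem measurableSet_arc (m r : ℝ) : MeasurableSet {t | dist1 (t - m) < r} :=
  measurableSet_lt (by fun_prop) measurable_const

theorem measurable_arc (m r : ℝ) : Measurable (arc m r) :=
  measurable_const.indicator (measurableSet_arc m r)

theorem arc_of_lt {m r t : ℝ} (h : dist1 (t - m) < r) : arc m r t = 1 := by simp [arc, h]

theorem arc_of_le {m r t : ℝ} (h : r ≤ dist1 (t - m)) : arc m r t = 0 := by simp [arc, not_lt.2 h]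

theorem arc_mem (m r t : ℝ) : arc m r t ∈ Icc (0 : ℝ) 1 := by
  rcases lt_or_ge (dist1 (t - m)) r with h | h <;> simp [arc_of_lt, arc_of_le, h]

theorem abs_arc_le (m r t : ℝ) : |arc m r t| ≤ 1 := by
  rw [abs_of_nonneg (arc_mem m r t).1]; exact (arc_mem m r t).2

theorem arc_periodic (m r : ℝ) : Periodic (arc m r) 1 := fun t => by
  have h : dist1 (t + 1 - m) = dist1 (t - m) := by
    rw [show t + 1 - m = t - m + 1 by ring, dist1_periodic]
  rcases lt_or_ge (dist1 (t - m)) r with hr | hr
  · rw [arc_of_lt hr, arc_of_lt (h ▸ hr)]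
  · rw [arc_of_le hr, arc_of_le (h ▸ hr)]

theorem integral_arc (m : ℝ) {r : ℝ} (h0 : 0 ≤ r) (h1 : r ≤ 1 / 2) :
    ∫ t in (0 : ℝ)..1, arc m r t = 2 * r := by
  have hi := intervalIntegrable_bdd (measurable_arc m r) (abs_arc_le m r)
  have hab : ∀ t ∈ Icc (m - 1 / 2) (m + 1 / 2), dist1 (t - m) = |t - m| := fun t ht =>
    dist1_of_abs_le (abs_le.2 ⟨by linarith [ht.1], by linarith [ht.2]⟩)
  rw [← integral_period (arc_periodic m r) (m - 1 / 2), show m - 1 / 2 + 1 = m + 1 / 2 by ring,
    ← intervalIntegral.integral_add_adjacent_intervals (hi _ (m - r)) (hi _ _),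
    ← intervalIntegral.integral_add_adjacent_intervals (hi (m - r) (m + r)) (hi _ _)]
  have e1 : ∫ t in m - 1 / 2..m - r, arc m r t = 0 := by
    refine intervalIntegral.integral_zero_ae (Eventually.of_forall fun t ht => arc_of_le ?_)
    rw [uIoc_of_le (by linarith)] at ht
    rw [hab t ⟨ht.1.le, by linarith [ht.2]⟩, abs_of_nonpos (by linarith [ht.2])]
    linarith [ht.2]
  have e2 : ∫ t in m - r..m + r, arc m r t = ∫ _t in m - r..m + r, (1 : ℝ) := by
    refine intervalIntegral.integral_congr_ae ?_
    have hne : ∀ᵐ t : ℝ, t ≠ m + r := by simp [ae_iff]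
    filter_upwards [hne] with t hne' ht
    rw [uIoc_of_le (by linarith)] at ht
    refine arc_of_lt ?_
    rw [hab t ⟨by linarith [ht.1], by linarith [ht.2]⟩]
    exact abs_lt.2 ⟨by linarith [ht.1], by linarith [lt_of_le_of_ne ht.2 hne']⟩
  have e3 : ∫ t in m + r..m + 1 / 2, arc m r t = 0 := by
    refine intervalIntegral.integral_zero_ae (Eventually.of_forall fun t ht => arc_of_le ?_)
    rw [uIoc_of_le (by linarith)] at ht
    rw [hab t ⟨by linarith [ht.1], ht.2⟩, abs_of_nonneg (by linarith [ht.1])]
    linarith [ht.1]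
  rw [e1, e2, e3, intervalIntegral.integral_const, smul_eq_mul]
  ring

/-- A half period centred off an arc contains more than half of it. -/
theorem half_lt_integral_arc {u r : ℝ} (hr : 0 < r) (hr2 : r < 1 / 2) (h0 : 0 < u) (h1 : u < 1 / 2) :
    r < ∫ t in (0 : ℝ)..1 / 2, arc u r t := by
  have hlo : max 0 (u - r) + r < min (1 / 2) (u + r) := by
    rcases le_total (0 : ℝ) (u - r) with h | h
    · rw [max_eq_right h]
      exact lt_min (by linarith) (by linarith)
    · rw [max_eq_left h]
      exact lt_min (by linarith) (by linarith)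
  have hle : max 0 (u - r) ≤ min (1 / 2) (u + r) := by linarith
  calc r < ∫ _t in max 0 (u - r)..min (1 / 2) (u + r), (1 : ℝ) := by
        rw [intervalIntegral.integral_const, smul_eq_mul, mul_one]
        linarith
    _ = ∫ t in max 0 (u - r)..min (1 / 2) (u + r), arc u r t := by
        refine intervalIntegral.integral_congr_ae ?_
        have hne : ∀ᵐ t : ℝ, t ≠ u + r := by simp [ae_iff]
        filter_upwards [hne] with t hne' ht
        rw [uIoc_of_le hle] at ht
        refine (arc_of_lt ?_).symm
        have a1 := le_max_left (0 : ℝ) (u - r)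
        have a2 := le_max_right (0 : ℝ) (u - r)
        have a3 := min_le_left (1 / 2 : ℝ) (u + r)
        have a4 := min_le_right (1 / 2 : ℝ) (u + r)
        rw [dist1_of_abs_le (abs_le.2 ⟨by linarith [ht.1], by linarith [ht.2]⟩)]
        exact abs_lt.2 ⟨by linarith [ht.1], by linarith [lt_of_le_of_ne (ht.2.trans a4) hne']⟩
    _ ≤ ∫ t in (0 : ℝ)..1 / 2, arc u r t :=
        intervalIntegral.integral_mono_interval (le_max_left _ _) hle (min_le_left _ _)
          (Eventually.of_forall fun t => (arc_mem u r t).1)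
          (intervalIntegrable_bdd (measurable_arc u r) (abs_arc_le u r) _ _)

/-- A property of periodic nature that holds a.e. on a period holds a.e. -/
theorem ae_of_Icc {P : ℝ → Prop} (hP : ∀ t (n : ℤ), P (t + n) ↔ P t)
    (h : ∀ᵐ t ∂(volume.restrict (Icc (0 : ℝ) 1)), P t) : ∀ᵐ t : ℝ, P t := by
  have h' := (ae_restrict_iff' measurableSet_Icc).1 h
  have h2 : ∀ n : ℤ, ∀ᵐ t : ℝ, t - n ∈ Icc (0 : ℝ) 1 → P t := fun n => by
    filter_upwards [(measurePreserving_sub_right (volume : Measure ℝ) (n : ℝ)).quasiMeasurePreserving.ae h']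
      with t ht hmem
    simpa using (hP (t - n) n).2 (ht hmem)
  filter_upwards [ae_all_iff.2 h2] with t ht
  refine ht ⌊t⌋ ⟨?_, ?_⟩ <;> linarith [Int.floor_le t, Int.lt_floor_add_one t]

/-- A property of periodic nature that holds a.e. on the cube holds a.e. -/
theorem ae_of_cube {P : R3 → Prop} (hP : IsPeriodic P)
    (h : ∀ᵐ x ∂(volume.restrict cube), P x) : ∀ᵐ x : R3, P x := by
  have h' := (ae_restrict_iff' measurableSet_cube).1 h
  have h2 : ∀ z : Fin 3 → ℤ, ∀ᵐ x : R3, (x - fun i => (z i : ℝ)) ∈ cube → P x := fun z => by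
    filter_upwards [(measurePreserving_sub_right (volume : Measure R3)
      (fun i => (z i : ℝ))).quasiMeasurePreserving.ae h'] with x hx hmem
    have := hP (x - fun i => (z i : ℝ)) z
    rw [sub_add_cancel] at this
    exact this.symm ▸ hx hmem
  filter_upwards [ae_all_iff.2 h2] with x hx
  refine hx (fun i => ⌊x i⌋) ⟨fun i => ?_, fun i => ?_⟩ <;>
    simp only [Pi.sub_apply, Pi.zero_apply, Pi.one_apply] <;>
    linarith [Int.floor_le (x i), Int.lt_floor_add_one (x i)]

theorem measurePreserving_insertNth (k : Fin 3) :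
    MeasurePreserving (fun p : ℝ × (Fin 2 → ℝ) => (k.insertNth p.1 p.2 : R3))
      ((volume : Measure ℝ).prod volume) volume := by
  have h := (volume_preserving_piFinSuccAbove (fun _ : Fin 3 => ℝ) k).symm
    (MeasurableEquiv.piFinSuccAbove (fun _ : Fin 3 => ℝ) k)
  exact h

/-- An a.e. property of points holds on almost every line. -/
theorem ae_lines {P : R3 → Prop} (k : Fin 3) (h : ∀ᵐ x, P x) :
    ∀ᵐ y : Fin 2 → ℝ, ∀ᵐ t : ℝ, P (k.insertNth t y) := by
  have h1 := ((measurePreserving_insertNth k).comp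
    (Measure.measurePreserving_swap (μ := (volume : Measure (Fin 2 → ℝ))) (ν := (volume : Measure ℝ)))
    ).quasiMeasurePreserving.ae h
  exact Measure.ae_ae_of_ae_prod h1

/-- A measurable property that holds on almost every line holds a.e. -/
theorem ae_of_lines {P : R3 → Prop} (k : Fin 3) (hm : MeasurableSet {x | P x})
    (h : ∀ᵐ y : Fin 2 → ℝ, ∀ᵐ t : ℝ, P (k.insertNth t y)) : ∀ᵐ x, P x := by
  set e := MeasurableEquiv.piFinSuccAbove (fun _ : Fin 3 => ℝ) k
  have hmp := volume_preserving_piFinSuccAbove (fun _ : Fin 3 => ℝ) k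
  have hm' : MeasurableSet {p : (Fin 2 → ℝ) × ℝ | P (k.insertNth p.2 p.1)} :=
    ((measurePreserving_insertNth k).measurable.comp measurable_swap) hm
  have h1 := (Measure.measurePreserving_swap (μ := (volume : Measure ℝ))
    (ν := (volume : Measure (Fin 2 → ℝ)))).quasiMeasurePreserving.ae
      ((Measure.ae_prod_iff_ae_ae hm').2 h)
  filter_upwards [hmp.quasiMeasurePreserving.ae h1] with x hx
  have e1 : (k.insertNth (x k) (k.removeNth x) : R3) = x := Fin.insertNth_self_removeNth k x
  rw [← e1]
  exact hx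

theorem insertNth_add (k : Fin 3) (t s : ℝ) (y : Fin 2 → ℝ) :
    (k.insertNth (t + s) y : R3) = k.insertNth t y + Pi.single k s := by
  ext l
  refine Fin.succAboveCases k ?_ (fun j => ?_) l <;> simp [Fin.succAbove_ne]

theorem update_eq_insertNth (l : Fin 3) (x : R3) (t : ℝ) :
    update x l t = l.insertNth t (l.removeNth x) := (Fin.insertNth_removeNth l t x).symm

theorem cube_fubini {F : R3 → ℝ} (hF : IntegrableOn F cube) (k : Fin 3) :
    ∫ x in cube, F x =
      ∫ y in Icc (0 : Fin 2 → ℝ) 1, ∫ t in (0 : ℝ)..1, F (k.insertNth t y) := by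
  set e := MeasurableEquiv.piFinSuccAbove (fun _ : Fin 3 => ℝ) k
  have hs : MeasurePreserving e.symm volume volume :=
    MeasurePreserving.symm e (volume_preserving_piFinSuccAbove (fun _ : Fin 3 => ℝ) k)
  have hpre : e.symm ⁻¹' cube = Icc (0 : ℝ) 1 ×ˢ Icc (0 : Fin 2 → ℝ) 1 := by
    ext p
    show (k.insertNth p.1 p.2 : R3) ∈ cube ↔ _
    simp only [cube, mem_Icc, Pi.le_def, Fin.forall_iff_succAbove k, Fin.insertNth_apply_same,
      Fin.insertNth_apply_succAbove, Pi.zero_apply, Pi.one_apply, mem_prod]
    tauto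
  rw [← hs.setIntegral_preimage_emb e.symm.measurableEmbedding F cube, hpre]
  have hi : IntegrableOn (F ∘ e.symm) (Icc (0 : ℝ) 1 ×ˢ Icc (0 : Fin 2 → ℝ) 1) := by
    rw [← hpre, hs.integrableOn_comp_preimage e.symm.measurableEmbedding]; exact hF
  rw [Measure.volume_eq_prod, ← Measure.prod_restrict]
  rw [IntegrableOn, Measure.volume_eq_prod, ← Measure.prod_restrict] at hi
  rw [show (∫ z, F (e.symm z) ∂(volume.restrict (Icc (0 : ℝ) 1)).prod
      (volume.restrict (Icc (0 : Fin 2 → ℝ) 1))) = _ from integral_prod_symm _ hi]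
  refine setIntegral_congr_fun measurableSet_Icc fun y _ => ?_
  rw [intervalIntegral.integral_of_le zero_le_one, ← integral_Icc_eq_integral_Ioc]
  rfl

variable {E F : Set R3} {V : ℝ}

theorem measurable_ind (hE : MeasurableSet E) : Measurable (ind E) :=
  measurable_const.indicator hE

theorem ind_mem (E : Set R3) (x : R3) : ind E x ∈ Icc (0 : ℝ) 1 := by
  by_cases h : x ∈ E <;> simp [ind, h]

theorem abs_ind_le (E : Set R3) (x : R3) : |ind E x| ≤ 1 := by
  rw [abs_of_nonneg (ind_mem E x).1]; exact (ind_mem E x).2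

theorem isPeriodic_ind (hp : IsPeriodic fun x => x ∈ E) : IsPeriodic (ind E) := fun x z => by
  have h := hp x z
  by_cases hx : x ∈ E <;> simp [ind, hx, h]

theorem integrableOn_bdd {G : R3 → ℝ} (hG : Measurable G) {C : ℝ} (hC : ∀ x, |G x| ≤ C) :
    IntegrableOn G cube :=
  Integrable.of_bound hG.aestronglyMeasurable C
    (Eventually.of_forall fun x => (Real.norm_eq_abs _).trans_le (hC x))

theorem integral_ind (hE : MeasurableSet E) : ∫ x in cube, ind E x = volume.real (E ∩ cube) := by
  rw [ind, setIntegral_indicator hE, setIntegral_const, smul_eq_mul, mul_one, inter_comm]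

theorem measurable_insertNth (k : Fin 3) (y : Fin 2 → ℝ) :
    Measurable fun t : ℝ => (k.insertNth t y : R3) :=
  (measurePreserving_insertNth k).measurable.comp measurable_prodMk_right

theorem lineLen_eq (k : Fin 3) (hE : MeasurableSet E) (y : Fin 2 → ℝ) :
    lineLen k E y = ∫ t in (0 : ℝ)..1, ind E (k.insertNth t y) :=
  measureReal_eq_integral ((measurable_insertNth k y) hE)

theorem lineLen_mem (k : Fin 3) (E : Set R3) (y : Fin 2 → ℝ) : lineLen k E y ∈ Icc (0 : ℝ) 1 :=
  ⟨measureReal_nonneg, (measureReal_mono (fun _ ht => ht.1) measure_Icc_lt_top.ne).trans_eq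
    (by simp)⟩

theorem measurable_lineLen (k : Fin 3) (hE : MeasurableSet E) : Measurable (lineLen k E) := by
  have h : StronglyMeasurable fun p : (Fin 2 → ℝ) × ℝ => ind E (k.insertNth p.2 p.1) :=
    (((measurable_ind hE).comp ((measurePreserving_insertNth k).measurable.comp
      measurable_swap))).stronglyMeasurable
  have h2 := (h.integral_prod_right' (ν := volume.restrict (Icc (0 : ℝ) 1))).measurable
  convert h2 using 1
  funext y
  rw [lineLen_eq k hE, intervalIntegral.integral_of_le zero_le_one, ← integral_Icc_eq_integral_Ioc]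

theorem lineLen_congr_ae (k : Fin 3) (h : SetAE E F) :
    ∀ᵐ y, lineLen k E y = lineLen k F y := by
  filter_upwards [ae_lines k (ae_eq_set.1 h |> fun _ => h)] with y hy
  refine measureReal_congr ?_
  filter_upwards [hy] with t ht
  show (t ∈ Icc (0 : ℝ) 1 ∧ _) = (t ∈ Icc (0 : ℝ) 1 ∧ _)
  exact propext (and_congr Iff.rfl (Iff.of_eq ht))

theorem periodic_line (hp : IsPeriodic fun x => x ∈ E) (k : Fin 3) (y : Fin 2 → ℝ) (t : ℝ)
    (n : ℤ) : (k.insertNth (t + n) y : R3) ∈ E ↔ (k.insertNth t y : R3) ∈ E := by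
  rw [insertNth_add, show (Pi.single k (n : ℝ) : R3) = fun i => ((Pi.single k n : Fin 3 → ℤ) i : ℝ) by
    ext i; rcases eq_or_ne i k with rfl | h <;> simp [*]]
  exact Iff.of_eq (hp _ _)

theorem periodic_ind_line (hp : IsPeriodic fun x => x ∈ E) (k : Fin 3) (y : Fin 2 → ℝ) :
    Periodic (fun t : ℝ => ind E (k.insertNth t y)) 1 := fun t => by
  have h := periodic_line hp k y t 1
  simp only [Int.cast_one] at h
  by_cases hx : (k.insertNth t y : R3) ∈ E <;> simp [ind, hx, h]

/-- The integral over the cube of the set against a function of the other coordinates. -/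
theorem integral_ind_mul (k : Fin 3) (hE : MeasurableSet E) {g : (Fin 2 → ℝ) → ℝ}
    (hg : Measurable g) {C : ℝ} (hC : ∀ y, |g y| ≤ C) :
    ∫ x in cube, ind E x * g (k.removeNth x) =
      ∫ y in Icc (0 : Fin 2 → ℝ) 1, lineLen k E y * g y := by
  have hm : Measurable fun x : R3 => ind E x * g (k.removeNth x) :=
    (measurable_ind hE).mul (hg.comp (measurable_pi_lambda _ fun j => measurable_pi_apply _))
  have hb : ∀ x : R3, |ind E x * g (k.removeNth x)| ≤ C := fun x => by
    rw [abs_mul]
    exact (mul_le_of_le_one_left (abs_nonneg _) (abs_ind_le E x)).trans (hC _)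
  rw [cube_fubini (integrableOn_bdd hm hb) k]
  refine setIntegral_congr_fun measurableSet_Icc fun y _ => ?_
  simp only [Fin.removeNth_insertNth, intervalIntegral.integral_mul_const, lineLen_eq k hE]

/-- The marginal of a set in the coordinate `l`, tested on `φ`. -/
noncomputable def marg (E : Set R3) (l : Fin 3) (φ : ℝ → ℝ) : ℝ :=
  ∫ x in cube, ind E x * φ (x l)

theorem marg_eq_lineLen (hE : MeasurableSet E) {k l : Fin 3} (hl : l ≠ k) {φ : ℝ → ℝ}
    (hφ : Measurable φ) {C : ℝ} (hC : ∀ t, |φ t| ≤ C) :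
    ∃ j : Fin 2, k.succAbove j = l ∧
      marg E l φ = ∫ y in Icc (0 : Fin 2 → ℝ) 1, lineLen k E y * φ (y j) := by
  obtain ⟨j, rfl⟩ := Fin.exists_succAbove_eq hl
  exact ⟨j, rfl, integral_ind_mul k hE (hφ.comp (measurable_pi_apply j)) fun y => hC _⟩

theorem marg_congr_lineLen (hE : MeasurableSet E) (hF : MeasurableSet F) {k l : Fin 3} (hl : l ≠ k)
    (h : ∀ᵐ y, lineLen k E y = lineLen k F y) {φ : ℝ → ℝ} (hφ : Measurable φ) {C : ℝ}
    (hC : ∀ t, |φ t| ≤ C) : marg E l φ = marg F l φ := by
  obtain ⟨j, hj, e1⟩ := marg_eq_lineLen hE hl hφ hC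
  obtain ⟨j', hj', e2⟩ := marg_eq_lineLen hF hl hφ hC
  obtain rfl : j = j' := Fin.succAbove_right_injective (hj.trans hj'.symm)
  rw [e1, e2]
  refine setIntegral_congr_ae measurableSet_Icc ?_
  filter_upwards [h] with y hy _
  rw [hy]

/-- An invariant set is independent of the coordinate. -/
theorem integral_of_invAxis (hE : MeasurableSet E) {l : Fin 3}
    (hI : InvAxis l E) {G : R3 → ℝ} (hG : Measurable G) (hGp : IsPeriodic G) {C : ℝ}
    (hC : ∀ x, |G x| ≤ C) (hp : IsPeriodic fun x => x ∈ E) :
    ∫ x in cube, ind E x * G x =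
      ∫ x in cube, ind E x * ∫ t in (0 : ℝ)..1, G (x + Pi.single l t) := by
  have h1 : ∀ t : ℝ, ∫ x in cube, ind E x * G (x + Pi.single l t) =
      ∫ x in cube, ind E x * G x := by
    intro t
    have hper : IsPeriodic fun x => ind E x * G x := fun x z => by
      show ind E _ * G _ = _
      rw [isPeriodic_ind hp x z, hGp x z]
    have e := setIntegral_comp_add (f := fun x => ind E x * G x) hper (Pi.single l t)
    rw [← e]
    refine integral_congr_ae ?_
    filter_upwards [ae_restrict_of_ae (hI t)] with x hx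
    have hx' : (x + Pi.single l t ∈ E) ↔ x ∈ E := Iff.of_eq hx
    by_cases h : x ∈ E <;> simp [ind, h, hx']
  have h2 : ∫ x in cube, ind E x * G x =
      ∫ t in (0 : ℝ)..1, ∫ x in cube, ind E x * G (x + Pi.single l t) := by
    simp [h1]
  rw [h2, intervalIntegral.integral_of_le zero_le_one, integral_integral_swap]
  · refine integral_congr_ae (Eventually.of_forall fun x => ?_)
    simp only [intervalIntegral.integral_of_le zero_le_one, integral_const_mul]
  · have hshift : Measurable fun z : ℝ × R3 => z.2 + Pi.single l z.1 :=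
      measurable_pi_lambda _ fun i => by
        rcases eq_or_ne i l with rfl | hi
        · simp only [Pi.add_apply, Pi.single_eq_same]; fun_prop
        · simp only [Pi.add_apply, Pi.single_eq_of_ne hi]; fun_prop
    have hm : Measurable fun z : ℝ × R3 => ind E z.2 * G (z.2 + Pi.single l z.1) :=
      ((measurable_ind hE).comp measurable_snd).mul (hG.comp hshift)
    have hb : ∀ z : ℝ × R3, ‖ind E z.2 * G (z.2 + Pi.single l z.1)‖ ≤ C := fun z => by
      rw [norm_mul, Real.norm_eq_abs, Real.norm_eq_abs]
      exact (mul_le_of_le_one_left (abs_nonneg _) (abs_ind_le E _)).trans (hC _)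
    have : IsFiniteMeasure (volume.restrict (Ioc (0 : ℝ) 1)) :=
      isFiniteMeasure_restrict.2 measure_Ioc_lt_top.ne
    exact Integrable.of_bound (μ := (volume.restrict (Ioc (0 : ℝ) 1)).prod (volume.restrict cube))
      hm.aestronglyMeasurable C (Eventually.of_forall hb)

theorem marg_of_invAxis (hE : MeasurableSet E) (hp : IsPeriodic fun x => x ∈ E) {l : Fin 3}
    (hI : InvAxis l E) {φ : ℝ → ℝ} (hφ : Measurable φ) (hφp : Periodic φ 1) {C : ℝ}
    (hC : ∀ t, |φ t| ≤ C) :
    marg E l φ = volume.real (E ∩ cube) * ∫ t in (0 : ℝ)..1, φ t := by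
  have hG : IsPeriodic fun x : R3 => φ (x l) := fun x z => by
    simpa using hφp.int_mul (z l) (x l)
  rw [marg, integral_of_invAxis (G := fun x => φ (x l)) hE hI
    (hφ.comp (measurable_pi_apply l)) hG (fun x => hC _) hp]
  have e : ∀ x : R3, ∫ t in (0 : ℝ)..1, φ ((x + Pi.single l t : R3) l) = ∫ t in (0 : ℝ)..1, φ t := by
    intro x
    simp only [Pi.add_apply, Pi.single_eq_same]
    rw [intervalIntegral.integral_comp_add_left, add_zero]
    exact integral_period hφp _
  simp only [e]
  rw [integral_mul_const, integral_ind hE]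

theorem invAxis_ne_of_len_le (hE : MeasurableSet E) (hp : IsPeriodic fun x => x ∈ E)
    (hV : 0 < volume.real (E ∩ cube)) {k : Fin 3} {c : ℝ} (hc : c < 1)
    (hl : ∀ᵐ y, lineLen k E y ≤ c) : ¬ InvAxis k E := by
  intro hI
  have h := integral_of_invAxis hE hI (measurable_ind hE) (isPeriodic_ind hp) (abs_ind_le E) hp
  have e : ∀ x : R3, ∫ t in (0 : ℝ)..1, ind E (x + Pi.single k t) = lineLen k E (k.removeNth x) := by
    intro x
    have h0 : ∀ t, x + Pi.single k t = (k.insertNth (x k + t) (k.removeNth x) : R3) := fun t => by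
      rw [insertNth_add, Fin.insertNth_self_removeNth]
    simp only [h0]
    rw [intervalIntegral.integral_comp_add_left (fun u => ind E (k.insertNth u (k.removeNth x))),
      add_zero, lineLen_eq k hE]
    exact integral_period (periodic_ind_line hp k _) _
  have e0 : ∀ x, ind E x * ind E x = ind E x := fun x => by by_cases h : x ∈ E <;> simp [ind, h]
  simp only [e0, e] at h
  have hone := integral_ind_mul k hE (g := fun _ => (1 : ℝ)) measurable_const (C := 1) (by simp)
  simp only [mul_one] at hone
  rw [integral_ind hE] at hone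
  rw [integral_ind hE, integral_ind_mul k hE (measurable_lineLen k hE) (C := 1) fun y => by
    rw [abs_of_nonneg (lineLen_mem k E y).1]; exact (lineLen_mem k E y).2] at h
  have hb : ∀ y, |lineLen k E y * lineLen k E y| ≤ 1 := fun y => by
    obtain ⟨a, b⟩ := lineLen_mem k E y
    rw [abs_of_nonneg (mul_nonneg a a)]
    exact mul_le_one₀ b a b
  have hle : volume.real (E ∩ cube) ≤ c * volume.real (E ∩ cube) := by
    calc volume.real (E ∩ cube) = ∫ y in Icc (0 : Fin 2 → ℝ) 1, lineLen k E y * lineLen k E y := h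
      _ ≤ ∫ y in Icc (0 : Fin 2 → ℝ) 1, c * lineLen k E y := by
          haveI : IsFiniteMeasure (volume.restrict (Icc (0 : Fin 2 → ℝ) 1)) :=
            isFiniteMeasure_restrict.2 isCompact_Icc.measure_lt_top.ne
          refine integral_mono_ae ?_ ?_ ?_
          · exact Integrable.of_bound ((measurable_lineLen k hE).mul
              (measurable_lineLen k hE)).aestronglyMeasurable 1 (Eventually.of_forall fun y =>
                (Real.norm_eq_abs _).trans_le (hb y))
          · exact (Integrable.of_bound (measurable_lineLen k hE).aestronglyMeasurable 1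
              (Eventually.of_forall fun y => by
                rw [Real.norm_of_nonneg (lineLen_mem k E y).1]; exact (lineLen_mem k E y).2)).const_mul c
          · filter_upwards [ae_restrict_of_ae hl] with y hy
            exact mul_le_mul_of_nonneg_right hy (lineLen_mem k E y).1
      _ = c * volume.real (E ∩ cube) := by rw [integral_const_mul, ← hone]
  nlinarith

end Vale.Agent.P232.Rigid.Ind
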