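import Vale.Agent.P232.Rigid.IndBodies

/-!
# P232 rigidity: all minimisers from the symmetrised ones

If two symmetrisations of a minimiser are canonical, so is the minimiser: its marginals are those
of a body. If only one coordinate is not known to be decreasing, the two folds at a bisecting
plane force every line to be an arc centred on the plane or half a period away, and monotonicity
in the other coordinates makes the choice constant.
-/

open MeasureTheory Set Filter Function
open scoped Topology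

namespace Vale.Agent.P232.Rigid.Ind

variable {E : Set R3} {V R : ℝ} {s : Finset (Fin 3)} {c : R3}

theorem shape_candidate_pos (hV : 0 < V) (hs : Shape V s R) : 0 < candidate V := by
  rw [hs.area]
  have : (0 : ℝ) < s.card := by exact_mod_cast hs.nonempty.card_pos
  have := hs.pos
  positivity

theorem shape_radius (hV : 0 < V) (hs : Shape V s R) : R = s.card * V / candidate V := by
  have h1 := hs.area
  have h2 := shape_candidate_pos hV hs
  have := hs.pos
  field_simp at h1 ⊢
  linarith

theorem shape_radius_eq (hV : 0 < V) {R' : ℝ} (hs : Shape V s R) (hs' : Shape V s R') : R' = R :=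
  (shape_radius hV hs').trans (shape_radius hV hs).symm

/-- The lines of a set have the lengths of those of a body. -/
theorem lineLen_of_steiner {k : Fin 3} (h : SetAE (steiner k E) (body s R c)) :
    ∀ᵐ y, lineLen k E y = lineLen k (body s R c) y := by
  filter_upwards [lineLen_congr_ae k h] with y hy
  rw [← hy, lineLen_steiner]

/-- The coordinates of the body are those in which the set is not invariant. -/
theorem mem_iff_not_invAxis (hV : 0 < V) (hE : Min V E) {k : Fin 3} (hk : k ∈ s)
    (hs : Shape V s R) (hl : ∀ᵐ y, lineLen k E y = lineLen k (body s R c) y)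
    (hinv : ∀ a, a ∉ s → InvAxis a E) (l : Fin 3) : l ∈ s ↔ ¬ InvAxis l E := by
  refine ⟨fun hls hI => ?_, fun hI => by_contra fun h => hI (hinv l h)⟩
  rcases eq_or_ne l k with rfl | hne
  · refine invAxis_ne_of_len_le hE.meas hE.per (hE.vol.symm ▸ hV) (c := 2 * R)
      (by linarith [hs.lt_half]) ?_ hI
    filter_upwards [hl] with y hy
    rw [hy, lineLen_body hk hs.pos.le hs.lt_half.le]
    linarith [sqrt_rho_le (s := s) (c := c) hs.pos.le l y]
  · have h1 := marg_congr_lineLen hE.meas (measurableSet_body s R c) hne hl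
      (measurable_band (c l) R) (abs_band_le _ _)
    rw [marg_body_band hs.pos.le hls le_rfl, marg_of_invAxis hE.meas hE.per hI
      (measurable_band _ _) (band_periodic _ _) (abs_band_le _ _), hE.vol,
      integral_band _ hs.pos.le hs.lt_half.le] at h1
    have : (0 : ℝ) < V * (1 - 2 * R) := mul_pos hV (by linarith [hs.lt_half])
    linarith

/-- Two canonical symmetrisations determine the set. -/
theorem canon_of_pair (hk : StmtBack) (hV : V ∈ Ioc (0 : ℝ) (1 / 2)) (hE : Min V E) {i j : Fin 3}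
    (hij : i ≠ j) (hi : IsCanon V (steiner i E)) (hj : IsCanon V (steiner j E)) : IsCanon V E := by
  obtain ⟨s, R, c, hs, hc⟩ := hi
  obtain ⟨s', R', c', hs', hc'⟩ := hj
  have hl := lineLen_of_steiner hc
  have hl' := lineLen_of_steiner hc'
  obtain ⟨hb, hinv, -⟩ := hk V hV E hE i s R c hs hl
  obtain ⟨hb', hinv', -⟩ := hk V hV E hE j s' R' c' hs' hl'
  by_cases his : i ∈ s
  swap; · exact ⟨s, R, c, hs, hb his⟩
  by_cases hjs : j ∈ s'
  swap; · exact ⟨s', R', c', hs', hb' hjs⟩
  obtain rfl : s' = s := Finset.ext fun l =>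
    (mem_iff_not_invAxis hV.1 hE hjs hs' hl' hinv' l).trans
      (mem_iff_not_invAxis hV.1 hE his hs hl hinv l).symm
  obtain rfl : R' = R := shape_radius_eq hV.1 hs hs'
  refine ⟨s', R', update c i (c' i), hs, setAE_body_of_moments hE.meas hE.per
    (by rw [hE.vol, hs.vol]) fun l _ => ?_⟩
  rcases eq_or_ne l i with rfl | hli
  · rw [update_self]
    rw [marg_congr_lineLen hE.meas (measurableSet_body _ _ _) hij hl' (measurable_moment _)
      (abs_moment_le _)]
    exact marg_moment_eq _ _ (update_self l (c' l) c).symm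
  · rw [update_of_ne hli]
    rw [marg_congr_lineLen hE.meas (measurableSet_body _ _ _) hli hl (measurable_moment _)
      (abs_moment_le _)]
    exact marg_moment_eq _ _ (update_of_ne hli _ _).symm

/-- Marginals of the folds average to those of the set. -/
theorem marg_avg {A B : Set R3} (hE : MeasurableSet E) (hA : MeasurableSet A) (hB : MeasurableSet B)
    {k l : Fin 3} (hl : l ≠ k) (h : ∀ᵐ y, lineLen k A y + lineLen k B y = 2 * lineLen k E y)
    {φ : ℝ → ℝ} (hφ : Measurable φ) {C : ℝ} (hC : ∀ t, |φ t| ≤ C) :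
    marg A l φ + marg B l φ = 2 * marg E l φ := by
  obtain ⟨j, hj, eA⟩ := marg_eq_lineLen hA hl hφ hC
  obtain ⟨j', hj', eB⟩ := marg_eq_lineLen hB hl hφ hC
  obtain ⟨j'', hj'', eE⟩ := marg_eq_lineLen hE hl hφ hC
  obtain rfl : j = j' := Fin.succAbove_right_injective (hj.trans hj'.symm)
  obtain rfl : j = j'' := Fin.succAbove_right_injective (hj.trans hj''.symm)
  have : IsFiniteMeasure (volume.restrict (Icc (0 : Fin 2 → ℝ) 1)) :=
    isFiniteMeasure_restrict.2 isCompact_Icc.measure_lt_top.ne
  have hint : ∀ {F : Set R3}, MeasurableSet F →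
      IntegrableOn (fun y => lineLen k F y * φ (y j)) (Icc (0 : Fin 2 → ℝ) 1) := fun hF => by
    refine Integrable.of_bound ((measurable_lineLen k hF).mul
      (hφ.comp (measurable_pi_apply j))).aestronglyMeasurable C (Eventually.of_forall fun y => ?_)
    show ‖_ * _‖ ≤ C
    rw [norm_mul, Real.norm_of_nonneg (lineLen_mem k _ y).1, Real.norm_eq_abs]
    exact (mul_le_of_le_one_left (abs_nonneg _) (lineLen_mem k _ y).2).trans (hC _)
  rw [eA, eB, eE, ← integral_add (hint hA) (hint hB), ← integral_const_mul]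
  refine setIntegral_congr_ae measurableSet_Icc ?_
  filter_upwards [h] with y hy _
  linear_combination φ (y j) * hy

/-- On the line over `y` the set is the arc centred at `z`. -/
def LineIs (E : Set R3) (k : Fin 3) (r : (Fin 2 → ℝ) → ℝ) (z : ℝ) (y : Fin 2 → ℝ) : Prop :=
  ∀ᵐ t : ℝ, (k.insertNth t y : R3) ∈ E ↔ dist1 (t - z) < r y

theorem dist1_half_add {e : ℝ} (h : |e| ≤ 1 / 2) : dist1 (1 / 2 + e) = 1 / 2 - |e| := by
  rcases le_total e 0 with he | he
  · rw [abs_of_nonpos he, dist1_of_abs_le (abs_le.2 ⟨by linarith [(abs_le.1 h).1], by linarith⟩),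
      abs_of_nonneg (by linarith [(abs_le.1 h).1])]
    ring
  · rw [abs_of_nonneg he, show 1 / 2 + e = e - 1 / 2 + 1 by ring, dist1_periodic,
      dist1_of_abs_le (abs_le.2 ⟨by linarith, by linarith [(abs_le.1 h).2]⟩),
      abs_of_nonpos (by linarith [(abs_le.1 h).2])]
    ring

theorem not_arc_subset {a z z' r r' : ℝ} (hz : (z = a ∧ z' = a + 1 / 2) ∨ (z = a + 1 / 2 ∧ z' = a))
    (hr : r < 1 / 2) (hr' : 0 < r') :
    ¬ ∀ᵐ t : ℝ, dist1 (t - z') < r' → dist1 (t - z) < r := by
  intro h
  set δ := min (min r' (1 / 2 - r)) (1 / 2) with hδ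
  have hδ0 : 0 < δ := lt_min (lt_min hr' (by linarith)) (by norm_num)
  have hne : volume (Ioo (z' - δ) (z' + δ)) ≠ 0 := by
    rw [Real.volume_Ioo, ne_eq, ENNReal.ofReal_eq_zero, not_le]
    linarith
  refine hne (measure_mono_null (fun t ht => ?_) (ae_iff.1 h))
  obtain ⟨hd1, hd2⟩ := ht
  have hab : |t - z'| < δ := abs_lt.2 ⟨by linarith, by linarith⟩
  have m1 : δ ≤ r' := (min_le_left _ _).trans (min_le_left _ _)
  have m2 : δ ≤ 1 / 2 - r := (min_le_left _ _).trans (min_le_right _ _)
  have m3 : δ ≤ 1 / 2 := min_le_right _ _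
  have hin : dist1 (t - z') < r' := by
    have := dist1_le_abs (t - z') 0
    simp only [Int.cast_zero, sub_zero] at this
    linarith
  have hout : ¬ dist1 (t - z) < r := by
    rw [not_lt]
    rcases hz with ⟨rfl, rfl⟩ | ⟨rfl, rfl⟩
    · rw [show t - z = 1 / 2 + (t - (z + 1 / 2)) by ring, dist1_half_add (by linarith)]
      linarith
    · rw [show t - (z' + 1 / 2) = 1 / 2 + (t - z') - 1 by ring, dist1_periodic.sub_eq,
        dist1_half_add (by linarith)]
      linarith
  exact fun himp => hout (himp hin)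

/-- Neighbouring lines of a set decreasing in the connecting coordinate have the same centre. -/
theorem lineIs_iff_of_adjacent {k : Fin 3} {r : (Fin 2 → ℝ) → ℝ} {a : ℝ} {j : Fin 2}
    {y y' : Fin 2 → ℝ} (hyy : ∀ i, i ≠ j → y i = y' i)
    (hd : ∀ᵐ t : ℝ, (k.insertNth t y : R3) ∈ E ↔ dist1 (y j) <
      lineLen (k.succAbove j) E ((k.succAbove j).removeNth (k.insertNth t y : R3)) / 2)
    (hd' : ∀ᵐ t : ℝ, (k.insertNth t y' : R3) ∈ E ↔ dist1 (y' j) <
      lineLen (k.succAbove j) E ((k.succAbove j).removeNth (k.insertNth t y' : R3)) / 2)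
    (hy : LineIs E k r a y ∨ LineIs E k r (a + 1 / 2) y)
    (hy' : LineIs E k r a y' ∨ LineIs E k r (a + 1 / 2) y')
    (hr : 0 < r y ∧ r y < 1 / 2) (hr' : 0 < r y' ∧ r y' < 1 / 2) :
    LineIs E k r a y ↔ LineIs E k r a y' := by
  have hrem : ∀ t : ℝ, (k.succAbove j).removeNth (k.insertNth t y : R3) =
      (k.succAbove j).removeNth (k.insertNth t y' : R3) := fun t => by
    funext i
    have hne : (k.succAbove j).succAbove i ≠ k.succAbove j := Fin.succAbove_ne _ _
    show (k.insertNth t y : R3) ((k.succAbove j).succAbove i) =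
      (k.insertNth t y' : R3) ((k.succAbove j).succAbove i)
    rcases eq_or_ne ((k.succAbove j).succAbove i) k with h | h
    · rw [h, Fin.insertNth_apply_same, Fin.insertNth_apply_same]
    · obtain ⟨i', hi'⟩ := Fin.exists_succAbove_eq h
      rw [← hi', Fin.insertNth_apply_succAbove, Fin.insertNth_apply_succAbove]
      exact hyy i' fun e => hne (hi' ▸ e ▸ rfl)
  have main : ∀ z z' : ℝ, (z = a ∧ z' = a + 1 / 2) ∨ (z = a + 1 / 2 ∧ z' = a) →
      LineIs E k r z y → LineIs E k r z' y' → False := by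
    intro z z' hz h h'
    rcases le_total (dist1 (y j)) (dist1 (y' j)) with hle | hle
    · refine not_arc_subset hz hr.2 hr'.1 ?_
      filter_upwards [h, h', hd, hd'] with t h1 h2 h3 h4 ht
      exact h1.1 (h3.2 (hrem t ▸ hle.trans_lt (h4.1 (h2.2 ht))))
    · refine not_arc_subset (hz.symm.imp And.symm And.symm) hr'.2 hr.1 ?_
      filter_upwards [h, h', hd, hd'] with t h1 h2 h3 h4 ht
      exact h2.1 (h4.2 (hrem t ▸ hle.trans_lt (h3.1 (h1.2 ht))))
  constructor
  · exact fun h => hy'.resolve_right fun h' => main a (a + 1 / 2) (Or.inl ⟨rfl, rfl⟩) h h'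
  · exact fun h' => hy.resolve_right fun h => main (a + 1 / 2) a (Or.inr ⟨rfl, rfl⟩) h h'

theorem arc_shift_int (n : ℤ) (m r t : ℝ) : arc (m + n) r t = arc m r t := by
  have e : dist1 (t - (m + n)) = dist1 (t - m) := by
    rw [← dist1_add_int (t - (m + n)) n]; congr 1; ring
  rcases lt_or_ge (dist1 (t - m)) r with h | h
  · rw [arc_of_lt h, arc_of_lt (e ▸ h)]
  · rw [arc_of_le h, arc_of_le (e ▸ h)]

theorem arc_reflect (m r a u : ℝ) : arc m r (a - u) = arc (a - m) r u := by
  have e : dist1 (a - u - m) = dist1 (u - (a - m)) := by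
    rw [← dist1_neg (u - (a - m))]; congr 1; ring
  rcases lt_or_ge (dist1 (u - (a - m))) r with h | h
  · rw [arc_of_lt h, arc_of_lt (e ▸ h)]
  · rw [arc_of_le h, arc_of_le (e ▸ h)]

theorem arc_translate (m r a u : ℝ) : arc m r (a + u) = arc (m - a) r u := by
  have e : dist1 (a + u - m) = dist1 (u - (m - a)) := by congr 1; ring
  rcases lt_or_ge (dist1 (u - (m - a))) r with h | h
  · rw [arc_of_lt h, arc_of_lt (e ▸ h)]
  · rw [arc_of_le h, arc_of_le (e ▸ h)]

/-- An arc bisected by a plane is centred on it or half a period away. -/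
theorem lineIs_of_bisect (hE : MeasurableSet E) (hp : IsPeriodic fun x => x ∈ E) {k : Fin 3}
    {r : (Fin 2 → ℝ) → ℝ} {a : ℝ} {y : Fin 2 → ℝ} (hr : 0 ≤ r y ∧ r y < 1 / 2)
    (hlen : lineLen k E y = 2 * r y) (harc : IsArc (lineSet k E y))
    (hF : MeasurableSet (fold k a 1 E)) (hF' : MeasurableSet (fold k a (-1) E))
    (h1 : lineLen k (fold k a 1 E) y = 2 * r y) (h2 : lineLen k (fold k a (-1) E) y = 2 * r y) :
    LineIs E k r a y ∨ LineIs E k r (a + 1 / 2) y := by
  obtain ⟨m, hm⟩ := harc
  have hhalf : volume.real (lineSet k E y) / 2 = r y := by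
    rw [show volume.real (lineSet k E y) = lineLen k E y from rfl, hlen]; ring
  rw [hhalf] at hm
  have hL : LineIs E k r m y := by
    refine ae_of_Icc (fun t n => ?_) ?_
    · rw [periodic_line hp k y t n, show t + n - m = t - m + n by ring, dist1_add_int]
    · filter_upwards [hm, ae_restrict_mem measurableSet_Icc] with t ht htI
      have ht' : (t ∈ Icc (0 : ℝ) 1 ∧ (k.insertNth t y : R3) ∈ E) = (dist1 (t - m) < r y) := ht
      simp [← ht', htI]
  rcases hr.1.eq_or_lt with h0 | h0
  · left
    filter_upwards [hL] with t ht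
    simp [ht, ← h0, not_lt.2 (dist1_nonneg _)]
  have hind : ∀ᵐ t : ℝ, ind E (k.insertNth t y) = arc m (r y) t := by
    filter_upwards [hL] with t ht
    by_cases hd : dist1 (t - m) < r y
    · simp [ind, ht.2 hd, arc_of_lt hd]
    · rw [ind, indicator_of_notMem fun h => hd (ht.1 h), arc_of_le (not_lt.1 hd)]
  have hmap : ∀ σ : ℝ, σ = 1 ∨ σ = -1 → MeasureTheory.Measure.QuasiMeasurePreserving
      (fun u : ℝ => a + σ * u) volume volume := by
    rintro σ (rfl | rfl)
    · simpa using (measurePreserving_add_left (volume : Measure ℝ) a).quasiMeasurePreserving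
    · simpa [sub_eq_add_neg] using
        (Measure.measurePreserving_sub_left (volume : Measure ℝ) a).quasiMeasurePreserving
  have key : ∀ σ : ℝ, σ = 1 ∨ σ = -1 → ∫ u in (0 : ℝ)..1 / 2, ind E (k.insertNth (a + σ * u) y) =
      ∫ u in (0 : ℝ)..1 / 2, arc m (r y) (a + σ * u) := fun σ hσ =>
    intervalIntegral.integral_congr_ae (((hmap σ hσ).ae hind).mono fun u h _ => h)
  rw [lineLen_fold hE k a 1 hF, key 1 (Or.inl rfl)] at h1
  rw [lineLen_fold hE k a (-1) hF', key (-1) (Or.inr rfl)] at h2
  simp only [one_mul, arc_translate] at h1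
  simp only [neg_one_mul, ← sub_eq_add_neg, arc_reflect] at h2
  set u := Int.fract (m - a) with hu
  have hmu : m - a = u + (⌊m - a⌋ : ℤ) := (Int.fract_add_floor _).symm
  have e1 : ∀ t, arc (m - a) (r y) t = arc u (r y) t := fun t => by rw [hmu, arc_shift_int]
  have e2 : ∀ t, arc (a - m) (r y) t = arc (1 - u) (r y) t := fun t => by
    rw [show a - m = 1 - u + ((-⌊m - a⌋ - 1 : ℤ) : ℝ) by push_cast; linarith, arc_shift_int]
  simp only [e1] at h1
  simp only [e2] at h2
  have hu0 := Int.fract_nonneg (m - a)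
  have hu1 := Int.fract_lt_one (m - a)
  have center : ∀ z : ℝ, ∀ n : ℤ, m = z + n → LineIs E k r z y := fun z n hz => by
    filter_upwards [hL] with t ht
    rw [ht, hz, show t - z = t - (z + n) + n by ring, dist1_add_int]
  rcases eq_or_lt_of_le hu0 with hz | hpos
  · exact Or.inl (center a ⌊m - a⌋ (by linarith))
  rcases lt_trichotomy u (1 / 2) with hlt | heq | hgt
  · exact absurd (half_lt_integral_arc h0 hr.2 hpos hlt) (by linarith)
  · exact Or.inr (center _ ⌊m - a⌋ (by linarith))
  · exact absurd (half_lt_integral_arc h0 hr.2 (by linarith : (0 : ℝ) < 1 - u) (by linarith))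
      (by linarith)

/-- The mixed point of two lines. -/
def mix (z : (Fin 2 → ℝ) × (Fin 2 → ℝ)) : Fin 2 → ℝ := ![z.1 0, z.2 1]

theorem quasiMeasurePreserving_mix :
    Measure.QuasiMeasurePreserving mix ((volume : Measure (Fin 2 → ℝ)).prod volume) volume := by
  have h0 : Measure.QuasiMeasurePreserving (fun y : Fin 2 → ℝ => y 0)
      volume volume := Measure.quasiMeasurePreserving_eval (fun _ : Fin 2 => (volume : Measure ℝ)) 0
  have h1 : Measure.QuasiMeasurePreserving (fun y : Fin 2 → ℝ => y 1)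
      volume volume := Measure.quasiMeasurePreserving_eval (fun _ : Fin 2 => (volume : Measure ℝ)) 1
  have h2 : Measure.QuasiMeasurePreserving
      (Prod.map (fun y : Fin 2 → ℝ => y 0) (fun y : Fin 2 → ℝ => y 1))
      ((volume : Measure (Fin 2 → ℝ)).prod volume) ((volume : Measure ℝ).prod volume) := by
    refine ⟨h0.measurable.prodMap h1.measurable, ?_⟩
    rw [← Measure.map_prod_map _ _ h0.measurable h1.measurable]
    exact h0.absolutelyContinuous.prod h1.absolutelyContinuous
  exact ((volume_preserving_finTwoArrow ℝ).symm MeasurableEquiv.finTwoArrow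
    ).quasiMeasurePreserving.comp h2

theorem exists_good {P : (Fin 2 → ℝ) → Prop} (h : ∀ᵐ y, P y) {B : Set (Fin 2 → ℝ)}
    (hB : volume B ≠ 0) : ∃ y ∈ B, P y := by
  by_contra hc
  simp only [not_exists, not_and] at hc
  exact hB (measure_mono_null (fun y hy => hc y hy) (ae_iff.1 h))

/-- Only one coordinate not known to be decreasing. -/
theorem canon_of_two (hs : StmtSteiner) (hb : StmtBisect) (hk : StmtBack) (hd : StmtDec)
    (hV : V ∈ Ioc (0 : ℝ) (1 / 2)) (hE : Min V E) (k : Fin 3) (hdec : ∀ l, l ≠ k → Dec l E) :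
    IsCanon V E := by
  have dec_all : ∀ {F : Set R3}, Min V F → (∀ l, l ≠ k → Dec l F) →
      ∃ s R, Shape V s R ∧ ∀ᵐ y, lineLen k F y = lineLen k (body s R 0) y := by
    intro F hF hFd
    obtain ⟨hm, hdk, -, hpres⟩ := hs V hV F hF k
    obtain ⟨s, R, hsh, hae⟩ := hd V hV _ hm fun l => by
      rcases eq_or_ne l k with rfl | h
      · exact hdk
      · exact (hpres l h).2 (hFd l h)
    exact ⟨s, R, hsh, lineLen_of_steiner hae⟩
  obtain ⟨s, R, hsh, hl⟩ := dec_all hE hdec
  obtain ⟨hbody, -, harcs⟩ := hk V hV E hE k s R 0 hsh hl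
  by_cases hks : k ∈ s
  swap; · exact ⟨s, R, 0, hsh, hbody hks⟩
  obtain ⟨a, hp, hm⟩ := hb V hV E hE k
  obtain ⟨sp, Rp, hsp, hlp⟩ := dec_all hp fun l h => dec_fold h a (Or.inl rfl) (hdec l h)
  obtain ⟨sm, Rm, hsm, hlm⟩ := dec_all hm fun l h => dec_fold h a (Or.inr rfl) (hdec l h)
  have hsum : ∀ᵐ y, lineLen k (fold k a 1 E) y + lineLen k (fold k a (-1) E) y =
      2 * lineLen k E y :=
    Eventually.of_forall (lineLen_fold_add hE.meas hE.per k a hp.meas hm.meas)
  -- the coordinates of the folds other than `k`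
  have hside : ∀ l, l ≠ k → (l ∈ sp ↔ l ∈ s) ∧ (l ∈ sm ↔ l ∈ s) := by
    intro l hlk
    set ρ := max R (max Rp Rm) with hρ
    have hρ0 : 0 ≤ ρ := hsh.pos.le.trans (le_max_left _ _)
    have hρ1 : ρ < 1 / 2 := max_lt hsh.lt_half (max_lt hsp.lt_half hsm.lt_half)
    have hφ := measurable_band (0 : ℝ) ρ
    have hC := abs_band_le (0 : ℝ) ρ
    have e := marg_avg hE.meas hp.meas hm.meas hlk hsum hφ hC
    rw [marg_congr_lineLen hE.meas (measurableSet_body _ _ _) hlk hl hφ hC,
      marg_congr_lineLen hp.meas (measurableSet_body _ _ _) hlk hlp hφ hC,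
      marg_congr_lineLen hm.meas (measurableSet_body _ _ _) hlk hlm hφ hC] at e
    have hv : ∀ {s' : Finset (Fin 3)} {R' : ℝ}, Shape V s' R' → R' ≤ ρ →
        marg (body s' R' 0) l (band 0 ρ) = if l ∈ s' then 0 else V * (1 - 2 * ρ) := by
      intro s' R' h' hle
      split_ifs with hmem
      · exact marg_body_band (c := (0 : R3)) h'.pos.le hmem hle
      · exact marg_body_band_of_notMem hmem h'.vol 0 hρ0 hρ1.le
    rw [hv hsh (le_max_left _ _), hv hsp ((le_max_left _ _).trans (le_max_right _ _)),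
      hv hsm ((le_max_right _ _).trans (le_max_right _ _))] at e
    have hpos : 0 < V * (1 - 2 * ρ) := mul_pos hV.1 (by linarith)
    by_cases a1 : l ∈ sp <;> by_cases a2 : l ∈ sm <;> by_cases a3 : l ∈ s <;>
      simp only [a1, a2, a3, if_true, if_false, iff_true, iff_false, and_self, and_true, true_and,
        not_true_eq_false, not_false_iff] at e ⊢ <;> linarith
  have eq_or : ∀ {s' : Finset (Fin 3)}, (∀ l, l ≠ k → (l ∈ s' ↔ l ∈ s)) →
      s' = s ∨ s' = s.erase k := by
    intro s' h
    by_cases hk' : k ∈ s'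
    · exact Or.inl (Finset.ext fun l => by rcases eq_or_ne l k with rfl | hne <;> simp [*])
    · exact Or.inr (Finset.ext fun l => by rcases eq_or_ne l k with rfl | hne <;> simp [*])
  -- both folds have the type of the set
  have htype : sp = s ∧ sm = s := by
    have hpc := eq_or fun l h => (hside l h).1
    have hmc := eq_or fun l h => (hside l h).2
    by_contra hne
    obtain ⟨R', hsh'⟩ : ∃ R', Shape V (s.erase k) R' := by
      rcases hpc with h | h
      · rcases hmc with h' | h'
        · exact absurd ⟨h, h'⟩ hne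
        · exact ⟨Rm, h' ▸ hsm⟩
      · exact ⟨Rp, h ▸ hsp⟩
    have hlt : R' < R := by
      rw [shape_radius hV.1 hsh', shape_radius hV.1 hsh]
      refine div_lt_div_of_pos_right (mul_lt_mul_of_pos_right ?_ hV.1) (shape_candidate_pos hV.1 hsh)
      exact_mod_cast Finset.card_erase_lt_of_mem hks
    obtain ⟨l₀, hl₀⟩ := hsh'.nonempty
    obtain ⟨j₀, rfl⟩ := Fin.exists_succAbove_eq (Finset.ne_of_mem_erase hl₀)
    set δ := (R - R') / 2 with hδ
    set I : Fin 2 → Set ℝ := fun j => if j = j₀ then Ioo R' (R' + δ) else Ioo 0 δ with hI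
    have hB : volume (Set.pi univ I) ≠ 0 := by
      rw [volume_pi_pi, Finset.prod_ne_zero_iff]
      intro j _
      by_cases hj : j = j₀ <;> simp only [hI, hj, if_true, if_false, Real.volume_Ioo, ne_eq,
        ENNReal.ofReal_eq_zero, not_le] <;> linarith
    obtain ⟨y, hy, hsy, hly, hlyp, hlym⟩ :=
      exists_good (hsum.and (hl.and (hlp.and hlm))) hB
    have hyI : ∀ j, y j ∈ I j := fun j => hy j (mem_univ j)
    have hR' := hsh'.pos
    have hRh := hsh.lt_half
    have hd1 : ∀ j, dist1 (y j) = y j ∧ 0 < y j := fun j => by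
      have h := hyI j
      by_cases hj : j = j₀ <;> simp only [hI, hj, if_true, if_false, mem_Ioo] at h <;>
        (try subst hj) <;>
        refine ⟨?_, by linarith⟩ <;>
        rw [dist1_of_abs_le (abs_le.2 ⟨by linarith, by linarith⟩), abs_of_pos (by linarith)]
    have hsumv : ∀ R₀ : ℝ, rho k (s.erase k) R₀ 0 y = R₀ ^ 2 -
        ∑ l ∈ s.erase k, dist1 ((k.insertNth 0 y : R3) l) ^ 2 ∧
        rho k s R₀ 0 y = R₀ ^ 2 - ∑ l ∈ s.erase k, dist1 ((k.insertNth 0 y : R3) l) ^ 2 :=
      fun R₀ => by simp [rho, defect]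
    set f : Fin 3 → ℝ := fun l => dist1 ((k.insertNth 0 y : R3) l) ^ 2 with hf
    have hfj : ∀ j, f (k.succAbove j) = y j ^ 2 := fun j => by simp [hf, (hd1 j).1]
    have hge : R' ^ 2 ≤ ∑ l ∈ s.erase k, f l := by
      refine le_trans ?_ (Finset.single_le_sum (f := f) (fun l _ => sq_nonneg _) hl₀)
      have h := hyI j₀
      simp only [hI, if_true, mem_Ioo] at h
      rw [hfj]
      nlinarith
    have hup : ∑ l ∈ s.erase k, f l < R ^ 2 := by
      have hsub : s.erase k ⊆ Finset.univ.image k.succAbove := fun l hl' => by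
        obtain ⟨j, hj⟩ := Fin.exists_succAbove_eq (Finset.ne_of_mem_erase hl')
        exact Finset.mem_image.2 ⟨j, Finset.mem_univ j, hj⟩
      refine (Finset.sum_le_sum_of_subset_of_nonneg (f := f) hsub
        fun l _ _ => sq_nonneg _).trans_lt ?_
      rw [Finset.sum_image (fun j _ j' _ h => Fin.succAbove_right_injective h), Fin.sum_univ_two,
        hfj, hfj]
      have a0 := hyI 0
      have a1 := hyI 1
      fin_cases j₀ <;> simp [hI] at a0 a1 <;> nlinarith [(hd1 0).2, (hd1 1).2]
    have hzero : lineLen k (body (s.erase k) R' 0) y = 0 :=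
      lineLen_body_eq_zero (Finset.notMem_erase k s) y (by rw [(hsumv R').1]; linarith)
    have hpos : 0 < lineLen k (body s R 0) y := by
      rw [lineLen_body hks hsh.pos.le hsh.lt_half.le]
      have : 0 < rho k s R 0 y := by rw [(hsumv R).2]; linarith
      have := Real.sqrt_pos.2 this
      linarith
    rw [hlyp, hlym, hly] at hsy
    rcases hpc with h | h <;> rcases hmc with h' | h' <;> subst h <;> subst h'
    · exact hne ⟨rfl, rfl⟩
    · rw [shape_radius_eq hV.1 hsh hsp, shape_radius_eq hV.1 hsh' hsm, hzero] at hsy; linarith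
    · rw [shape_radius_eq hV.1 hsh' hsp, shape_radius_eq hV.1 hsh hsm, hzero] at hsy; linarith
    · rw [shape_radius_eq hV.1 hsh' hsp, shape_radius_eq hV.1 hsh' hsm, hzero] at hsy; linarith
  obtain ⟨h1', h2'⟩ := htype
  subst sp
  subst sm
  rw [shape_radius_eq hV.1 hsh hsp] at hlp
  rw [shape_radius_eq hV.1 hsh hsm] at hlm
  set r : (Fin 2 → ℝ) → ℝ := fun y => Real.sqrt (rho k s R 0 y) with hr
  have hr2 : ∀ y, r y < 1 / 2 := fun y => (sqrt_rho_le hsh.pos.le k y).trans_lt hsh.lt_half
  have hrl : ∀ y, lineLen k (body s R 0) y = 2 * r y :=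
    lineLen_body hks hsh.pos.le hsh.lt_half.le
  have hG : ∀ᵐ y, LineIs E k r a y ∨ LineIs E k r (a + 1 / 2) y := by
    filter_upwards [hl, hlp, hlm, harcs] with y e0 e1 e2 e3
    exact lineIs_of_bisect hE.meas hE.per ⟨Real.sqrt_nonneg _, hr2 y⟩ (e0.trans (hrl y)) e3
      hp.meas hm.meas (e1.trans (hrl y)) (e2.trans (hrl y))
  have hH : ∀ j : Fin 2, ∀ᵐ y : Fin 2 → ℝ, ∀ᵐ t : ℝ, (k.insertNth t y : R3) ∈ E ↔ dist1 (y j) <
      lineLen (k.succAbove j) E ((k.succAbove j).removeNth (k.insertNth t y : R3)) / 2 := by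
    intro j
    filter_upwards [ae_lines k (hdec (k.succAbove j) (Fin.succAbove_ne k j))] with y hy
    filter_upwards [hy] with t ht
    have h' : (dist1 ((k.insertNth t y : R3) (k.succAbove j)) < _ / 2) = _ := ht
    rw [Fin.insertNth_apply_succAbove] at h'
    exact (Iff.of_eq h').symm
  have hgood := hG.and ((hH 0).and (hH 1))
  have hpair : ∀ᵐ z ∂((volume : Measure (Fin 2 → ℝ)).prod volume),
      0 < r z.1 → 0 < r z.2 → (LineIs E k r a z.1 ↔ LineIs E k r a z.2) := by
    filter_upwards [Measure.quasiMeasurePreserving_fst.ae hgood,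
      Measure.quasiMeasurePreserving_snd.ae hgood, quasiMeasurePreserving_mix.ae hgood,
      (quasiMeasurePreserving_mix.comp
        (Measure.measurePreserving_swap).quasiMeasurePreserving).ae hgood] with z g1 g2 g3 g4 p1 p2
    obtain ⟨G1, H10, H11⟩ := g1
    obtain ⟨G2, H20, H21⟩ := g2
    obtain ⟨G3, H30, H31⟩ := g3
    obtain ⟨G4, H40, H41⟩ := g4
    simp only [Function.comp_apply] at G4 H40 H41
    set m1 := mix z with hm1
    set m2 := mix z.swap with hm2
    have hadd : rho k s R 0 m1 + rho k s R 0 m2 = rho k s R 0 z.1 + rho k s R 0 z.2 := by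
      simp only [rho, defect, Pi.zero_apply, sub_zero]
      have hterm : ∀ l ∈ s.erase k,
          dist1 ((k.insertNth 0 m1 : R3) l) ^ 2 + dist1 ((k.insertNth 0 m2 : R3) l) ^ 2 =
          dist1 ((k.insertNth 0 z.1 : R3) l) ^ 2 + dist1 ((k.insertNth 0 z.2 : R3) l) ^ 2 := by
        intro l hl'
        obtain ⟨j, rfl⟩ := Fin.exists_succAbove_eq (Finset.ne_of_mem_erase hl')
        fin_cases j <;> simp [hm1, hm2, mix, Fin.insertNth_apply_succAbove, add_comm]
      have := Finset.sum_congr rfl hterm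
      simp only [Finset.sum_add_distrib] at this
      linarith
    have q1 : 0 < rho k s R 0 z.1 := Real.sqrt_pos.1 p1
    have q2 : 0 < rho k s R 0 z.2 := Real.sqrt_pos.1 p2
    by_cases hpos : 0 < rho k s R 0 m1
    · refine (lineIs_iff_of_adjacent (j := 1) ?_ H11 H31 G1 G3 ⟨p1, hr2 _⟩
        ⟨Real.sqrt_pos.2 hpos, hr2 _⟩).trans (lineIs_iff_of_adjacent (j := 0) ?_ H30 H20 G3 G2
          ⟨Real.sqrt_pos.2 hpos, hr2 _⟩ ⟨p2, hr2 _⟩)
      all_goals intro i hi; fin_cases i <;> simp_all [mix]
    · have hpos2 : 0 < rho k s R 0 m2 := by linarith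
      refine (lineIs_iff_of_adjacent (j := 0) ?_ H10 H40 G1 G4 ⟨p1, hr2 _⟩
        ⟨Real.sqrt_pos.2 hpos2, hr2 _⟩).trans (lineIs_iff_of_adjacent (j := 1) ?_ H41 H21 G4 G2
          ⟨Real.sqrt_pos.2 hpos2, hr2 _⟩ ⟨p2, hr2 _⟩)
      all_goals intro i hi; fin_cases i <;> simp_all [mix]
  have hzero : ∀ᵐ y, r y ≤ 0 → ∀ z, LineIs E k r z y := by
    filter_upwards [hG] with y hy h0 z
    have hout : ∀ z' t, ¬ dist1 (t - z') < r y := fun z' t => not_lt.2 (h0.trans (dist1_nonneg _))
    rcases hy with h | h <;>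
    · filter_upwards [h] with t ht
      simp [ht, hout]
  obtain ⟨z, hz⟩ : ∃ z, ∀ᵐ y, LineIs E k r z y := by
    by_cases hsome : ∀ᵐ y, r y ≤ 0
    · exact ⟨a, by filter_upwards [hsome, hzero] with y h1 h2 using h2 h1 a⟩
    · have hB : volume {y : Fin 2 → ℝ | ¬ r y ≤ 0} ≠ 0 := fun h => hsome (ae_iff.2 h)
      obtain ⟨y₀, hy₀, h₀, h₁⟩ := exists_good (hG.and (Measure.ae_ae_of_ae_prod hpair)) hB
      have hy₀' : 0 < r y₀ := not_le.1 hy₀
      by_cases hla : LineIs E k r a y₀
      · refine ⟨a, ?_⟩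
        filter_upwards [hzero, h₁] with y hz0 hy
        by_cases h : r y ≤ 0
        · exact hz0 h a
        · exact (hy hy₀' (not_le.1 h)).1 hla
      · refine ⟨a + 1 / 2, ?_⟩
        filter_upwards [hzero, h₁, hG] with y hz0 hy hg
        by_cases h : r y ≤ 0
        · exact hz0 h _
        · exact hg.resolve_left fun h' => hla ((hy hy₀' (not_le.1 h)).2 h')
  refine ⟨s, R, update 0 k z, hsh, ?_⟩
  set K := body s R (update (0 : R3) k z) with hK
  have hrho : ∀ y, rho k s R (update (0 : R3) k z) y = rho k s R 0 y := fun y => by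
    simp only [rho, defect]
    congr 1
    refine Finset.sum_congr rfl fun l hl' => ?_
    rw [update_of_ne (Finset.ne_of_mem_erase hl')]
  have hmeq : MeasurableSet {x | x ∈ E ↔ x ∈ K} := by
    have : {x | x ∈ E ↔ x ∈ K} = (E ∩ K) ∪ (Eᶜ ∩ Kᶜ) := by
      ext x; simp only [mem_ofPred_eq, mem_union, mem_inter_iff, mem_compl_iff]; tauto
    rw [this]
    exact (hE.meas.inter (measurableSet_body ..)).union
      (hE.meas.compl.inter (measurableSet_body ..).compl)
  have hall : ∀ᵐ x : R3, x ∈ E ↔ x ∈ K := by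
    refine ae_of_lines k hmeq ?_
    filter_upwards [hz] with y hy
    filter_upwards [hy] with t ht
    rw [ht, hK, mem_body_line hks, update_self, hrho]
  filter_upwards [hall] with x hx
  exact propext hx

end Vale.Agent.P232.Rigid.Ind

namespace Vale.Agent.P232.Rigid

open Ind

/-- All minimisers of volume at most one half are canonical. -/
theorem stmtClassify_of (hs : StmtSteiner) (hb : StmtBisect) (hk : StmtBack) (hd : StmtDec) :
    StmtClassify := by
  intro V hV E hE
  have one : ∀ {F : Set R3}, Min V F → ∀ i : Fin 3, Dec i F → IsCanon V F := by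
    intro F hF i hi
    refine canon_of_pair hk hV hF (i := i.succAbove 0) (j := i.succAbove 1)
      (fun h => absurd (Fin.succAbove_right_injective h) (by decide)) ?_ ?_
    all_goals
      obtain ⟨hm, hdl, -, hpres⟩ := hs V hV F hF _
    · refine canon_of_two hs hb hk hd hV hm (i.succAbove 1) fun l hl => ?_
      rcases eq_or_ne l (i.succAbove 0) with rfl | h
      · exact hdl
      · refine (hpres l h).2 ?_
        obtain rfl : l = i := by
          by_contra hne
          obtain ⟨j, rfl⟩ := Fin.exists_succAbove_eq hne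
          fin_cases j <;> simp_all
        exact hi
    · refine canon_of_two hs hb hk hd hV hm (i.succAbove 0) fun l hl => ?_
      rcases eq_or_ne l (i.succAbove 1) with rfl | h
      · exact hdl
      · refine (hpres l h).2 ?_
        obtain rfl : l = i := by
          by_contra hne
          obtain ⟨j, rfl⟩ := Fin.exists_succAbove_eq hne
          fin_cases j <;> simp_all
        exact hi
  exact canon_of_pair hk hV hE (i := 0) (j := 1) (by decide)
    (one (hs V hV E hE 0).1 0 (hs V hV E hE 0).2.1) (one (hs V hV E hE 1).1 1 (hs V hV E hE 1).2.1)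

end Vale.Agent.P232.Rigid
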