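import Vale.Agent.P232.Rigid.Defs
import Vale.Agent.P232.Periodic

/-!
# P232: lines of periodic sets, and almost everywhere statements over one period
-/

open MeasureTheory Set Filter
open scoped Topology NNReal ENNReal

namespace Vale.Agent.P232.Rigid

/-- The unit square of the coordinates other than one. -/
def sq : Set (Fin 2 → ℝ) := Icc 0 1

theorem measurableSet_sq : MeasurableSet sq := measurableSet_Icc

theorem volume_sq : volume sq = 1 := by
  rw [sq, Real.volume_Icc_pi]
  simp

instance : IsFiniteMeasure (volume.restrict sq) :=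
  ⟨by rw [Measure.restrict_apply_univ, volume_sq]; exact ENNReal.one_lt_top⟩

instance : IsFiniteMeasure (volume.restrict (Icc (0 : ℝ) 1)) :=
  ⟨by rw [Measure.restrict_apply_univ, Real.volume_Icc]; exact ENNReal.ofReal_lt_top⟩

/-- The point with coordinate `p.1` on axis `i` and the others `p.2`. -/
noncomputable def lineMap (i : Fin 3) (p : ℝ × (Fin 2 → ℝ)) : R3 := i.insertNth p.1 p.2

theorem measurable_lineMap (i : Fin 3) : Measurable (lineMap i) :=
  (MeasurableEquiv.piFinSuccAbove (fun _ : Fin 3 => ℝ) i).symm.measurable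

theorem mem_cube_iff {i : Fin 3} {t : ℝ} {y : Fin 2 → ℝ} :
    (i.insertNth t y : R3) ∈ cube ↔ t ∈ Icc (0 : ℝ) 1 ∧ y ∈ sq := by
  simp only [cube, sq, mem_Icc, Pi.le_def, Fin.forall_iff_succAbove i, Fin.insertNth_apply_same,
    Fin.insertNth_apply_succAbove, Pi.zero_apply, Pi.one_apply]
  tauto

/-- The cube as lines in direction `i`. -/
theorem measurePreserving_lineMap (i : Fin 3) :
    MeasurePreserving (lineMap i) ((volume.restrict (Icc (0 : ℝ) 1)).prod (volume.restrict sq))
      (volume.restrict cube) := by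
  have h := ((volume_preserving_piFinSuccAbove (fun _ : Fin 3 => ℝ) i).symm).restrict_preimage
    (measurableSet_cube)
  rw [Measure.volume_eq_prod] at h
  rw [Measure.prod_restrict]
  have e : (MeasurableEquiv.piFinSuccAbove (fun _ : Fin 3 => ℝ) i).symm ⁻¹' cube =
      Icc (0 : ℝ) 1 ×ˢ sq := by
    ext ⟨t, y⟩
    exact mem_cube_iff
  rw [e] at h
  exact h

theorem lintegral_cube_lines (i : Fin 3) {F : R3 → ℝ≥0∞} (hF : Measurable F) :
    ∫⁻ x in cube, F x = ∫⁻ y in sq, ∫⁻ t in Icc (0 : ℝ) 1, F (i.insertNth t y) := by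
  rw [← (measurePreserving_lineMap i).lintegral_comp hF,
    lintegral_prod_symm (f := fun p => F (lineMap i p))
      (hF.comp (measurable_lineMap i)).aemeasurable]
  rfl

theorem ae_lines (i : Fin 3) {P : R3 → Prop} (hP : ∀ᵐ x ∂volume.restrict cube, P x) :
    ∀ᵐ y ∂volume.restrict sq, ∀ᵐ t ∂volume.restrict (Icc (0 : ℝ) 1), P (i.insertNth t y) := by
  have h := (measurePreserving_lineMap i).quasiMeasurePreserving.ae hP
  have h' : ∀ᵐ q ∂(volume.restrict sq).prod (volume.restrict (Icc (0 : ℝ) 1)),
      P (lineMap i q.swap) := (Measure.measurePreserving_swap).quasiMeasurePreserving.ae h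
  exact Measure.ae_ae_of_ae_prod h'

/-- A periodic property holding almost everywhere in one period holds almost everywhere. -/
theorem ae_of_periodic {n : ℕ} {P : (Fin n → ℝ) → Prop}
    (hper : ∀ x (k : Fin n → ℤ), P x → P (x + fun j => (k j : ℝ)))
    (h : ∀ᵐ x ∂volume.restrict (Icc (0 : Fin n → ℝ) 1), P x) : ∀ᵐ x, P x := by
  rw [ae_restrict_iff' measurableSet_Icc, ae_iff] at h
  rw [ae_iff]
  refine measure_mono_null (fun x hx => ?_)
    (measure_iUnion_null fun k : Fin n → ℤ =>
      (measure_preimage_add_right volume (fun j => -(k j : ℝ))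
        {a | ¬(a ∈ Icc (0 : Fin n → ℝ) 1 → P a)}).trans h)
  simp only [mem_iUnion, mem_preimage, mem_ofPred_eq, Classical.not_imp]
  refine ⟨fun j => ⌊x j⌋, ⟨fun j => ?_, fun j => ?_⟩, fun hP => hx ?_⟩
  · simp only [Pi.add_apply, Pi.zero_apply]; linarith [Int.floor_le (x j)]
  · simp only [Pi.add_apply, Pi.one_apply]; linarith [Int.lt_floor_add_one (x j)]
  · have := hper _ (fun j => ⌊x j⌋) hP
    convert this using 1
    ext j; simp

/-- Periodic sets agreeing almost everywhere in the cube agree almost everywhere. -/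
theorem setAE_of_cube {E F : Set R3} (hE : IsPeriodic fun x => x ∈ E)
    (hF : IsPeriodic fun x => x ∈ F) (h : E =ᵐ[volume.restrict cube] F) : SetAE E F := by
  refine ae_of_periodic (P := fun x => E x = F x) (fun x k hx => ?_) h
  exact (hE x k).trans (hx.trans (hF x k).symm)

theorem insertNth_add (i : Fin 3) (t : ℝ) (y : Fin 2 → ℝ) (k : Fin 2 → ℤ) :
    (i.insertNth t (y + fun j => (k j : ℝ)) : R3) =
      i.insertNth t y + fun j => ((i.insertNth 0 k : Fin 3 → ℤ) j : ℝ) := by
  ext j
  rcases Fin.eq_self_or_eq_succAbove i j with rfl | ⟨l, rfl⟩ <;> simp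

theorem lineSet_periodic {E : Set R3} (hE : IsPeriodic fun x => x ∈ E) (i : Fin 3)
    (y : Fin 2 → ℝ) (k : Fin 2 → ℤ) :
    lineSet i E (y + fun j => (k j : ℝ)) = lineSet i E y := by
  ext t
  simp only [lineSet, mem_ofPred_eq, insertNth_add]
  exact and_congr_right fun _ => eq_iff_iff.1 (hE (i.insertNth t y) (i.insertNth 0 k))

theorem measurableSet_lineSet {E : Set R3} (hE : MeasurableSet E) (i : Fin 3) (y : Fin 2 → ℝ) :
    MeasurableSet (lineSet i E y) :=
  measurableSet_Icc.inter
    (hE.preimage ((measurable_lineMap i).comp (measurable_id.prodMk measurable_const)))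

theorem lineLen_le_one (i : Fin 3) (E : Set R3) (y : Fin 2 → ℝ) : lineLen i E y ≤ 1 := by
  refine (measureReal_mono (fun t ht => ht.1) ?_).trans_eq (by simp)
  rw [Real.volume_Icc]; exact ENNReal.ofReal_ne_top

theorem lineLen_nonneg (i : Fin 3) (E : Set R3) (y : Fin 2 → ℝ) : 0 ≤ lineLen i E y :=
  measureReal_nonneg

theorem volume_lineSet (i : Fin 3) (E : Set R3) (y : Fin 2 → ℝ) :
    volume (lineSet i E y) = ENNReal.ofReal (lineLen i E y) := by
  refine (ofReal_measureReal (ne_top_of_le_ne_top ?_ (measure_mono fun t ht => ht.1))).symm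
  rw [Real.volume_Icc]; exact ENNReal.ofReal_ne_top

theorem measurable_lineLen {E : Set R3} (hE : MeasurableSet E) (i : Fin 3) :
    Measurable (lineLen i E) := by
  have hS : MeasurableSet {q : (Fin 2 → ℝ) × ℝ | q.2 ∈ Icc (0 : ℝ) 1 ∧ lineMap i q.swap ∈ E} :=
    (measurable_snd measurableSet_Icc).inter
      (hE.preimage ((measurable_lineMap i).comp measurable_swap))
  exact (measurable_measure_prodMk_left (ν := (volume : Measure ℝ)) hS).ennreal_toReal

end Vale.Agent.P232.Rigid
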