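import Vale.Agent.P232.Rigid.Final
import Vale.Agent.P232.Symm.CubeTools

/-!
# P232: the bodies of the classification by name, with their radii

A body with a `Shape` is a geodesic ball of radius `(3V/4π)^(1/3)`, a tube of radius `√(V/π)` about
a shortest closed geodesic, or a slab of width `V` between two parallel coordinate tori.
-/

open MeasureTheory Set Filter
open scoped Topology

namespace Vale.Agent.P232.Rigid

/-- The geodesic ball of centre `c` and radius `R`. -/
def torusBall (c : R3) (R : ℝ) : Set R3 :=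
  {x | ∃ k : Fin 3 → ℤ, ∑ i, (x i - c i - k i) ^ 2 < R ^ 2}

/-- The solid tube of radius `R` about the closed geodesic through `c` in direction `a`. -/
def torusTube (a : Fin 3) (c : R3) (R : ℝ) : Set R3 :=
  {x | ∃ k : Fin 3 → ℤ, ∑ i ∈ Finset.univ.erase a, (x i - c i - k i) ^ 2 < R ^ 2}

/-- The slab of width `w` above the coordinate torus `x i = a`. -/
def torusSlab (i : Fin 3) (a w : ℝ) : Set R3 :=
  {x | ∃ k : ℤ, a < x i + k ∧ x i + k < a + w}

/-- A ball, a tube about a shortest closed geodesic or a coordinate slab, of volume `V`. -/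
def NamedShape (V : ℝ) (E : Set R3) : Prop :=
  (∃ c, SetAE E (torusBall c ((3 * V / (4 * Real.pi)) ^ ((1 : ℝ) / 3)))) ∨
    (∃ a c, SetAE E (torusTube a c (Real.sqrt (V / Real.pi)))) ∨
      ∃ i a, SetAE E (torusSlab i a V)

theorem body_eq (s : Finset (Fin 3)) (R : ℝ) (c : R3) :
    body s R c = {x | ∃ k : Fin 3 → ℤ, ∑ i ∈ s, (x i - c i - k i) ^ 2 < R ^ 2} := by
  ext x
  refine ⟨fun h => ⟨fun i => round (x i - c i), ?_⟩, fun ⟨k, hk⟩ => ?_⟩
  · refine lt_of_eq_of_lt (Finset.sum_congr rfl fun i _ => ?_) h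
    rw [dist1, sq_abs]
  · refine lt_of_le_of_lt (Finset.sum_le_sum fun i _ => ?_) hk
    rw [← sq_abs (x i - c i - k i), dist1]
    exact pow_le_pow_left₀ (abs_nonneg _) (round_le _ _) 2

theorem tubeVol_swap (S : Finset (Fin 3)) (i j : Fin 3) (r : ℝ) :
    tubeVol (S.map (Equiv.swap i j).toEmbedding) r = tubeVol S r := by
  set σ := Equiv.swap i j
  have e : {x ∈ cube | tdist (S.map σ.toEmbedding) x ≤ r} =
      Symm.exch i j ⁻¹' {x ∈ cube | tdist S x ≤ r} := by
    ext x
    have hc : Symm.exch i j x ∈ cube ↔ x ∈ cube := by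
      conv_rhs => rw [← Symm.exch_preimage_cube i j]
      rfl
    have hd : tdist (S.map σ.toEmbedding) x = tdist S (Symm.exch i j x) := by
      simp only [tdist, EuclideanSpace.norm_eq, emb, Real.norm_eq_abs, sq_abs]
      congr 1
      rw [← Equiv.sum_comp σ]
      refine Finset.sum_congr rfl fun l _ => ?_
      simp [Symm.exch, σ]
    simp only [mem_ofPred_eq, mem_preimage, hc, hd]
  rw [tubeVol, e, Measure.real, (Symm.measurePreserving_exch i j).measure_preimage]
  · rfl
  · exact (measurableSet_cube.inter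
      (measurableSet_le (continuous_tdist S).measurable measurable_const)).nullMeasurableSet

/-- The volume of a tube about any subtorus. -/
noncomputable def volPoly (n : ℕ) (r : ℝ) : ℝ :=
  if n = 1 then 2 * r else if n = 2 then Real.pi * r ^ 2 else 4 * Real.pi / 3 * r ^ 3

theorem tubeVol_general {s : Finset (Fin 3)} (hs : s.Nonempty) {r : ℝ}
    (hr : r ∈ Icc (0 : ℝ) (1 / 2)) : tubeVol s r = volPoly s.card r := by
  have h1 : tubeVol {0} r = 2 * r := by rw [tubeVol_one hr, pow_one]
  have key : ∀ s : Finset (Fin 3), s = {0} ∨ s = {1} ∨ s = {2} ∨ s = {0, 1} ∨ s = {0, 2} ∨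
      s = {1, 2} ∨ s = Finset.univ ∨ s = ∅ := by decide
  have swap : ∀ (S : Finset (Fin 3)) (i j : Fin 3), tubeVol S r = volPoly S.card r →
      tubeVol (S.map (Equiv.swap i j).toEmbedding) r =
        volPoly (S.map (Equiv.swap i j).toEmbedding).card r := fun S i j h => by
    rw [tubeVol_swap, Finset.card_map, h]
  have g1 : tubeVol {0} r = volPoly ({0} : Finset (Fin 3)).card r := by simpa [volPoly] using h1
  have g2 : tubeVol {0, 1} r = volPoly ({0, 1} : Finset (Fin 3)).card r := by
    simpa [volPoly] using tubeVol_two hr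
  rcases key s with rfl | rfl | rfl | rfl | rfl | rfl | rfl | rfl
  · exact g1
  · rw [show ({1} : Finset (Fin 3)) = ({0} : Finset (Fin 3)).map (Equiv.swap 0 1).toEmbedding by decide]
    exact swap _ _ _ g1
  · rw [show ({2} : Finset (Fin 3)) = ({0} : Finset (Fin 3)).map (Equiv.swap 0 2).toEmbedding by decide]
    exact swap _ _ _ g1
  · exact g2
  · rw [show ({0, 2} : Finset (Fin 3)) =
        ({0, 1} : Finset (Fin 3)).map (Equiv.swap 1 2).toEmbedding by decide]
    exact swap _ _ _ g2
  · rw [show ({1, 2} : Finset (Fin 3)) =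
        ({0, 1} : Finset (Fin 3)).map (Equiv.swap 0 2).toEmbedding by decide]
    exact swap _ _ _ g2
  · simpa [volPoly] using tubeVol_three hr
  · exact absurd hs Finset.not_nonempty_empty

/-- A body with a `Shape` has the volume of its name. -/
theorem Shape.vol_eq {V R : ℝ} {s : Finset (Fin 3)} (h : Shape V s R) : V = volPoly s.card R := by
  have hsub : ∀ x, x ∈ body s R 0 ↔ tdist s x < R := fun x => by
    rw [tdist, EuclideanSpace.norm_eq, Real.sqrt_lt' h.pos]
    refine iff_of_eq (congrArg (· < R ^ 2) ?_)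
    simp only [emb, Real.norm_eq_abs, sq_abs, ite_pow, zero_pow two_ne_zero, Finset.sum_ite_mem,
      Finset.univ_inter, Pi.zero_apply, sub_zero]
    rfl
  have hfin : ∀ A : Set R3, A ⊆ cube → volume A ≠ ⊤ := fun A hA =>
    ne_top_of_le_ne_top (volume_cube ▸ ENNReal.one_ne_top) (measure_mono hA)
  refine le_antisymm ?_ ?_
  · rw [← h.vol 0, ← tubeVol_general h.nonempty ⟨h.pos.le, h.lt_half.le⟩]
    exact measureReal_mono (fun x hx => ⟨hx.2, ((hsub x).1 hx.1).le⟩) (hfin _ (sep_subset _ _))
  · have hc : Continuous (volPoly s.card) := by unfold volPoly; split_ifs <;> fun_prop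
    refine le_of_tendsto (x := 𝓝[<] R) ((hc.tendsto R).mono_left nhdsWithin_le_nhds) ?_
    filter_upwards [Ioo_mem_nhdsLT h.pos] with r hr
    rw [← tubeVol_general h.nonempty ⟨hr.1.le, by linarith [hr.2, h.lt_half]⟩, ← h.vol 0]
    exact measureReal_mono (fun x hx => ⟨(hsub x).2 (lt_of_le_of_lt hx.2 hr.2), hx.1⟩)
      (hfin _ inter_subset_right)

/-- A canonical minimiser is one of the named shapes. -/
theorem named_of_canon {V : ℝ} {E : Set R3} (h : IsCanon V E) : NamedShape V E := by
  obtain ⟨s, R, c, hS, hE⟩ := h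
  have hv := hS.vol_eq
  have h1 : 1 ≤ s.card := hS.nonempty.card_pos
  have h3 : s.card ≤ 3 := s.card_le_univ.trans_eq (Fintype.card_fin 3)
  rw [body_eq] at hE
  interval_cases hn : s.card
  · obtain ⟨i, rfl⟩ := Finset.card_eq_one.1 hn
    refine Or.inr (Or.inr ⟨i, c i - R, ?_⟩)
    simp only [volPoly, if_true] at hv
    have e : torusSlab i (c i - R) V =
        {x | ∃ k : Fin 3 → ℤ, ∑ j ∈ {i}, (x j - c j - k j) ^ 2 < R ^ 2} := by
      ext x
      simp only [torusSlab, mem_ofPred_eq, Finset.sum_singleton, sq_lt_sq, abs_of_pos hS.pos, abs_lt]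
      constructor
      · rintro ⟨k, hk1, hk2⟩
        exact ⟨fun _ => -k, by push_cast; linarith, by push_cast; linarith⟩
      · rintro ⟨k, hk1, hk2⟩
        exact ⟨-k i, by push_cast; linarith, by push_cast; linarith⟩
    rwa [e]
  · obtain ⟨a, ha⟩ : ∃ a, s = Finset.univ.erase a := by
      revert hn
      clear hv hE hS h1 h3
      revert s
      decide
    subst ha
    refine Or.inr (Or.inl ⟨a, c, ?_⟩)
    have hv' : V = Real.pi * R ^ 2 := by simpa [volPoly] using hv
    have hR : Real.sqrt (V / Real.pi) = R := by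
      rw [hv', mul_div_cancel_left₀ _ Real.pi_pos.ne', Real.sqrt_sq hS.pos.le]
    rw [hR]
    exact hE
  · refine Or.inl ⟨c, ?_⟩
    have hs : s = Finset.univ := Finset.eq_univ_of_card s hn
    subst hs
    have hv' : V = 4 * Real.pi / 3 * R ^ 3 := by simpa [volPoly] using hv
    have hR : (3 * V / (4 * Real.pi)) ^ ((1 : ℝ) / 3) = R := by
      rw [show 3 * V / (4 * Real.pi) = R ^ (3 : ℕ) by rw [hv']; field_simp,
        ← Real.rpow_natCast, ← Real.rpow_mul hS.pos.le]
      norm_num
    rw [hR]
    exact hE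

/-- Every competitor attaining the profile is one of the named shapes or the complement of one. -/
theorem classify_named (hc : StmtClassify) : ∀ V ∈ Ioo (0 : ℝ) 1, ∀ E, IsCompetitor E V →
    perimeter E = profile V → NamedShape V E ∨ NamedShape (1 - V) Eᶜ := fun V hV E hE hP =>
  (classify_all hc V hV E hE hP).imp named_of_canon named_of_canon

end Vale.Agent.P232.Rigid
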