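import Vale.Agent.P232.Rigid.PolarField

/-!
# P232: undoing the polarisations for relative minimisers in the cube

If the polarised set is a canonical body, then so is the original one: the gradient of the
approximants vanishes in the limit away from the free boundary of the body, so the set is constant
on the connected region where the body and its reflection differ.
-/

open MeasureTheory Set Filter Function
open scoped Topology NNReal ENNReal

namespace Vale.Agent.P232.Rigid

namespace Polar

open Symm (exch exch_refl cubeWeight pol)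

variable {V R : ℝ} {E : Set R3} {g : ℕ → R3 → ℝ} {i j : Fin 3} {s : Finset (Fin 3)}

/-- A set approximated with vanishing gradient on a ball is null or full there. -/
theorem null_or_full (h : Approx V E g) (hij : i < j) {S : Set R3} (hSm : MeasurableSet S)
    (hlim : Tendsto (fun k => ∫ x in cube,
      S.indicator (gradNorm (pol cubeWeight (exch i j) (g k))) x) atTop (𝓝 0))
    {x₀ : R3} {ρ : ℝ} (hB : ∀ x ∈ Metric.ball x₀ ρ, x ∈ cube ∧ x ∈ S ∧ exch i j x ∈ S) :
    volume (Metric.ball x₀ ρ ∩ E) = 0 ∨ volume (Metric.ball x₀ ρ \ E) = 0 := by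
  set B := Metric.ball x₀ ρ with hBdef
  have hBc : B ⊆ cube := fun x hx => (hB x hx).1
  have hBm : MeasurableSet B := measurableSet_ball
  rw [← mul_eq_zero]
  refine le_antisymm ?_ zero_le
  have hlow : volume (B ∩ E) * volume (B \ E) ≤ ∫⁻ p in B, ∫⁻ q in B, ‖ind E q - ind E p‖ₑ := by
    refine le_trans ?_ (lintegral_mono_set inter_subset_left (s := B ∩ E))
    rw [mul_comm, ← setLIntegral_const]
    refine setLIntegral_mono' (hBm.inter h.meas) fun p hp => ?_
    refine le_trans ?_ (lintegral_mono_set sdiff_subset (s := B \ E))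
    rw [← setLIntegral_one]
    refine setLIntegral_mono' (hBm.diff h.meas) fun q hq => ?_
    simp [ind, hp.2, hq.2]
  set C := volume (Metric.ball (0 : R3) (2 * ρ)) * ENNReal.ofReal (6 * ρ) with hC
  set a : ℕ → ℝ := fun k => 2 * ∫ x in cube,
    S.indicator (gradNorm (pol cubeWeight (exch i j) (g k))) x with ha
  set b : ℕ → ℝ := fun k => ∫ x in cube, |g k x - ind E x| with hb
  have hup : ∀ k, ∫⁻ p in B, ∫⁻ q in B, ‖ind E q - ind E p‖ₑ ≤
      C * ENNReal.ofReal (a k) + 2 * volume B * ENNReal.ofReal (b k) := by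
    intro k
    obtain ⟨L, hL⟩ := h.lip k
    set P' := pol cubeWeight (exch i j) (g k) with hP'
    have hPL := Symm.lipschitzWith_pol (exch_refl i j) Symm.sys_exch.wc (Symm.fix_exch hij.ne (g k)) hL
    set d : R3 → ℝ≥0∞ := fun x => ‖g k x - ind E x‖ₑ with hd
    have hdm : Measurable d := ((h.continuous k).measurable.sub (measurable_ind h.meas)).enorm
    have hdB : ∫⁻ x in B, d x ≤ ENNReal.ofReal (b k) := by
      refine (lintegral_mono_set hBc).trans_eq ?_
      rw [hb, ofReal_integral_eq_lintegral_ofReal (h.integrableOn_sub k)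
        (Eventually.of_forall fun x => abs_nonneg _)]
      exact lintegral_congr fun x => Real.enorm_eq_ofReal_abs _
    have hG : ∫⁻ y in B, ENNReal.ofReal (gradNorm (g k) y) ≤ ENNReal.ofReal (a k) := by
      have hσm := (exch_refl i j).lip.continuous.measurable
      have hi0 := Symm.integrableOn_gradNorm hL
      have hi1 : IntegrableOn (fun x => gradNorm (g k) (exch i j x)) cube :=
        Symm.integrableOn_cube ((Symm.measurable_gradNorm _).comp hσm) (C := 3 * L) fun x => by
          rw [abs_of_nonneg (Symm.gradNorm_nonneg _ _)]; exact Symm.gradNorm_le hL _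
      have hi2 : IntegrableOn (S.indicator (gradNorm P')) cube :=
        (Symm.integrableOn_gradNorm hPL).indicator hSm
      have hbd : ∀ x, |S.indicator (gradNorm P') x| ≤ 3 * L := fun x => by
        rw [abs_of_nonneg (indicator_nonneg (fun y _ => Symm.gradNorm_nonneg _ y) x)]
        exact indicator_le' (fun y _ => Symm.gradNorm_le hPL y) (fun _ _ => by positivity) x
      have hi3 : IntegrableOn (fun x => S.indicator (gradNorm P') (exch i j x)) cube :=
        Symm.integrableOn_cube (((Symm.measurable_gradNorm _).indicator hSm).comp hσm) fun x => hbd _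
      rw [← ofReal_integral_eq_lintegral_ofReal (hi0.mono_set hBc)
        (Eventually.of_forall fun x => Symm.gradNorm_nonneg _ x)]
      refine ENNReal.ofReal_le_ofReal ?_
      calc ∫ y in B, gradNorm (g k) y
          ≤ ∫ y in B, (gradNorm (g k) y + gradNorm (g k) (exch i j y)) :=
            setIntegral_mono_on (hi0.mono_set hBc) ((hi0.add hi1).mono_set hBc) hBm fun y _ =>
              le_add_of_nonneg_right (Symm.gradNorm_nonneg _ _)
        _ = ∫ y in B, (S.indicator (gradNorm P') y + S.indicator (gradNorm P') (exch i j y)) := by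
            refine setIntegral_congr_ae hBm ?_
            filter_upwards [Symm.gradNorm_pol (exch_refl i j) Symm.sys_exch.wc
              (Symm.fix_exch hij.ne (g k)) hL] with y hy hyB
            rw [indicator_of_mem (hB y hyB).2.1, indicator_of_mem (hB y hyB).2.2, hy]
        _ ≤ ∫ y in cube, (S.indicator (gradNorm P') y + S.indicator (gradNorm P') (exch i j y)) := by
            refine setIntegral_mono_set (hi2.add hi3) (Eventually.of_forall fun y => ?_)
              hBc.eventuallyLE
            exact add_nonneg (indicator_nonneg (fun z _ => Symm.gradNorm_nonneg _ z) y)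
              (indicator_nonneg (fun z _ => Symm.gradNorm_nonneg _ z) _)
        _ = a k := by
            rw [integral_add hi2 hi3, Symm.integral_exch i j (S.indicator (gradNorm P')), ha]
            ring
    calc ∫⁻ p in B, ∫⁻ q in B, ‖ind E q - ind E p‖ₑ
        ≤ ∫⁻ p in B, ∫⁻ q in B, (‖g k q - g k p‖ₑ + d q + d p) := by
          refine lintegral_mono fun p => lintegral_mono fun q => ?_
          rw [show ind E q - ind E p = (g k q - g k p) + -(g k q - ind E q) + (g k p - ind E p) by
            ring]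
          refine (enorm_add_le _ _).trans (add_le_add ((enorm_add_le _ _).trans_eq ?_) le_rfl)
          rw [enorm_neg]
      _ = (∫⁻ p in B, ∫⁻ q in B, ‖g k q - g k p‖ₑ) + volume B * (∫⁻ q in B, d q) +
            (∫⁻ p in B, d p) * volume B := by
          simp only [lintegral_add_right _ measurable_const, setLIntegral_const,
            lintegral_add_right _ hdm]
          rw [lintegral_add_right _ (hdm.mul_const _), lintegral_add_right _ measurable_const,
            lintegral_mul_const _ hdm, setLIntegral_const]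
          ring
      _ ≤ C * ENNReal.ofReal (a k) + volume B * ENNReal.ofReal (b k) +
            ENNReal.ofReal (b k) * volume B := by
          gcongr
          refine (poincare hL x₀ ρ).trans ?_
          rw [hC, mul_assoc]
          gcongr
      _ = _ := by ring
  have ht : Tendsto (fun k => C * ENNReal.ofReal (a k) + 2 * volume B * ENNReal.ofReal (b k))
      atTop (𝓝 0) := by
    have hBfin : volume B ≠ ⊤ := measure_ball_lt_top.ne
    have hCfin : C ≠ ⊤ := ENNReal.mul_ne_top measure_ball_lt_top.ne ENNReal.ofReal_ne_top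
    have h1 := ENNReal.Tendsto.const_mul (a := C)
      (ENNReal.tendsto_ofReal (hlim.const_mul 2)) (Or.inr hCfin)
    have h2 := ENNReal.Tendsto.const_mul (a := 2 * volume B) (ENNReal.tendsto_ofReal h.lim)
      (Or.inr (ENNReal.mul_ne_top (by norm_num) hBfin))
    simpa [ha, hb] using h1.add h2
  exact ge_of_tendsto' ht fun k => hlow.trans (hup k)

/-! ### Undoing one polarisation -/

theorem polSet_pair (hij : i ≠ j) (E : Set R3) (x : R3) :
    (x ∈ polSet (exch i j) E ∧ exch i j x ∈ polSet (exch i j) E ↔ x ∈ E ∧ exch i j x ∈ E) ∧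
      (x ∈ polSet (exch i j) E ∨ exch i j x ∈ polSet (exch i j) E ↔ x ∈ E ∨ exch i j x ∈ E) := by
  rcases lt_trichotomy (cubeWeight (exch i j x)) (cubeWeight x) with h | h | h
  · simp only [mem_polSet, (exch_refl i j).inv, if_pos h.le, if_neg (not_le.2 h)]
    tauto
  · have e : exch i j x = x := funext fun k => Symm.fix_exch hij (fun y => y k) x h
    simp [mem_polSet, e]
  · simp only [mem_polSet, (exch_refl i j).inv, if_neg (not_le.2 h), if_pos h.le]
    tauto

theorem logic_sym {A B P Q K : Prop} (p1 : P ∧ Q ↔ A ∧ B) (p2 : P ∨ Q ↔ A ∨ B) (h1 : P ↔ K)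
    (h2 : Q ↔ K) : A ↔ K := by
  by_cases K <;> simp_all

theorem logic_full {A B P Q K K' : Prop} (p1 : P ∧ Q ↔ A ∧ B) (p2 : P ∨ Q ↔ A ∨ B) (h1 : P ↔ K)
    (h2 : Q ↔ K') (d1 : K → ¬K' → A) (d2 : K' → ¬K → B) : A ↔ K := by
  by_cases K <;> by_cases K' <;> simp_all

theorem logic_null {A B P Q K K' : Prop} (p1 : P ∧ Q ↔ A ∧ B) (p2 : P ∨ Q ↔ A ∨ B) (h1 : P ↔ K)
    (h2 : Q ↔ K') (d1 : K → ¬K' → ¬A) (d2 : K' → ¬K → ¬B) : A ↔ K' := by
  by_cases K <;> by_cases K' <;> simp_all

/-- The exchanged set of coordinates. -/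
def swapS (i j : Fin 3) (s : Finset (Fin 3)) : Finset (Fin 3) :=
  s.map (Equiv.swap i j).toEmbedding

theorem rad_swapS (x : R3) : rad (swapS i j s) x = rad s (exch i j x) := by
  simp [rad, swapS, exch, Finset.sum_map]

theorem measurableEmbedding_exch (i j : Fin 3) : MeasurableEmbedding (exch i j) :=
  (MeasurableEquiv.mk ⟨exch i j, exch i j, (exch_refl i j).inv, (exch_refl i j).inv⟩
    (exch_refl i j).lip.continuous.measurable
    (exch_refl i j).lip.continuous.measurable).measurableEmbedding

theorem shape_swapS (hs : Shape V s R) (i j : Fin 3) : Shape V (swapS i j s) R where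
  nonempty := hs.nonempty.map
  pos := hs.pos
  lt_half := hs.lt_half
  area := by rw [hs.area, swapS, Finset.card_map]
  vol c := by
    have e : body (swapS i j s) R c ∩ cube = exch i j ⁻¹' (body s R (exch i j c) ∩ cube) := by
      rw [preimage_inter, Symm.exch_preimage_cube]
      ext x
      simp [body, swapS, exch, Finset.sum_map]
    rw [← hs.vol (exch i j c), e, Measure.real, Measure.real,
      (Symm.measurePreserving_exch i j).measure_preimage_emb (measurableEmbedding_exch i j)]

theorem ae_exch {p : R3 → Prop} (h : ∀ᵐ x ∂μc, p x) (i j : Fin 3) :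
    ∀ᵐ x ∂μc, p (exch i j x) := by
  have := (Symm.measurePreserving_exch i j).restrict_preimage Symm.measurableSet_cube
  rw [Symm.exch_preimage_cube] at this
  exact this.quasiMeasurePreserving.ae h

theorem ae_open_cube : ∀ᵐ x ∂μc, ∀ l, x l ∈ Ioo (0 : ℝ) 1 := by
  rw [μc, cube, volume_pi, ← Measure.restrict_congr_set
    (Measure.univ_pi_Ioo_ae_eq_Icc (μ := fun _ : Fin 3 => (volume : Measure ℝ)))]
  filter_upwards [ae_restrict_mem (MeasurableSet.univ_pi fun _ => measurableSet_Ioo)] with x hx
  exact fun l => hx l (mem_univ l)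

theorem convexOn_rad_aux {x y : R3} {a b : ℝ} (ha : 0 ≤ a) (hb : 0 ≤ b) (hab : a + b = 1) :
    rad s (a • x + b • y) ≤ a * rad s x + b * rad s y := by
  simp only [rad, Finset.mul_sum, ← Finset.sum_add_distrib]
  refine Finset.sum_le_sum fun l _ => ?_
  simp only [Pi.add_apply, Pi.smul_apply, smul_eq_mul]
  obtain rfl : b = 1 - a := by linarith
  nlinarith [mul_nonneg (mul_nonneg ha hb) (sq_nonneg (x l - y l))]

theorem ae_rad_ne {t : ℝ} (ht : 0 < t) : ∀ᵐ x : R3, rad s x ≠ t := by
  have hc : Convex ℝ {x : R3 | rad s x ≤ t} := fun x hx y hy a b ha hb hab =>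
    (convexOn_rad_aux ha hb hab).trans ((convex_Iic t) hx hy ha hb hab)
  rw [ae_iff]
  refine measure_mono_null (fun x hx => ?_) (hc.addHaar_frontier volume)
  simp only [not_not, mem_ofPred_eq] at hx
  refine ⟨subset_closure (show rad s x ≤ t from hx.le), fun hint => ?_⟩
  obtain ⟨δ, hδ, hsub⟩ := Metric.mem_nhds_iff.1 (mem_interior_iff_mem_nhds.1 hint)
  set a := δ / (‖x‖ + 1) / 2 with ha
  have ha0 : 0 < a := by positivity
  have hmem : (1 + a) • x ∈ Metric.ball x δ := by
    rw [Metric.mem_ball, dist_eq_norm, add_smul, one_smul, add_sub_cancel_left, norm_smul,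
      Real.norm_eq_abs, abs_of_pos ha0, ha, div_div, div_mul_eq_mul_div, div_lt_iff₀ (by positivity)]
    nlinarith [norm_nonneg x]
  have hle : rad s ((1 + a) • x) ≤ t := hsub hmem
  simp only [rad, Pi.smul_apply, smul_eq_mul, mul_pow, ← Finset.mul_sum] at hle hx
  rw [hx] at hle
  nlinarith [mul_pos ha0 ht]

/-- Where the body and its reflection differ. -/
def diffSet (σ : R3 → R3) (s : Finset (Fin 3)) (t : ℝ) : Set R3 :=
  {x | (∀ l, x l ∈ Ioo (0 : ℝ) 1) ∧ rad s x < t ∧ t < rad s (σ x)}

theorem isOpen_diffSet {σ : R3 → R3} (hσ : Continuous σ) (t : ℝ) : IsOpen (diffSet σ s t) := by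
  have hc := (contDiff_rad s).continuous
  refine IsOpen.inter ?_ (IsOpen.inter (isOpen_lt hc continuous_const)
    (isOpen_lt continuous_const (hc.comp hσ)))
  show IsOpen {x : R3 | ∀ l, x l ∈ Ioo (0 : ℝ) 1}
  simp only [ofPred_forall]
  exact isOpen_iInter_of_finite fun l => isOpen_Ioo.preimage (continuous_apply l)

theorem isPreconnected_diffSet {a b : Fin 3} (ha : a ∈ s) (hb : b ∉ s) {r : ℝ}
    (hr0 : 0 < r) (hr1 : r < 1) : IsPreconnected (diffSet (exch a b) s (r ^ 2)) := by
  have hu : ∀ (x : R3) (v : ℝ), rad s (update x b v) = rad s x := fun x v =>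
    Finset.sum_congr rfl fun l hl => by rw [update_of_ne (fun h : l = b => hb (h ▸ hl))]
  have hsplit : ∀ x : R3, rad s (exch a b x) = rad (s.erase a) x + x b ^ 2 := fun x => by
    rw [rad, ← Finset.sum_erase_add _ _ ha]
    refine congrArg₂ (· + ·) (Finset.sum_congr rfl fun l hl => ?_) (by simp [exch])
    obtain ⟨hla, hls⟩ := Finset.mem_erase.1 hl
    simp [exch, Equiv.swap_apply_of_ne_of_ne hla (fun h : l = b => hb (h ▸ hls))]
  set β := (1 + r) / 2 with hβ
  have hβmem : β ∈ Ioo (0 : ℝ) 1 := ⟨by linarith, by linarith⟩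
  have hβr : r ^ 2 < β ^ 2 := pow_lt_pow_left₀ (by linarith) hr0.le two_ne_zero
  set T : Set R3 := {x | (∀ l, x l ∈ Ioo (0 : ℝ) 1) ∧ x b = β ∧ rad s x < r ^ 2} with hT
  have hTsub : T ⊆ diffSet (exch a b) s (r ^ 2) := fun x hx => ⟨hx.1, hx.2.2, by
    rw [hsplit, hx.2.1]; linarith [rad_nonneg (s.erase a) x]⟩
  have hTconv : Convex ℝ T := by
    intro x hx y hy c d hc hd hcd
    refine ⟨fun l => (convex_Ioo (0 : ℝ) 1) (hx.1 l) (hy.1 l) hc hd hcd, ?_, ?_⟩
    · simp only [Pi.add_apply, Pi.smul_apply, smul_eq_mul, hx.2.1, hy.2.1, ← add_mul, hcd, one_mul]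
    · exact (convexOn_rad_aux hc hd hcd).trans_lt ((convex_Iio (r ^ 2)) hx.2.2 hy.2.2 hc hd hcd)
  set z : R3 := update (fun _ => r / 2) b β with hz
  have hzT : z ∈ T := by
    refine ⟨fun l => ?_, by simp [hz], ?_⟩
    · rcases eq_or_ne l b with rfl | hl
      · simpa [hz] using hβmem
      · simp only [hz, update_of_ne hl]; exact ⟨by linarith, by linarith⟩
    · rw [hu]
      calc rad s (fun _ => r / 2) = s.card * (r / 2) ^ 2 := by simp [rad]
        _ ≤ 3 * (r / 2) ^ 2 := mul_le_mul_of_nonneg_right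
            (by exact_mod_cast (Finset.card_le_univ s)) (sq_nonneg _)
        _ < r ^ 2 := by nlinarith
  refine isPreconnected_of_forall z fun x hx => ?_
  set x' := update x b β with hx'
  have hx'T : x' ∈ T := by
    refine ⟨fun l => ?_, by simp [hx'], by rw [hx', hu]; exact hx.2.1⟩
    rcases eq_or_ne l b with rfl | hl
    · simpa [hx'] using hβmem
    · simpa [hx', hl] using hx.1 l
  refine ⟨segment ℝ x x' ∪ segment ℝ x' z, union_subset ?_ ?_, Or.inr (right_mem_segment ..),
    Or.inl (left_mem_segment ..), ?_⟩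
  · rintro _ ⟨c, d, hc, hd, hcd, rfl⟩
    have e : c • x + d • x' = update x b (c * x b + d * β) := by
      ext l
      rcases eq_or_ne l b with rfl | hl
      · simp [hx']
      · simp [hx', hl, ← add_mul, hcd]
    have hv : c * x b + d * β ∈ Ioo (0 : ℝ) 1 := (convex_Ioo (0 : ℝ) 1) (hx.1 b) hβmem hc hd hcd
    rw [e]
    refine ⟨fun l => ?_, by rw [hu]; exact hx.2.1, ?_⟩
    · rcases eq_or_ne l b with rfl | hl
      · simpa using hv
      · simpa [hl] using hx.1 l
    · have he : rad (s.erase a) (update x b (c * x b + d * β)) = rad (s.erase a) x :=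
        Finset.sum_congr rfl fun l hl => by
          rw [update_of_ne (fun h : l = b => hb (h ▸ Finset.mem_of_mem_erase hl))]
      rw [hsplit, he, update_self]
      have h1 := hx.2.2
      rw [hsplit] at h1
      rcases le_total (x b) β with hle | hle
      · have : x b ≤ c * x b + d * β := by nlinarith
        nlinarith [(hx.1 b).1]
      · have : β ≤ c * x b + d * β := by nlinarith
        nlinarith [rad_nonneg (s.erase a) x]
  · exact (hTconv.segment_subset hx'T hzT).trans hTsub
  · exact IsPreconnected.union x' (right_mem_segment ..) (left_mem_segment ..)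
      (convex_segment x x').isPreconnected (convex_segment x' z).isPreconnected

/-- **One polarisation backwards.** -/
theorem undo (hij : i < j) (h : Approx V E g) (hs : Shape V s R)
    (hE : polSet (exch i j) E =ᵐ[μc] quad s R) :
    ∃ s', Shape V s' R ∧ E =ᵐ[μc] quad s' R := by
  set σ := exch i j with hσ
  set r := 2 * R with hr
  have hr0 : 0 < r := by linarith [hs.pos]
  have hr1 : r < 1 := by linarith [hs.lt_half]
  have hK := eventuallyEq_set.1 hE
  have hK' := ae_exch hK i j
  by_cases hcase : (i ∈ s ↔ j ∈ s)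
  · -- the body is symmetric
    have hsym : ∀ x, rad s (σ x) = rad s x := fun x => by
      rw [← rad_swapS]
      congr 1
      ext l
      simp only [swapS, Finset.mem_map_equiv, Equiv.symm_swap]
      rcases eq_or_ne l i with rfl | hi
      · rw [Equiv.swap_apply_left]; exact hcase.symm
      rcases eq_or_ne l j with rfl | hj
      · rw [Equiv.swap_apply_right]; exact hcase
      rw [Equiv.swap_apply_of_ne_of_ne hi hj]
    refine ⟨s, hs, eventuallyEq_set.2 ?_⟩
    filter_upwards [hK, hK'] with x h1 h2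
    have hp := polSet_pair hij.ne E x
    have e1 : x ∈ quad s R ↔ rad s x < r ^ 2 := Iff.rfl
    have e2 : σ x ∈ quad s R ↔ rad s x < r ^ 2 := by
      show rad s (σ x) < r ^ 2 ↔ _
      rw [hsym]
    exact (logic_sym hp.1 hp.2 (h1.trans e1) (h2.trans e2)).trans e1.symm
  · -- the body differs from its reflection
    obtain ⟨a, b, ha, hb, hsw⟩ : ∃ a b, a ∈ s ∧ b ∉ s ∧ σ = exch a b := by
      by_cases hi : i ∈ s
      · exact ⟨i, j, hi, fun hj => hcase (iff_of_true hi hj), rfl⟩
      · refine ⟨j, i, by_contra fun hj => hcase (iff_of_false hi hj), hi, ?_⟩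
        rw [hσ]; funext x; simp only [exch, Equiv.swap_comm]
    set D := diffSet σ s (r ^ 2) with hD
    have hDo : IsOpen D := isOpen_diffSet (exch_refl i j).lip.continuous _
    have hDc : IsPreconnected D := by rw [hD, hsw]; exact isPreconnected_diffSet ha hb hr0 hr1
    have hDcube : D ⊆ cube := fun x hx => ⟨fun l => (hx.1 l).1.le, fun l => (hx.1 l).2.le⟩
    set U0 := {x : R3 | ∃ ρ > 0, volume (Metric.ball x ρ ∩ E) = 0} with hU0
    set U1 := {x : R3 | ∃ ρ > 0, volume (Metric.ball x ρ \ E) = 0} with hU1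
    have hop : ∀ A : R3 → ℝ → Set R3,
        (∀ x y ρ ρ', Metric.ball y ρ' ⊆ Metric.ball x ρ → A y ρ' ⊆ A x ρ) →
        IsOpen {x : R3 | ∃ ρ > 0, volume (A x ρ) = 0} := fun A hA => by
      refine Metric.isOpen_iff.2 fun x ⟨ρ, hρ, h0⟩ => ⟨ρ, hρ, fun y hy => ⟨ρ - dist y x,
        sub_pos.2 (Metric.mem_ball.1 hy), measure_mono_null (hA x y ρ _ ?_) h0⟩⟩
      exact Metric.ball_subset_ball' (by linarith)
    have hcover : D ⊆ U0 ∪ U1 := fun x hx => by
      set m := min (r ^ 2 - rad s x) (rad s (σ x) - r ^ 2) / 2 with hm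
      have hm0 : 0 < m := half_pos (lt_min (sub_pos.2 hx.2.1) (sub_pos.2 hx.2.2))
      have hc := (contDiff_rad s).continuous
      have ho : IsOpen (D ∩ {y | rad s y < r ^ 2 - m} ∩ {y | r ^ 2 + m < rad s (σ y)}) :=
        (hDo.inter (isOpen_lt hc continuous_const)).inter
          (isOpen_lt continuous_const (hc.comp (exch_refl i j).lip.continuous))
      obtain ⟨ρ, hρ, hsub⟩ := Metric.isOpen_iff.1 ho x ⟨⟨hx, show rad s x < r ^ 2 - m by
        linarith [min_le_left (r ^ 2 - rad s x) (rad s (σ x) - r ^ 2)]⟩, show r ^ 2 + m < _ by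
        linarith [min_le_right (r ^ 2 - rad s x) (rad s (σ x) - r ^ 2)]⟩
      have hB : ∀ y ∈ Metric.ball x ρ, y ∈ cube ∧ y ∈ {y | m ≤ |rad s y - r ^ 2|} ∧
          σ y ∈ {y | m ≤ |rad s y - r ^ 2|} := fun y hy => by
        obtain ⟨⟨h1, (h2 : rad s y < r ^ 2 - m)⟩, (h3 : r ^ 2 + m < rad s (σ y))⟩ := hsub hy
        refine ⟨hDcube h1, ?_, ?_⟩
        · show m ≤ |rad s y - r ^ 2|
          rw [abs_of_neg (by linarith)]; linarith
        · show m ≤ |rad s (σ y) - r ^ 2|
          rw [abs_of_pos (by linarith)]; linarith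
      rcases null_or_full h hij (measurableSet_le measurable_const (hc.measurable.sub_const _).abs)
          (tendsto_grad_away hs (h.pol_step hij) hE hm0) hB with h0 | h1
      · exact Or.inl ⟨ρ, hρ, h0⟩
      · exact Or.inr ⟨ρ, hρ, h1⟩
    have hdisj : Disjoint U0 U1 := disjoint_left.2 fun x ⟨ρ, hρ, h0⟩ ⟨ρ', hρ', h1⟩ => by
      refine (Metric.measure_ball_pos volume x (lt_min hρ hρ')).ne'
        (measure_mono_null (fun y hy => ?_) (measure_union_null h0 h1))
      by_cases hyE : y ∈ E
      · exact Or.inl ⟨Metric.ball_subset_ball (min_le_left _ _) hy, hyE⟩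
      · exact Or.inr ⟨Metric.ball_subset_ball (min_le_right _ _) hy, hyE⟩
    have ho0 : IsOpen U0 := hop (fun x ρ => Metric.ball x ρ ∩ E) fun _ _ _ _ hs =>
      inter_subset_inter_left _ hs
    have ho1 : IsOpen U1 := hop (fun x ρ => Metric.ball x ρ \ E) fun _ _ _ _ hs =>
      sdiff_subset_sdiff_left hs
    have hconst : (∀ᵐ x ∂μc, x ∈ D → x ∉ E) ∨ (∀ᵐ x ∂μc, x ∈ D → x ∈ E) := by
      rcases hDc.subset_or_subset ho0 ho1 hdisj hcover with hsub | hsub
      · refine Or.inl (ae_restrict_of_ae ?_)
        have : volume (D ∩ E) = 0 := measure_null_of_locally_null _ fun x hx => by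
          obtain ⟨ρ, hρ, h0⟩ := hsub hx.1
          exact ⟨_, inter_mem_nhdsWithin _ (Metric.ball_mem_nhds x hρ),
            measure_mono_null (fun y hy => show y ∈ Metric.ball x ρ ∩ E from ⟨hy.2, hy.1.2⟩) h0⟩
        filter_upwards [compl_mem_ae_iff.2 this] with x hx hxD hxE
        exact hx ⟨hxD, hxE⟩
      · refine Or.inr (ae_restrict_of_ae ?_)
        have : volume (D \ E) = 0 := measure_null_of_locally_null _ fun x hx => by
          obtain ⟨ρ, hρ, h0⟩ := hsub hx.1
          exact ⟨_, inter_mem_nhdsWithin _ (Metric.ball_mem_nhds x hρ),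
            measure_mono_null (fun y hy => show y ∈ Metric.ball x ρ \ E from ⟨hy.2, hy.1.2⟩) h0⟩
        filter_upwards [compl_mem_ae_iff.2 this] with x hx hxD
        exact by_contra fun hxE => hx ⟨hxD, hxE⟩
    have hne : ∀ᵐ x ∂μc, rad s x ≠ r ^ 2 := ae_restrict_of_ae (ae_rad_ne (by positivity))
    have hne' := ae_exch hne i j
    have hin := ae_open_cube
    have hin' := ae_exch hin i j
    have hinv : ∀ x, σ (σ x) = x := (exch_refl i j).inv
    rcases hconst with hc | hc
    · refine ⟨swapS i j s, shape_swapS hs i j, eventuallyEq_set.2 ?_⟩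
      filter_upwards [hK, hK', hne, hne', hin, hin', hc, ae_exch hc i j]
        with x h1 h2 h3 h4 h5 h6 h7 h8
      have e1 : x ∈ quad s R ↔ rad s x < r ^ 2 := Iff.rfl
      have e2 : σ x ∈ quad s R ↔ rad s (σ x) < r ^ 2 := Iff.rfl
      have e3 : x ∈ quad (swapS i j s) R ↔ rad s (σ x) < r ^ 2 := by
        show rad (swapS i j s) x < r ^ 2 ↔ _
        rw [rad_swapS]
      have hp := polSet_pair hij.ne E x
      have d1 : rad s x < r ^ 2 → ¬rad s (σ x) < r ^ 2 → x ∉ E := fun u v =>
        h7 ⟨h5, u, lt_of_le_of_ne (not_lt.1 v) (Ne.symm h4)⟩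
      have d2 : rad s (σ x) < r ^ 2 → ¬rad s x < r ^ 2 → σ x ∉ E := fun u v =>
        h8 ⟨h6, u, by rw [hinv]; exact lt_of_le_of_ne (not_lt.1 v) (Ne.symm h3)⟩
      exact (logic_null hp.1 hp.2 (h1.trans e1) (h2.trans e2) d1 d2).trans e3.symm
    · refine ⟨s, hs, eventuallyEq_set.2 ?_⟩
      filter_upwards [hK, hK', hne, hne', hin, hin', hc, ae_exch hc i j]
        with x h1 h2 h3 h4 h5 h6 h7 h8
      have e1 : x ∈ quad s R ↔ rad s x < r ^ 2 := Iff.rfl
      have e2 : σ x ∈ quad s R ↔ rad s (σ x) < r ^ 2 := Iff.rfl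
      have hp := polSet_pair hij.ne E x
      have d1 : rad s x < r ^ 2 → ¬rad s (σ x) < r ^ 2 → x ∈ E := fun u v =>
        h7 ⟨h5, u, lt_of_le_of_ne (not_lt.1 v) (Ne.symm h4)⟩
      have d2 : rad s (σ x) < r ^ 2 → ¬rad s x < r ^ 2 → σ x ∈ E := fun u v =>
        h8 ⟨h6, u, by rw [hinv]; exact lt_of_le_of_ne (not_lt.1 v) (Ne.symm h3)⟩
      exact (logic_full hp.1 hp.2 (h1.trans e1) (h2.trans e2) d1 d2).trans e1.symm

end Polar

open Polar in
/-- The polarisations can be undone: sorted minimisers suffice in the cube. -/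
theorem stmtCube_of_stmtSorted (H : StmtSorted) : StmtCube := by
  intro V hV E ⟨hm, hvol, g, hL, hI, ha, hlim, hen⟩
  have h0 : Approx V E g := ⟨hm, hvol, hL, hI, fun k => (ha k).1, hlim, hen⟩
  have h1 := h0.pol_step (show (0 : Fin 3) < 1 by decide)
  have h2 := h1.pol_step (show (1 : Fin 3) < 2 by decide)
  have h3 := h2.pol_step (show (0 : Fin 3) < 1 by decide)
  have h4 := h3.pol_step (show (0 : Fin 3) < 2 by decide)
  obtain ⟨s, R, hs, he⟩ := H V hV _ ⟨h4.meas, h4.vol, _, h4.lip, h4.range,
    fun k => ⟨h4.anti k, cubeSorted_sort4 (g k)⟩, h4.lim, h4.energy⟩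
  obtain ⟨s3, hs3, he3⟩ := undo (by decide) h3 hs he
  obtain ⟨s2, hs2, he2⟩ := undo (by decide) h2 hs3 he3
  obtain ⟨s1, hs1, he1⟩ := undo (by decide) h1 hs2 he2
  obtain ⟨s0, hs0, he0⟩ := undo (by decide) h0 hs1 he1
  exact ⟨s0, R, hs0, he0⟩

end Vale.Agent.P232.Rigid
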