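import Vale.Agent.P232.Symm.CubeTools

/-!
# P232: fluxes in the cube and a Poincaré inequality for Lipschitz functions

Integration by parts across the cube against `C¹` fields tangent to its faces, and the estimate
`∫_B ∫_B |f q - f p| ≤ C ∫_B ‖∇f‖` on balls of the maximum norm.
-/

open MeasureTheory Set Filter Function
open scoped Topology NNReal ENNReal

namespace Vale.Agent.P232.Rigid.Polar

variable {f : R3 → ℝ} {L : ℝ≥0}

/-- The derivative along a line is the line derivative. -/
theorem deriv_line (f : R3 → ℝ) (p h : R3) (t : ℝ) :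
    deriv (fun s : ℝ => f (p + s • h)) t = lineDeriv ℝ f (p + t • h) h := by
  rw [lineDeriv]
  have e : (fun s : ℝ => f (p + t • h + s • h)) = fun s => (fun r : ℝ => f (p + r • h)) (t + s) := by
    funext s; simp only [add_smul, add_assoc]
  rw [e, deriv_comp_const_add (f := fun r : ℝ => f (p + r • h)), add_zero]

theorem lipschitzWith_line (hf : LipschitzWith L f) (p h : R3) :
    LipschitzWith (L * ‖h‖₊) fun s : ℝ => f (p + s • h) := by
  refine hf.comp (LipschitzWith.of_dist_le_mul fun s t => ?_)
  rw [dist_eq_norm, add_sub_add_left_eq_sub, ← sub_smul, norm_smul, coe_nnnorm, mul_comm,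
    dist_eq_norm]

/-- Integration by parts across the cube in one direction. -/
theorem integral_pd_mul_cube (hf : LipschitzWith L f) {ψ : R3 → ℝ} (hψ : ContDiff ℝ 1 ψ)
    (l : Fin 3) (hface : ∀ x ∈ cube, (x l = 0 ∨ x l = 1) → ψ x = 0) :
    ∫ x in cube, (pd f l x * ψ x + f x * fderiv ℝ ψ x (Pi.single l 1)) = 0 := by
  set e : R3 := Pi.single l 1 with he
  have hae : (fun x => pd f l x * ψ x + f x * fderiv ℝ ψ x e) =ᵐ[volume.restrict cube]
      fun x => lineDeriv ℝ f x e * ψ x + f x * fderiv ℝ ψ x e := by
    filter_upwards [ae_restrict_of_ae hf.ae_differentiableAt] with x hx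
    rw [pd, hx.lineDeriv_eq_fderiv]
  rw [integral_congr_ae hae]
  have hd : Continuous fun x => fderiv ℝ ψ x e :=
    (hψ.continuous_fderiv one_ne_zero).clm_apply continuous_const
  have hI : IntegrableOn (fun x => lineDeriv ℝ f x e * ψ x + f x * fderiv ℝ ψ x e) cube := by
    refine Integrable.add ?_
      ((hf.continuous.mul hd).continuousOn.integrableOn_compact Symm.isCompact_cube)
    exact (hψ.continuous.continuousOn.integrableOn_compact Symm.isCompact_cube).bdd_mul
      (measurable_lineDeriv hf.continuous).aestronglyMeasurable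
      (Eventually.of_forall fun x => norm_lineDeriv_le_of_lipschitz ℝ hf)
  refine (Symm.integral_congr_slices hI integrableOn_zero l fun y hy => ?_).trans
    (integral_zero _ _)
  set p : R3 := l.insertNth 0 y with hp
  have hγ : ∀ t : ℝ, (l.insertNth t y : R3) = p + t • e := fun t => by
    ext k
    refine Fin.succAboveCases l ?_ (fun m => ?_) k <;> simp [hp, he, Fin.succAbove_ne]
  have hzero : ∀ t : ℝ, t = 0 ∨ t = 1 → ψ (p + t • e) = 0 := fun t ht => by
    rw [← hγ]
    refine hface _ (Symm.insertNth_mem_cube.2 ⟨?_, hy⟩) (by simpa using ht)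
    rcases ht with rfl | rfl <;> simp
  have hc : ∀ t : ℝ, deriv (fun s : ℝ => ψ (p + s • e)) t = fderiv ℝ ψ (p + t • e) e := fun t => by
    rw [deriv_line, ((hψ.differentiable one_ne_zero) _).lineDeriv_eq_fderiv]
  have key := AbsolutelyContinuousOnInterval.integral_deriv_mul_eq_sub (a := 0) (b := 1)
    (lipschitzWith_line hf p e).lipschitzOnWith.absolutelyContinuousOnInterval
    (hψ.comp (by fun_prop : ContDiff ℝ 1 fun s : ℝ => p + s • e)).contDiffOn.absolutelyContinuousOnInterval
  simp only [comp_def] at key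
  rw [hzero 1 (Or.inr rfl), hzero 0 (Or.inl rfl)] at key
  simp only [deriv_line f, hc, mul_zero, sub_zero] at key
  simp only [hγ, integral_zero]
  rw [integral_Icc_eq_integral_Ioc, ← intervalIntegral.integral_of_le zero_le_one]
  exact key

/-- The flux through `f` of a field tangent to the faces and vanishing on `S`, plus the gradient
over `S`, is at most the total gradient. -/
theorem flux_le (hf : LipschitzWith L f) {φ : R3 → R3} (hc : ContDiff ℝ 1 φ)
    (hface : ∀ x ∈ cube, ∀ l, (x l = 0 ∨ x l = 1) → φ x l = 0)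
    (hb : ∀ x ∈ cube, ∑ l, φ x l ^ 2 ≤ 1) {S : Set R3} (hS : MeasurableSet S)
    (hz : ∀ x ∈ cube, x ∈ S → φ x = 0) :
    (∫ x in cube, S.indicator (gradNorm f) x) + ∫ x in cube, f x * divg φ x ≤
      ∫ x in cube, gradNorm f x := by
  have hcl : ∀ l, ContDiff ℝ 1 fun x => φ x l := fun l => contDiff_pi.1 hc l
  have hd : ∀ l x, fderiv ℝ φ x (Pi.single l 1) l = fderiv ℝ (fun y => φ y l) x (Pi.single l 1) :=
    fun l x => by rw [fderiv_apply ((hc.differentiable one_ne_zero) x)]; rfl
  have hI1 : ∀ l, IntegrableOn (fun x => pd f l x * φ x l) cube := fun l =>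
    ((hcl l).continuous.continuousOn.integrableOn_compact Symm.isCompact_cube).bdd_mul
      (Symm.measurable_pd f l).aestronglyMeasurable (Eventually.of_forall (Symm.abs_pd_le hf l))
  have hI2 : ∀ l, IntegrableOn (fun x => f x * fderiv ℝ (fun y => φ y l) x (Pi.single l 1)) cube :=
    fun l => (hf.continuous.mul (((hcl l).continuous_fderiv one_ne_zero).clm_apply
      continuous_const)).continuousOn.integrableOn_compact Symm.isCompact_cube
  have e : ∫ x in cube, f x * divg φ x = ∫ x in cube, -∑ l, pd f l x * φ x l := by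
    simp only [divg, Finset.mul_sum, hd]
    rw [integral_neg, integral_finsetSum _ fun l _ => hI1 l,
      integral_finsetSum _ fun l _ => hI2 l, ← Finset.sum_neg_distrib]
    refine Finset.sum_congr rfl fun l _ => ?_
    have := integral_pd_mul_cube hf (hcl l) l fun x hx h => hface x hx l h
    rw [integral_add (hI1 l) (hI2 l)] at this
    linarith
  have hIS : IntegrableOn (S.indicator (gradNorm f)) cube := (Symm.integrableOn_gradNorm hf).indicator hS
  have hIs : IntegrableOn (fun x => -∑ l, pd f l x * φ x l) cube :=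
    (integrable_finsetSum _ fun l _ => hI1 l).neg
  rw [e, ← integral_add hIS hIs]
  refine setIntegral_mono_on (hIS.add hIs) (Symm.integrableOn_gradNorm hf) Symm.measurableSet_cube
    fun x hx => ?_
  by_cases h : x ∈ S
  · simp [indicator_of_mem h, hz x hx h]
  · rw [indicator_of_notMem h, zero_add, ← Finset.sum_neg_distrib]
    simp only [← mul_neg]
    refine (Real.sum_mul_le_sqrt_mul_sqrt _ _ _).trans
      (mul_le_of_le_one_right (Real.sqrt_nonneg _) (Real.sqrt_le_one.2 ?_))
    simpa using hb x hx

theorem abs_fderiv_apply_le (f : R3 → ℝ) (y h : R3) :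
    |fderiv ℝ f y h| ≤ 3 * ‖h‖ * gradNorm f y := by
  have e : fderiv ℝ f y h = ∑ l, h l * pd f l y := by
    conv_lhs => rw [show h = ∑ l, h l • (Pi.single l 1 : R3) by
      ext k; simp [Finset.sum_apply, Pi.single_apply]]
    simp only [map_sum, map_smul, smul_eq_mul, pd]
  rw [e]
  refine (Finset.abs_sum_le_sum_abs _ _).trans ((Finset.sum_le_card_nsmul _ _
    (‖h‖ * gradNorm f y) fun l _ => ?_).trans_eq (by simp; ring))
  rw [abs_mul]
  refine mul_le_mul ?_ (Real.abs_le_sqrt ?_) (abs_nonneg _) (norm_nonneg _)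
  · exact norm_le_pi_norm h l
  · exact Finset.single_le_sum (f := fun j => pd f j y ^ 2) (fun j _ => sq_nonneg _)
      (Finset.mem_univ l)

/-- Poincaré on a ball: the mean oscillation is controlled by the gradient on the ball. -/
theorem poincare (hf : LipschitzWith L f) (x₀ : R3) (ρ : ℝ) :
    ∫⁻ p in Metric.ball x₀ ρ, ∫⁻ q in Metric.ball x₀ ρ, ‖f q - f p‖ₑ ≤
      volume (Metric.ball (0 : R3) (2 * ρ)) * (ENNReal.ofReal (6 * ρ) *
        ∫⁻ y in Metric.ball x₀ ρ, ENNReal.ofReal (gradNorm f y)) := by
  set B := Metric.ball x₀ ρ with hBdef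
  have hB : MeasurableSet B := measurableSet_ball
  have hfm := hf.continuous.measurable
  set H := Metric.ball (0 : R3) (2 * ρ) with hH
  set F : R3 → R3 → ℝ≥0∞ := fun p h => B.indicator 1 p * (B.indicator 1 (p + h) * ‖f (p + h) - f p‖ₑ)
    with hF
  have hFm : Measurable (uncurry F) := by
    simp only [hF, uncurry_def]
    refine Measurable.mul ((measurable_const.indicator hB).comp measurable_fst) (Measurable.mul ?_ ?_)
    · exact (measurable_const.indicator hB).comp (measurable_fst.add measurable_snd)
    · exact ((hfm.comp (measurable_fst.add measurable_snd)).sub (hfm.comp measurable_fst)).enorm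
  have e1 : ∫⁻ p in B, ∫⁻ q in B, ‖f q - f p‖ₑ = ∫⁻ h, ∫⁻ p, F p h := by
    rw [← lintegral_lintegral_swap hFm.aemeasurable, ← lintegral_indicator hB]
    refine lintegral_congr fun p => ?_
    by_cases hp : p ∈ B
    · simp only [hF, indicator_of_mem hp, Pi.one_apply, one_mul]
      rw [lintegral_add_left_eq_self (fun q => B.indicator 1 q * ‖f q - f p‖ₑ) p,
        ← lintegral_indicator hB]
      refine lintegral_congr fun q => ?_
      by_cases hq : q ∈ B <;> simp [hq]
    · simp [hF, hp]
  rw [e1, mul_comm (volume H), ← setLIntegral_const]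
  rw [← lintegral_indicator measurableSet_ball]
  refine lintegral_mono fun h => ?_
  by_cases hh : h ∈ H
  swap
  · rw [indicator_of_notMem hh]
    refine le_of_eq ?_
    refine (lintegral_congr fun p => ?_).trans lintegral_zero
    by_cases hp : p ∈ B
    · have : p + h ∉ B := fun hq => hh (by
        rw [hH, Metric.mem_ball, dist_zero_right]
        have h1 := dist_triangle_right (p + h) p x₀
        rw [dist_eq_norm, add_sub_cancel_left] at h1
        linarith [Metric.mem_ball.1 hp, Metric.mem_ball.1 hq])
      simp [hF, this]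
    · simp [hF, hp]
  rw [indicator_of_mem hh]
  set D : R3 → ℝ≥0∞ := B.indicator fun y => ‖lineDeriv ℝ f y h‖ₑ with hD
  have hDm : Measurable D := (measurable_lineDeriv hf.continuous).enorm.indicator hB
  have key : ∀ p, F p h ≤ ∫⁻ t in Icc (0 : ℝ) 1, D (p + t • h) := by
    intro p
    by_cases hp : p ∈ B
    swap; · simp [hF, hp]
    by_cases hq : p + h ∈ B
    swap; · simp [hF, hq]
    simp only [hF, indicator_of_mem hp, indicator_of_mem hq, Pi.one_apply, one_mul]
    have h1 := AbsolutelyContinuousOnInterval.integral_deriv_eq_sub (a := 0) (b := 1)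
      (lipschitzWith_line hf p h).lipschitzOnWith.absolutelyContinuousOnInterval
    simp only [one_smul, zero_smul, add_zero, deriv_line] at h1
    rw [← h1, intervalIntegral.integral_of_le zero_le_one, ← integral_Icc_eq_integral_Ioc]
    refine (enorm_integral_le_lintegral_enorm _).trans (setLIntegral_mono
      (hDm.comp (by fun_prop : Measurable fun t : ℝ => p + t • h)) fun t ht => ?_)
    have hm : p + t • h ∈ B := (convex_ball x₀ ρ).add_smul_mem hp hq ht
    rw [hD, indicator_of_mem hm]
  calc ∫⁻ p, F p h ≤ ∫⁻ p, ∫⁻ t in Icc (0 : ℝ) 1, D (p + t • h) := lintegral_mono key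
    _ = ∫⁻ t in Icc (0 : ℝ) 1, ∫⁻ p, D (p + t • h) :=
        lintegral_lintegral_swap (hDm.comp (by fun_prop :
          Measurable fun z : R3 × ℝ => z.1 + z.2 • h)).aemeasurable
    _ = ∫⁻ y in B, ‖lineDeriv ℝ f y h‖ₑ := by
        simp only [lintegral_add_right_eq_self D, setLIntegral_const, Real.volume_Icc, sub_zero,
          ENNReal.ofReal_one, mul_one]
        rw [hD, lintegral_indicator hB]
    _ ≤ ∫⁻ y in B, ENNReal.ofReal (6 * ρ) * ENNReal.ofReal (gradNorm f y) := by
        refine lintegral_mono_ae ?_
        filter_upwards [ae_restrict_of_ae hf.ae_differentiableAt] with y hy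
        rw [Real.enorm_eq_ofReal_abs, hy.lineDeriv_eq_fderiv,
          ← ENNReal.ofReal_mul' (Symm.gradNorm_nonneg f y)]
        refine ENNReal.ofReal_le_ofReal ((abs_fderiv_apply_le f y h).trans
          (mul_le_mul_of_nonneg_right ?_ (Symm.gradNorm_nonneg f y)))
        have := mem_ball_zero_iff.1 hh
        linarith
    _ = _ := lintegral_const_mul _ (Symm.measurable_gradNorm f).ennreal_ofReal

end Vale.Agent.P232.Rigid.Polar
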