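import Vale.Agent.P232.Rigid.PolarSort
import Vale.Agent.P232.Rigid.PolarFlux

/-!
# P232: the cut-off radial field of a centred body

The radial field about a subtorus, cut off near the free boundary of a ball, tube or slab, shows
that the gradient of the approximants of such a minimiser vanishes away from that boundary.
-/

open MeasureTheory Set Filter Function
open scoped Topology NNReal ENNReal

namespace Vale.Agent.P232.Rigid.Polar

variable {V R : ℝ} {E : Set R3} {g : ℕ → R3 → ℝ} {s : Finset (Fin 3)}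

/-- Lebesgue measure on the cube. -/
noncomputable abbrev μc : Measure R3 := volume.restrict cube

/-- The squared distance to the subtorus. -/
def rad (s : Finset (Fin 3)) (x : R3) : ℝ := ∑ l ∈ s, x l ^ 2

theorem rad_nonneg (s : Finset (Fin 3)) (x : R3) : 0 ≤ rad s x :=
  Finset.sum_nonneg fun _ _ => sq_nonneg _

theorem contDiff_rad (s : Finset (Fin 3)) : ContDiff ℝ 1 (rad s) :=
  ContDiff.sum fun l _ => (contDiff_apply ℝ ℝ l).pow 2

/-- A radial field about the subtorus. -/
def fld (s : Finset (Fin 3)) (Φ : ℝ → ℝ) (x : R3) : R3 :=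
  fun l => if l ∈ s then x l * Φ (rad s x) else 0

theorem contDiff_fld {Φ : ℝ → ℝ} (hΦ : ContDiff ℝ 1 Φ) : ContDiff ℝ 1 (fld s Φ) := by
  refine contDiff_pi.2 fun l => ?_
  by_cases hl : l ∈ s
  · simp only [fld, if_pos hl]
    exact (contDiff_apply ℝ ℝ l).mul (hΦ.comp (contDiff_rad s))
  · simp only [fld, if_neg hl]
    exact contDiff_const

theorem continuous_divg_fld {Φ : ℝ → ℝ} (hΦ : ContDiff ℝ 1 Φ) : Continuous (divg (fld s Φ)) :=
  continuous_finsetSum _ fun l _ => (continuous_apply l).comp
    (((contDiff_fld hΦ).continuous_fderiv one_ne_zero).clm_apply continuous_const)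

theorem fderiv_fld_apply {Φ : ℝ → ℝ} (hΦ : ContDiff ℝ 1 Φ) (l : Fin 3) (x : R3) :
    fderiv ℝ (fld s Φ) x (Pi.single l 1) l =
      fderiv ℝ (fun y => fld s Φ y l) x (Pi.single l 1) := by
  rw [fderiv_apply (((contDiff_fld hΦ).differentiable one_ne_zero) x)]; rfl

theorem divg_fld {Φ : ℝ → ℝ} (hΦ : ContDiff ℝ 1 Φ) (x : R3) :
    divg (fld s Φ) x = s.card * Φ (rad s x) + 2 * rad s x * deriv Φ (rad s x) := by
  have hu : HasFDerivAt (rad s)
      (∑ l ∈ s, (2 * x l) • ContinuousLinearMap.proj (R := ℝ) (φ := fun _ : Fin 3 => ℝ) l) x := by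
    refine HasFDerivAt.fun_sum fun l _ => ?_
    have := (hasFDerivAt_apply (𝕜 := ℝ) l x).pow 2
    simpa using this
  have hΦu := ((hΦ.differentiable one_ne_zero) (rad s x)).hasDerivAt.comp_hasFDerivAt x hu
  have hterm : ∀ l, fderiv ℝ (fld s Φ) x (Pi.single l 1) l =
      if l ∈ s then Φ (rad s x) + 2 * x l ^ 2 * deriv Φ (rad s x) else 0 := fun l => by
    rw [fderiv_fld_apply hΦ]
    by_cases hl : l ∈ s
    · simp only [fld, if_pos hl]
      have hm := (hasFDerivAt_apply (𝕜 := ℝ) l x).mul hΦu
      rw [show (fun y : R3 => y l * Φ (rad s y)) = (fun y => y l) * (Φ ∘ rad s) from rfl, hm.fderiv]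
      simp [Pi.single_apply, hl, comp_apply]
      ring
    · simp [fld, hl]
  simp only [divg, hterm]
  rw [← Finset.sum_filter, Finset.filter_mem_eq_inter, Finset.univ_inter, Finset.sum_add_distrib,
    Finset.sum_const, nsmul_eq_mul, rad, Finset.mul_sum, Finset.sum_mul]

theorem fld_face {Φ : ℝ → ℝ} (hΦ : ∀ t, 1 ≤ t → Φ t = 0) (x : R3) (l : Fin 3)
    (hx : x l = 0 ∨ x l = 1) : fld s Φ x l = 0 := by
  unfold fld; split_ifs with hl
  · rcases hx with h | h
    · rw [h, zero_mul]
    · rw [hΦ _ ?_, mul_zero]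
      calc (1 : ℝ) = x l ^ 2 := by rw [h, one_pow]
        _ ≤ rad s x := Finset.single_le_sum (fun m _ => sq_nonneg (x m)) hl
  · rfl

theorem integral_divg_fld {Φ : ℝ → ℝ} (hΦ : ContDiff ℝ 1 Φ) (h1 : ∀ t, 1 ≤ t → Φ t = 0) :
    ∫ x in cube, divg (fld s Φ) x = 0 := by
  have hcl : ∀ l, ContDiff ℝ 1 fun x => fld s Φ x l := fun l => contDiff_pi.1 (contDiff_fld hΦ) l
  simp only [divg, fderiv_fld_apply hΦ]
  rw [integral_finsetSum _ fun l _ => (((hcl l).continuous_fderiv one_ne_zero).clm_apply
    continuous_const).continuousOn.integrableOn_compact Symm.isCompact_cube]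
  refine Finset.sum_eq_zero fun l _ => ?_
  have := integral_pd_mul_cube (LipschitzWith.const (1 : ℝ)) (hcl l) l
    fun x _ h => fld_face h1 x l h
  simpa [pd] using this

/-- The gradient of the approximants vanishes away from the free boundary of the body. -/
theorem tendsto_grad_away (hs : Shape V s R) (hp : Approx V E g) (hE : E =ᵐ[μc] quad s R)
    {m : ℝ} (hm : 0 < m) :
    Tendsto (fun k => ∫ x in cube,
      {x | m ≤ |rad s x - (2 * R) ^ 2|}.indicator (gradNorm (g k)) x) atTop (𝓝 0) := by
  set r := 2 * R with hr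
  have hr0 : 0 < r := by linarith [hs.pos]
  have hr1 : r ^ 2 < 1 := by nlinarith [hs.lt_half, hs.pos]
  have hcand : cubeCandidate V = s.card * V / r := by
    rw [cubeCandidate, hs.area, hr, div_div, mul_comm R 2]
  have hV0 : 0 ≤ V := hp.vol ▸ measureReal_nonneg
  rw [Metric.tendsto_nhds]
  intro ε hε
  set θ := ε / (3 * (cubeCandidate V + ε + 1)) with hθ
  have hc0 : 0 ≤ cubeCandidate V := by rw [hcand]; positivity
  have hθ0 : 0 < θ := by positivity
  have hθ1 : θ < 1 := by rw [hθ, div_lt_one (by positivity)]; linarith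
  have hθc : θ * cubeCandidate V < ε / 3 := by
    rw [hθ, div_mul_eq_mul_div, div_lt_div_iff₀ (by positivity) (by norm_num)]
    nlinarith
  set κ := (1 - θ) / r with hκ
  have hκ0 : 0 < κ := div_pos (by linarith) hr0
  have hκr : κ ^ 2 * r ^ 2 < 1 := by
    rw [← mul_pow, hκ, div_mul_cancel₀ _ hr0.ne']; nlinarith
  set e := min (min m (r ^ 2 / 2)) (min (1 - r ^ 2) ((1 - κ ^ 2 * r ^ 2) / κ ^ 2)) with he
  have he0 : 0 < e := lt_min (lt_min hm (by positivity))
    (lt_min (by linarith) (div_pos (by linarith) (by positivity)))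
  have hem : e ≤ m := (min_le_left _ _).trans (min_le_left _ _)
  have he1 : e ≤ 1 - r ^ 2 := (min_le_right _ _).trans (min_le_left _ _)
  have heκ : κ ^ 2 * (r ^ 2 + e) ≤ 1 := by
    have h : e ≤ (1 - κ ^ 2 * r ^ 2) / κ ^ 2 := (min_le_right _ _).trans (min_le_right _ _)
    rw [le_div_iff₀ (by positivity)] at h
    linarith
  let ξ : ContDiffBump (r ^ 2) := ⟨e / 2, e, by linarith, by linarith⟩
  set Φ : ℝ → ℝ := fun t => κ * ξ t with hΦdef
  have hΦ : ContDiff ℝ 1 Φ := contDiff_const.mul ξ.contDiff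
  have hzero : ∀ t, e ≤ |t - r ^ 2| → Φ t = 0 := fun t ht => by
    rw [hΦdef]; dsimp only; rw [ξ.zero_of_le_dist (by rwa [Real.dist_eq]), mul_zero]
  have hΦ1 : ∀ t, 1 ≤ t → Φ t = 0 := fun t ht =>
    hzero t (le_trans (by linarith) (le_abs_self _))
  set S := {x : R3 | m ≤ |rad s x - r ^ 2|} with hS
  have hSm : MeasurableSet S :=
    measurableSet_le measurable_const ((contDiff_rad s).continuous.measurable.sub_const _).abs
  have hb : ∀ x ∈ cube, ∑ l, fld s Φ x l ^ 2 ≤ 1 := fun x _ => by
    simp only [fld, ite_pow, ne_eq, OfNat.ofNat_ne_zero, not_false_eq_true, zero_pow, mul_pow]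
    rw [← Finset.sum_filter, Finset.filter_mem_eq_inter, Finset.univ_inter, ← Finset.sum_mul]
    change rad s x * Φ (rad s x) ^ 2 ≤ 1
    by_cases h : e ≤ |rad s x - r ^ 2|
    · rw [hzero _ h]; simp
    · refine le_trans ?_ heκ
      rw [hΦdef, mul_comm (κ ^ 2)]
      refine mul_le_mul (by linarith [(abs_lt.1 (not_le.1 h)).2]) ?_ (sq_nonneg _) (by positivity)
      rw [mul_pow]
      exact mul_le_of_le_one_right (sq_nonneg κ)
        (by nlinarith [ξ.nonneg (x := rad s x), ξ.le_one (x := rad s x)])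
  have hflux : ∫ x in E ∩ cube, divg (fld s Φ) x = κ * (s.card * V) := by
    set ζ : ℝ → ℝ := fun t => if t < r ^ 2 then ξ t - 1 else 0 with hζdef
    have hnear : ∀ t, |t - r ^ 2| < e / 2 → ζ t = 0 := fun t ht => by
      rw [hζdef]; dsimp only; split_ifs
      · rw [ξ.one_of_mem_closedBall (by rw [Metric.mem_closedBall, Real.dist_eq]; exact ht.le), sub_self]
      · rfl
    have hζloc : ∀ t, (t < r ^ 2 → ζ =ᶠ[𝓝 t] fun u => ξ u - 1) ∧
        (r ^ 2 ≤ t → ζ =ᶠ[𝓝 t] fun _ => 0) := fun t => by
      refine ⟨fun ht => ?_, fun ht => ?_⟩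
      · filter_upwards [gt_mem_nhds ht] with u hu using if_pos hu
      · filter_upwards [Metric.ball_mem_nhds t (by linarith : (0 : ℝ) < e / 2)] with u hu
        rcases lt_or_ge u (r ^ 2) with hu' | hu'
        · refine hnear u ?_
          rw [Metric.mem_ball, Real.dist_eq] at hu
          rw [abs_of_neg (by linarith)]
          linarith [(abs_lt.1 hu).1]
        · exact if_neg (not_lt.2 hu')
    have hζ : ContDiff ℝ 1 ζ := contDiff_iff_contDiffAt.2 fun t => by
      rcases lt_or_ge t (r ^ 2) with ht | ht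
      · exact (ξ.contDiff.sub contDiff_const).contDiffAt.congr_of_eventuallyEq ((hζloc t).1 ht)
      · exact contDiffAt_const.congr_of_eventuallyEq ((hζloc t).2 ht)
    have hζ1 : ∀ t, 1 ≤ t → ζ t = 0 := fun t ht => if_neg (by linarith)
    have hK : MeasurableSet {x : R3 | rad s x < r ^ 2} :=
      measurableSet_lt (contDiff_rad s).continuous.measurable measurable_const
    have hEK : (E ∩ cube : Set R3) =ᵐ[volume] ({x : R3 | rad s x < r ^ 2} ∩ cube : Set R3) := by
      have h := eventuallyEq_set.1 hE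
      rw [μc, ae_restrict_iff' Symm.measurableSet_cube] at h
      refine eventuallyEq_set.2 ?_
      filter_upwards [h] with x hx
      exact and_congr_left fun hc => hx hc
    have hpt : ∀ x, {x : R3 | rad s x < r ^ 2}.indicator (divg (fld s Φ)) x =
        κ * (divg (fld s ζ) x + {x : R3 | rad s x < r ^ 2}.indicator (fun _ => (s.card : ℝ)) x) := by
      intro x
      have hd : deriv Φ (rad s x) = κ * deriv ξ (rad s x) := deriv_const_mul_field κ
      by_cases hx : rad s x < r ^ 2
      · rw [indicator_of_mem (show x ∈ {x : R3 | rad s x < r ^ 2} from hx),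
          indicator_of_mem (show x ∈ {x : R3 | rad s x < r ^ 2} from hx),
          divg_fld hΦ, divg_fld hζ, ((hζloc _).1 hx).deriv_eq, deriv_sub_const, hd]
        simp only [hΦdef, hζdef, if_pos hx]
        ring
      · rw [indicator_of_notMem (show x ∉ {x : R3 | rad s x < r ^ 2} from hx),
          indicator_of_notMem (show x ∉ {x : R3 | rad s x < r ^ 2} from hx),
          divg_fld hζ, ((hζloc _).2 (not_lt.1 hx)).deriv_eq, deriv_const]
        simp only [hζdef, if_neg hx]
        ring
    rw [setIntegral_congr_set hEK, inter_comm, ← setIntegral_indicator hK]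
    simp only [hpt]
    rw [integral_const_mul, integral_add ?_ ?_, integral_divg_fld hζ hζ1, setIntegral_indicator hK,
      setIntegral_const, smul_eq_mul, zero_add, inter_comm]
    · rw [show volume.real ({x : R3 | rad s x < r ^ 2} ∩ cube) = V from
        (congrArg ENNReal.toReal (measure_congr hEK.symm)).trans hp.vol]
      ring
    · exact (continuous_divg_fld hζ).continuousOn.integrableOn_compact Symm.isCompact_cube
    · exact Symm.integrableOn_cube (measurable_const.indicator hK) (C := s.card) fun x => by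
        by_cases hx : rad s x < r ^ 2 <;> simp [indicator, hx]
  have hlim := hp.tendsto_mul (continuous_divg_fld (s := s) hΦ)
  rw [hflux] at hlim
  filter_upwards [hp.energy (ε / 3) (by linarith),
    hlim.eventually (lt_mem_nhds (show κ * (s.card * V) - ε / 3 < κ * (s.card * V) by linarith))]
    with k hk1 hk2
  obtain ⟨L, hL⟩ := hp.lip k
  have hfl := flux_le hL (contDiff_fld hΦ) (fun x _ l h => fld_face hΦ1 x l h) hb hSm
    fun x _ hx => funext fun l => by
      simp only [fld, hzero _ (hem.trans hx), mul_zero, ite_self, Pi.zero_apply]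
  have h0 : 0 ≤ ∫ x in cube, S.indicator (gradNorm (g k)) x :=
    integral_nonneg fun x => indicator_nonneg (fun y _ => Symm.gradNorm_nonneg _ y) x
  have hk : κ * (s.card * V) = (1 - θ) * cubeCandidate V := by rw [hcand, hκ]; ring
  rw [Real.dist_eq, sub_zero, abs_of_nonneg h0]
  linarith

end Vale.Agent.P232.Rigid.Polar
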