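import Vale.Agent.P232.Rigid.Defs
import Vale.Agent.P232.Symm.FromSorted

/-!
# P232: polarised approximants of relative minimisers; four polarisations sort

A polarisation of the approximants of a relative minimiser in the cube approximates the polarised
set, and four polarisations sort the values of a coordinatewise nonincreasing function on each
orbit of the permutations of the coordinates.
-/

open MeasureTheory Set Filter Function
open scoped Topology NNReal ENNReal

namespace Vale.Agent.P232.Rigid.Polar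

open Symm (exch exch_refl cubeWeight pol)

/-- Approximants of a relative minimiser. -/
structure Approx (V : ℝ) (E : Set R3) (g : ℕ → R3 → ℝ) : Prop where
  meas : MeasurableSet E
  vol : volume.real (E ∩ cube) = V
  lip : ∀ k, ∃ L : ℝ≥0, LipschitzWith L (g k)
  range : ∀ k x, g k x ∈ Icc (0 : ℝ) 1
  anti : ∀ k, CubeAntitone (g k)
  lim : Tendsto (fun k => ∫ x in cube, |g k x - ind E x|) atTop (𝓝 0)
  energy : ∀ ε > 0, ∀ᶠ k in atTop, ∫ x in cube, gradNorm (g k) x ≤ cubeCandidate V + ε

variable {V : ℝ} {E : Set R3} {g : ℕ → R3 → ℝ} {i j : Fin 3}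

theorem measurable_ind (hE : MeasurableSet E) : Measurable (ind E) := measurable_const.indicator hE

theorem ind_mem (E : Set R3) (x : R3) : ind E x ∈ Icc (0 : ℝ) 1 := by
  classical
  rw [ind, indicator_apply]; split_ifs <;> simp

theorem Approx.continuous (h : Approx V E g) (k : ℕ) : Continuous (g k) :=
  let ⟨_, hL⟩ := h.lip k; hL.continuous

theorem integrableOn_abs_sub {f : R3 → ℝ} (hf : Measurable f) (hI : ∀ x, f x ∈ Icc (0 : ℝ) 1)
    (hE : MeasurableSet E) : IntegrableOn (fun x => |f x - ind E x|) cube :=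
  Symm.integrableOn_cube ((hf.sub (measurable_ind hE)).abs) (C := 1) fun x => by
    rw [abs_abs, abs_le]
    constructor <;> linarith [(hI x).1, (hI x).2, (ind_mem E x).1, (ind_mem E x).2]

theorem Approx.integrableOn_sub (h : Approx V E g) (k : ℕ) :
    IntegrableOn (fun x => |g k x - ind E x|) cube :=
  integrableOn_abs_sub (h.continuous k).measurable (h.range k) h.meas

/-- Integrals against continuous functions converge. -/
theorem Approx.tendsto_mul (h : Approx V E g) {D : R3 → ℝ} (hD : Continuous D) :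
    Tendsto (fun k => ∫ x in cube, g k x * D x) atTop (𝓝 (∫ x in E ∩ cube, D x)) := by
  obtain ⟨C, hC⟩ := Symm.isCompact_cube.exists_bound_of_continuousOn hD.continuousOn
  have e : ∫ x in E ∩ cube, D x = ∫ x in cube, ind E x * D x := by
    rw [inter_comm, ← setIntegral_indicator h.meas]
    refine setIntegral_congr_fun Symm.measurableSet_cube fun x _ => ?_
    by_cases hx : x ∈ E <;> simp [ind, hx]
  have hi : IntegrableOn (fun x => ind E x * D x) cube :=
    (hD.continuousOn.integrableOn_compact Symm.isCompact_cube).bdd_mul (c := 1)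
      (measurable_ind h.meas).aestronglyMeasurable
      (Eventually.of_forall fun x => by
        rw [Real.norm_eq_abs, abs_of_nonneg (ind_mem E x).1]; exact (ind_mem E x).2)
  rw [e, tendsto_iff_norm_sub_tendsto_zero]
  refine squeeze_zero (fun _ => norm_nonneg _) (fun k => ?_) (by simpa using h.lim.mul_const C)
  have hgi : IntegrableOn (fun x => g k x * D x) cube :=
    ((h.continuous k).mul hD).continuousOn.integrableOn_compact Symm.isCompact_cube
  rw [← integral_sub hgi hi, Real.norm_eq_abs, ← integral_mul_const]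
  refine abs_integral_le_integral_abs.trans (setIntegral_mono_on (hgi.sub hi).abs
    ((h.integrableOn_sub k).mul_const C) Symm.measurableSet_cube fun x hx => ?_)
  rw [← sub_mul, abs_mul]
  exact mul_le_mul_of_nonneg_left (hC x hx) (abs_nonneg _)

theorem Approx.tendsto_integral (h : Approx V E g) :
    Tendsto (fun k => ∫ x in cube, g k x) atTop (𝓝 V) := by
  simpa [h.vol] using h.tendsto_mul (D := fun _ => (1 : ℝ)) continuous_const

/-- Polarisation of a set. -/
def polSet (σ : R3 → R3) (E : Set R3) : Set R3 :=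
  {x | if cubeWeight (σ x) ≤ cubeWeight x then x ∈ E ∨ σ x ∈ E else x ∈ E ∧ σ x ∈ E}

theorem mem_polSet {σ : R3 → R3} {x : R3} : x ∈ polSet σ E ↔
    if cubeWeight (σ x) ≤ cubeWeight x then x ∈ E ∨ σ x ∈ E else x ∈ E ∧ σ x ∈ E := Iff.rfl

theorem ind_polSet (σ : R3 → R3) (E : Set R3) (x : R3) :
    ind (polSet σ E) x = pol cubeWeight σ (ind E) x := by
  classical
  simp only [ind, pol, indicator_apply, mem_polSet]
  split_ifs <;> simp_all

theorem abs_pol_sub (σ : R3 → R3) (a b : R3 → ℝ) (x : R3) :
    |pol cubeWeight σ a x - pol cubeWeight σ b x| ≤ |a x - b x| + |a (σ x) - b (σ x)| := by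
  have h : max |a x - b x| |a (σ x) - b (σ x)| ≤ |a x - b x| + |a (σ x) - b (σ x)| :=
    max_le (le_add_of_nonneg_right (abs_nonneg _)) (le_add_of_nonneg_left (abs_nonneg _))
  unfold pol; split_ifs
  · exact (abs_max_sub_max_le_max _ _ _ _).trans h
  · exact (abs_min_sub_min_le_max _ _ _ _).trans h

theorem measurableSet_polSet (hE : MeasurableSet E) (i j : Fin 3) :
    MeasurableSet (polSet (exch i j) E) := by
  have hσ := (exch_refl i j).lip.continuous.measurable
  have hw := Symm.sys_exch.wc.measurable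
  have hA : MeasurableSet {x | cubeWeight (exch i j x) ≤ cubeWeight x} :=
    measurableSet_le (hw.comp hσ) hw
  have e : polSet (exch i j) E =
      {x | cubeWeight (exch i j x) ≤ cubeWeight x} ∩ (E ∪ exch i j ⁻¹' E) ∪
        {x | cubeWeight (exch i j x) ≤ cubeWeight x}ᶜ ∩ (E ∩ exch i j ⁻¹' E) := by
    ext x
    simp only [mem_polSet, mem_union, mem_inter_iff, mem_compl_iff, mem_ofPred_eq, mem_preimage]
    split_ifs <;> tauto
  rw [e]
  exact (hA.inter (hE.union (hσ hE))).union (hA.compl.inter (hE.inter (hσ hE)))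

/-- The approximants may be polarised. -/
theorem Approx.pol_step (h : Approx V E g) (hij : i < j) :
    Approx V (polSet (exch i j) E) fun k => pol cubeWeight (exch i j) (g k) := by
  have hmem : exch i j ∈ {σ : R3 → R3 | ∃ i j : Fin 3, i < j ∧ σ = exch i j} := ⟨i, j, hij, rfl⟩
  have hinv : ∀ k, Symm.Inv ∅ (g k) := fun k x z hz => absurd hz (notMem_empty z)
  have hσm := (exch_refl i j).lip.continuous.measurable
  have hlip : ∀ k, ∃ L : ℝ≥0, LipschitzWith L (pol cubeWeight (exch i j) (g k)) := fun k =>
    let ⟨L, hL⟩ := h.lip k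
    ⟨L, Symm.lipschitzWith_pol (exch_refl i j) Symm.sys_exch.wc (Symm.fix_exch hij.ne _) hL⟩
  have hrange : ∀ k x, pol cubeWeight (exch i j) (g k) x ∈ Icc (0 : ℝ) 1 :=
    fun k x => Symm.pol_mem (h.range k) x
  have hm := measurableSet_polSet h.meas i j
  have hcls : ∀ k, ∃ L, Symm.Class ∅ CubeAntitone L (g k) (pol cubeWeight (exch i j) (g k)) :=
    fun k => by
      obtain ⟨L, hL⟩ := h.lip k
      have hg : Symm.Class ∅ CubeAntitone L (g k) (g k) :=
        ⟨hL, h.range k, hinv k, h.anti k, fun _ _ => rfl, le_rfl⟩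
      exact ⟨L, hg.pol_mem Symm.sys_exch hmem⟩
  have hlim : Tendsto (fun k => ∫ x in cube, |pol cubeWeight (exch i j) (g k) x -
      ind (polSet (exch i j) E) x|) atTop (𝓝 0) := by
    refine squeeze_zero (fun k => integral_nonneg fun x => abs_nonneg _) (fun k => ?_)
      (by simpa using h.lim.const_mul 2)
    obtain ⟨L, hL⟩ := hlip k
    have hi2 : IntegrableOn (fun x => |g k (exch i j x) - ind E (exch i j x)|) cube :=
      Symm.integrableOn_cube ((((h.continuous k).measurable.sub (measurable_ind h.meas)).abs).comp hσm)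
        (C := 1) fun x => by
        rw [abs_abs, abs_le]
        constructor <;> linarith [(h.range k (exch i j x)).1, (h.range k (exch i j x)).2,
          (ind_mem E (exch i j x)).1, (ind_mem E (exch i j x)).2]
    refine (setIntegral_mono_on (integrableOn_abs_sub hL.continuous.measurable (hrange k) hm)
      ((h.integrableOn_sub k).add hi2) Symm.measurableSet_cube fun x _ => ?_).trans_eq ?_
    · rw [ind_polSet]; exact abs_pol_sub _ _ _ x
    · simp only [Pi.add_apply]
      rw [integral_add (h.integrableOn_sub k) hi2,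
        Symm.integral_exch i j fun x => |g k x - ind E x|]
      ring
  refine ⟨hm, ?_, hlip, hrange, fun k => Symm.sys_exch.qpol _ hmem _ (hinv k) (h.anti k), hlim,
    fun ε hε => ?_⟩
  · have hiE : IntegrableOn (ind (polSet (exch i j) E)) cube :=
      Symm.integrableOn_cube (measurable_ind hm) (C := 1) fun x => by
        rw [abs_of_nonneg (ind_mem _ x).1]; exact (ind_mem _ x).2
    have e : ∫ x in cube, ind (polSet (exch i j) E) x =
        volume.real (polSet (exch i j) E ∩ cube) := by
      simp only [ind]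
      rw [setIntegral_indicator hm, setIntegral_const, smul_eq_mul, mul_one, inter_comm]
    rw [← e]
    refine tendsto_nhds_unique ?_ h.tendsto_integral
    rw [tendsto_iff_norm_sub_tendsto_zero]
    refine squeeze_zero (fun _ => norm_nonneg _) (fun k => ?_) hlim
    obtain ⟨L, hc⟩ := hcls k
    have hmom : ∫ x in cube, pol cubeWeight (exch i j) (g k) x = ∫ x in cube, g k x :=
      hc.moment id continuous_id
    rw [← hmom, ← integral_sub (Symm.continuousOn_cube_int hc.lip.continuous) hiE, Real.norm_eq_abs]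
    exact abs_integral_le_integral_abs
  · filter_upwards [h.energy ε hε] with k hk
    obtain ⟨L, hc⟩ := hcls k
    exact hc.energy.trans hk

/-- Polarisation in two coordinates. -/
noncomputable def P (i j : Fin 3) (f : R3 → ℝ) : R3 → ℝ := pol cubeWeight (exch i j) f

/-- The four polarisations. -/
noncomputable def sort4 (f : R3 → ℝ) : R3 → ℝ := P 0 2 (P 0 1 (P 1 2 (P 0 1 f)))

theorem P_hi (hij : i < j) (f : R3 → ℝ) {x : R3} (h : x j ≤ x i) :
    P i j f x = max (f x) (f (exch i j x)) := by
  refine if_pos ?_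
  rw [← sub_nonpos, Symm.cubeWeight_exch hij.ne]
  exact mul_nonpos_of_nonpos_of_nonneg (sub_nonpos.2 (by exact_mod_cast hij.le)) (sub_nonneg.2 h)

theorem P_lo (hij : i < j) (f : R3 → ℝ) {x : R3} (h : x i ≤ x j) :
    P i j f x = min (f x) (f (exch i j x)) := by
  refine Symm.pol_of_le (Symm.fix_exch hij.ne f) ?_
  rw [← sub_nonneg, Symm.cubeWeight_exch hij.ne]
  exact mul_nonneg_of_nonpos_of_nonpos (sub_nonpos.2 (by exact_mod_cast hij.le)) (sub_nonpos.2 h)

variable {a b c : ℝ} (f : R3 → ℝ)

theorem exch01 : exch 0 1 ![a, b, c] = ![b, a, c] := by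
  ext k; fin_cases k <;> simp [exch, Equiv.swap_apply_def]

theorem exch12 : exch 1 2 ![a, b, c] = ![a, c, b] := by
  ext k; fin_cases k <;> simp [exch, Equiv.swap_apply_def]

theorem exch02 : exch 0 2 ![a, b, c] = ![c, b, a] := by
  ext k; fin_cases k <;> simp [exch, Equiv.swap_apply_def]

theorem P01_hi (h : b ≤ a) : P 0 1 f ![a, b, c] = max (f ![a, b, c]) (f ![b, a, c]) := by
  rw [P_hi (by decide) f (by simpa using h), exch01]

theorem P01_lo (h : a ≤ b) : P 0 1 f ![a, b, c] = min (f ![a, b, c]) (f ![b, a, c]) := by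
  rw [P_lo (by decide) f (by simpa using h), exch01]

theorem P12_hi (h : c ≤ b) : P 1 2 f ![a, b, c] = max (f ![a, b, c]) (f ![a, c, b]) := by
  rw [P_hi (by decide) f (by simpa using h), exch12]

theorem P12_lo (h : b ≤ c) : P 1 2 f ![a, b, c] = min (f ![a, b, c]) (f ![a, c, b]) := by
  rw [P_lo (by decide) f (by simpa using h), exch12]

theorem P02_hi (h : c ≤ a) : P 0 2 f ![a, b, c] = max (f ![a, b, c]) (f ![c, b, a]) := by
  rw [P_hi (by decide) f (by simpa using h), exch02]

theorem P02_lo (h : a ≤ c) : P 0 2 f ![a, b, c] = min (f ![a, b, c]) (f ![c, b, a]) := by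
  rw [P_lo (by decide) f (by simpa using h), exch02]

theorem sort01 {x y z : ℝ} (hxy : x ≤ y) : sort4 f ![x, y, z] ≤ sort4 f ![y, x, z] := by
  rcases le_total z x with hzx | hxz
  · have hzy := hzx.trans hxy
    simp (disch := assumption) only [sort4, P01_hi, P01_lo, P12_hi, P12_lo, P02_hi, P02_lo]
    refine le_of_forall_lt fun t => ?_
    simp only [lt_max_iff, lt_min_iff]
    grind
  rcases le_total z y with hzy | hyz <;>
    simp (disch := assumption) only [sort4, P01_hi, P01_lo, P12_hi, P12_lo, P02_hi, P02_lo] <;>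
    refine le_of_forall_lt fun t => ?_ <;> simp only [lt_max_iff, lt_min_iff] <;> grind

theorem sort12 {x y z : ℝ} (hyz : y ≤ z) : sort4 f ![x, y, z] ≤ sort4 f ![x, z, y] := by
  rcases le_total x y with hxy | hyx
  · have hxz := hxy.trans hyz
    simp (disch := assumption) only [sort4, P01_hi, P01_lo, P12_hi, P12_lo, P02_hi, P02_lo]
    refine le_of_forall_lt fun t => ?_
    simp only [lt_max_iff, lt_min_iff]
    grind
  rcases le_total x z with hxz | hzx <;>
    simp (disch := assumption) only [sort4, P01_hi, P01_lo, P12_hi, P12_lo, P02_hi, P02_lo] <;>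
    refine le_of_forall_lt fun t => ?_ <;> simp only [lt_max_iff, lt_min_iff] <;> grind

theorem sort02 {x y z : ℝ} (hxz : x ≤ z) : sort4 f ![x, y, z] ≤ sort4 f ![z, y, x] := by
  rcases le_total y x with hyx | hxy
  · have hyz := hyx.trans hxz
    simp (disch := assumption) only [sort4, P01_hi, P01_lo, P12_hi, P12_lo, P02_hi, P02_lo]
    refine le_of_forall_lt fun t => ?_
    simp only [lt_max_iff, lt_min_iff]
    grind
  rcases le_total y z with hyz | hzy <;>
    simp (disch := assumption) only [sort4, P01_hi, P01_lo, P12_hi, P12_lo, P02_hi, P02_lo] <;>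
    refine le_of_forall_lt fun t => ?_ <;> simp only [lt_max_iff, lt_min_iff] <;> grind

theorem cubeSorted_sort4 : CubeSorted (sort4 f) := by
  intro p _ i j hij
  obtain ⟨x, y, z, rfl⟩ : ∃ x y z : ℝ, p = ![x, y, z] :=
    ⟨p 0, p 1, p 2, by ext k; fin_cases k <;> rfl⟩
  show ![x, y, z] i ≤ ![x, y, z] j → sort4 f ![x, y, z] ≤ sort4 f (exch i j ![x, y, z])
  obtain ⟨rfl, rfl⟩ | ⟨rfl, rfl⟩ | ⟨rfl, rfl⟩ :
      (i = 0 ∧ j = 1) ∨ (i = 1 ∧ j = 2) ∨ (i = 0 ∧ j = 2) := by
    revert hij; revert i j; decide
  · rw [exch01]; exact fun h => sort01 f (by simpa using h)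
  · rw [exch12]; exact fun h => sort12 f (by simpa using h)
  · rw [exch02]; exact fun h => sort02 f (by simpa using h)

end Vale.Agent.P232.Rigid.Polar
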