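import Vale.Agent.P232.Rigid.Lines
import Vale.Agent.P232.Symm.FromCube

/-!
# P232: Steiner rearrangement of periodic Lipschitz functions in one coordinate
-/

open MeasureTheory Set Filter Function
open scoped Topology NNReal

namespace Vale.Agent.P232.Rigid

theorem dist1_eq_min (t : ℝ) : dist1 t = min (Int.fract t) (1 - Int.fract t) :=
  abs_sub_round_eq_min t

theorem dist1_add_int (t : ℝ) (k : ℤ) : dist1 (t + k) = dist1 t := by
  simp [dist1_eq_min]

theorem dist1_neg (t : ℝ) : dist1 (-t) = dist1 t := by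
  rw [dist1_eq_min, dist1_eq_min]
  rcases eq_or_ne (Int.fract t) 0 with h | h
  · rw [Int.fract_neg_eq_zero.2 h, h]
  · rw [Int.fract_neg h, sub_sub_cancel, min_comm]

theorem dist1_mem (t : ℝ) : dist1 t ∈ Icc (0 : ℝ) (1 / 2) :=
  ⟨abs_nonneg _, abs_sub_round t⟩

theorem dist1_of_mem {t : ℝ} (h0 : 0 ≤ t) (h1 : t ≤ 1 / 2) : dist1 t = t := by
  rw [dist1_eq_min, Int.fract_eq_self.2 ⟨h0, by linarith⟩, min_eq_left (by linarith)]

theorem dist1_of_unit {t : ℝ} (ht : t ∈ Icc (0 : ℝ) 1) : dist1 t = min t (1 - t) := by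
  rcases ht.2.eq_or_lt with rfl | h
  · simp [dist1_eq_min]
  · rw [dist1_eq_min, Int.fract_eq_self.2 ⟨ht.1, h⟩]

theorem dist1_dist1 (t : ℝ) : dist1 (dist1 t) = dist1 t :=
  dist1_of_mem (dist1_mem t).1 (dist1_mem t).2

theorem measurable_dist1 : Measurable dist1 := by
  rw [show dist1 = fun t => min (Int.fract t) (1 - Int.fract t) from funext dist1_eq_min]
  exact (measurable_fract).min (measurable_const.sub measurable_fract)

theorem cos_dist1 (t : ℝ) : Real.cos (2 * Real.pi * dist1 t) = Real.cos (2 * Real.pi * t) := by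
  rw [dist1, show 2 * Real.pi * |t - round t| = |2 * Real.pi * (t - round t)| by
    rw [abs_mul (2 * Real.pi), abs_of_pos Real.two_pi_pos], Real.cos_abs,
    show 2 * Real.pi * (t - round t) = 2 * Real.pi * t - (round t : ℤ) * (2 * Real.pi) by ring,
    Real.cos_sub_int_mul_two_pi]

theorem dist1_le_of_cos {u t : ℝ} (h : Real.cos (2 * Real.pi * u) ≤ Real.cos (2 * Real.pi * t)) :
    dist1 t ≤ dist1 u := by
  by_contra hlt
  rw [← cos_dist1 u, ← cos_dist1 t] at h
  linarith [Symm.cos_lt_cos (dist1_mem u).1 (not_le.1 hlt) (dist1_mem t).2]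

/-- The centred arc of length `l` within one period. -/
theorem volume_arc {l : ℝ} (h0 : 0 ≤ l) (h1 : l ≤ 1) :
    volume.real (Icc (0 : ℝ) 1 ∩ {t | dist1 t < l / 2}) = l := by
  have e : Icc (0 : ℝ) 1 ∩ {t | dist1 t < l / 2} = Icc 0 1 \ Icc (l / 2) (1 - l / 2) := by
    ext t
    simp only [mem_inter_iff, mem_ofPred_eq, Set.mem_sdiff]
    refine and_congr_right fun ht => ?_
    rw [dist1_of_unit ht, min_lt_iff, mem_Icc, not_and_or, not_le, not_le]
    exact or_congr Iff.rfl (by constructor <;> intro <;> linarith)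
  rw [e, measureReal_sdiff (Icc_subset_Icc (by linarith) (by linarith)) measurableSet_Icc
    (by simp [Real.volume_Icc])]
  rw [Real.volume_real_Icc, Real.volume_real_Icc, max_eq_left (by linarith), max_eq_left (by linarith)]
  ring

/-- Membership depends on the coordinate `k` only through its distance to the integers, and is
inherited by smaller distances. -/
def Down (k : Fin 3) (G : Set R3) : Prop :=
  ∀ x t, x ∈ G → dist1 t ≤ dist1 (x k) → update x k t ∈ G

theorem ind_nonneg (E : Set R3) (x : R3) : ind E x ∈ Icc (0 : ℝ) 1 := by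
  by_cases h : x ∈ E <;> simp [ind, h]

theorem measurable_ind {E : Set R3} (hE : MeasurableSet E) : Measurable (ind E) :=
  measurable_const.indicator hE

theorem continuous_insertNth (i : Fin 3) (y : Fin 2 → ℝ) :
    Continuous fun t : ℝ => (i.insertNth t y : R3) :=
  Continuous.finInsertNth (A := fun _ => ℝ) i continuous_id continuous_const

theorem integrableOn_unit {g : ℝ → ℝ} (hg : Measurable g) {C : ℝ} (hb : ∀ t, |g t| ≤ C) :
    IntegrableOn g (Icc 0 1) :=
  Measure.integrableOn_of_bounded (by simp) hg.aestronglyMeasurable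
    (Eventually.of_forall fun t => hb t)

/-- Monotonicity of integrals over the cube, line by line. -/
theorem integral_le_of_lines (i : Fin 3) {G H : R3 → ℝ} (hG : IntegrableOn G cube)
    (hH : IntegrableOn H cube)
    (h : ∀ y ∈ sq, ∫ t in Icc (0 : ℝ) 1, G (i.insertNth t y) ≤
      ∫ t in Icc (0 : ℝ) 1, H (i.insertNth t y)) :
    ∫ x in cube, G x ≤ ∫ x in cube, H x := by
  have hmp := measurePreserving_lineMap i
  have hint : ∀ F : R3 → ℝ, IntegrableOn F cube →
      Integrable (fun p => F (lineMap i p)) ((volume.restrict (Icc (0 : ℝ) 1)).prod (volume.restrict sq)) :=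
    fun F hF => hmp.integrable_comp_of_integrable hF
  have key : ∀ F : R3 → ℝ, IntegrableOn F cube → ∫ x in cube, F x =
      ∫ y in sq, ∫ t in Icc (0 : ℝ) 1, F (lineMap i (t, y)) := by
    intro F hF
    rw [← integral_prod_symm _ (hint F hF), ← hmp.map_eq,
      integral_map hmp.measurable.aemeasurable (by rw [hmp.map_eq]; exact hF.aestronglyMeasurable)]
  rw [key G hG, key H hH]
  exact setIntegral_mono_on (hint G hG).integral_prod_right (hint H hH).integral_prod_right
    measurableSet_sq h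

/-- The competitors in the rearrangement of `f` in the coordinate `i`: the same distribution on
every line. -/
def LineQ (i : Fin 3) (f h : R3 → ℝ) : Prop :=
  Measurable h ∧ (∀ x, h x ∈ Icc (0 : ℝ) 1) ∧ ∀ ψ : ℝ → ℝ, Continuous ψ → ∀ y : Fin 2 → ℝ,
    ∫ t in (0 : ℝ)..1, ψ (h (i.insertNth t y)) = ∫ t in (0 : ℝ)..1, ψ (f (i.insertNth t y))

/-- The reflections in the coordinate `i`. -/
def lineRefl (i : Fin 3) : Set (R3 → R3) :=
  {σ | ∃ a : ℝ, a ∈ Ioo (-(1 / 2) : ℝ) (1 / 2) ∧ a ≠ 0 ∧ σ = Symm.mirror i a}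

theorem sys_line (i : Fin 3) (f : R3 → ℝ) :
    Symm.Sys Symm.lattice Symm.torusWeight (lineRefl i) (LineQ i f) := by
  have hsub : ∀ σ ∈ lineRefl i, σ ∈ {σ : R3 → R3 | ∃ (j : Fin 3) (a : ℝ),
      a ∈ Ioo (-(1 / 2) : ℝ) (1 / 2) ∧ a ≠ 0 ∧ σ = Symm.mirror j a} := fun σ ⟨a, h⟩ => ⟨i, a, h⟩
  refine ⟨fun σ hσ => Symm.sys_mirror.refl σ (hsub σ hσ), Symm.sys_mirror.wc, Symm.sys_mirror.wT,
    fun σ hσ => Symm.sys_mirror.inv σ (hsub σ hσ), fun σ hσ => Symm.sys_mirror.fix σ (hsub σ hσ),
    fun σ hσ => Symm.sys_mirror.int σ (hsub σ hσ), ?_, ?_⟩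
  · intro u g hu hlim
    refine ⟨measurable_of_tendsto_metrizable (fun n => (hu n).1) (tendsto_pi_nhds.2 hlim),
      fun x => isClosed_Icc.mem_of_tendsto (hlim x) (Eventually.of_forall fun n => (hu n).2.1 x),
      fun ψ hψ y => ?_⟩
    obtain ⟨C, hC⟩ := (isCompact_Icc (a := (0 : ℝ)) (b := 1)).exists_bound_of_continuousOn
      hψ.continuousOn
    have := intervalIntegral.tendsto_integral_filter_of_dominated_convergence (μ := volume)
      (a := 0) (b := 1) (l := atTop) (F := fun n t => ψ (u n (i.insertNth t y)))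
      (f := fun t => ψ (g (i.insertNth t y))) (fun _ => C)
      (Eventually.of_forall fun n => (hψ.measurable.comp
        ((hu n).1.comp (continuous_insertNth i y).measurable)).aestronglyMeasurable)
      (Eventually.of_forall fun n => Eventually.of_forall fun t _ => hC _ ((hu n).2.1 _))
      intervalIntegrable_const
      (Eventually.of_forall fun t _ => (hψ.tendsto _).comp (hlim _))
    simp only [fun n => (hu n).2.2 ψ hψ y] at this
    exact tendsto_nhds_unique this tendsto_const_nhds
  · intro σ hσ u hinv hu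
    have hs := hsub σ hσ
    obtain ⟨a, -, -, rfl⟩ := hσ
    have hr := Symm.mirror_refl i a
    have hfix := Symm.sys_mirror.fix _ hs u hinv
    have hP : Symm.Inv Symm.lattice (Symm.pol Symm.torusWeight (Symm.mirror i a) u) :=
      Symm.inv_pol Symm.sys_mirror.wT (Symm.sys_mirror.inv _ hs _ Symm.sys_mirror.wT) hinv
        (Symm.sys_mirror.inv _ hs u hinv)
    have hPm : Measurable (Symm.pol Symm.torusWeight (Symm.mirror i a) u) := by
      have hwm := Symm.sys_mirror.wc.measurable
      have hum := hu.1.comp hr.lip.continuous.measurable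
      exact Measurable.ite (measurableSet_le (hwm.comp hr.lip.continuous.measurable) hwm)
        (hu.1.max hum) (hu.1.min hum)
    refine ⟨hPm, Symm.pol_mem hu.2.1, fun ψ hψ y => ?_⟩
    rw [← hu.2.2 ψ hψ y]
    obtain ⟨C, hC⟩ := (isCompact_Icc (a := (0 : ℝ)) (b := 1)).exists_bound_of_continuousOn
      hψ.continuousOn
    set P := Symm.pol Symm.torusWeight (Symm.mirror i a) u with hPdef
    have key : ∀ v : R3 → ℝ, Symm.Inv Symm.lattice v → Measurable v →
        (∀ x, v x ∈ Icc (0 : ℝ) 1) →
        IntervalIntegrable (fun t => ψ (v (i.insertNth t y))) volume 0 1 ∧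
        IntervalIntegrable (fun t => ψ (v (Symm.mirror i a (i.insertNth t y)))) volume 0 1 ∧
        ∫ t in (0 : ℝ)..1, ψ (v (Symm.mirror i a (i.insertNth t y))) =
          ∫ t in (0 : ℝ)..1, ψ (v (i.insertNth t y)) := by
      intro v hv hvm hvI
      set g : ℝ → ℝ := fun t => ψ (v (i.insertNth t y)) with hg
      have hgm : Measurable g :=
        hψ.measurable.comp (hvm.comp (continuous_insertNth i y).measurable)
      have hint : ∀ g' : ℝ → ℝ, Measurable g' → (∀ t, |g' t| ≤ C) →
          IntervalIntegrable g' volume 0 1 := fun g' hm hb => by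
        rw [intervalIntegrable_iff_integrableOn_Icc_of_le zero_le_one]
        exact integrableOn_unit hm hb
      have hgb : ∀ t, |g t| ≤ C := fun t => hC _ (hvI _)
      have hper : Periodic g 1 := fun t => by
        have e : (i.insertNth (t + 1) y : R3) = i.insertNth t y + Pi.single i 1 := by
          ext j
          rcases Fin.eq_self_or_eq_succAbove i j with rfl | ⟨l, rfl⟩ <;> simp [Fin.succAbove_ne]
        simp only [hg, e, (Symm.inv_lattice_iff.1 hv).shift]
      simp only [Symm.mirror_insertNth]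
      refine ⟨hint g hgm hgb,
        hint (fun t => g (2 * a - t)) (hgm.comp (measurable_const.sub measurable_id)) (fun t => hgb _), ?_⟩
      show ∫ t in (0 : ℝ)..1, g (2 * a - t) = ∫ t in (0 : ℝ)..1, g t
      rw [intervalIntegral.integral_comp_sub_left g (2 * a), sub_zero]
      have := hper.intervalIntegral_add_eq (2 * a - 1) 0
      rwa [sub_add_cancel, zero_add] at this
    obtain ⟨p1, p2, p3⟩ := key P hP hPm (Symm.pol_mem hu.2.1)
    obtain ⟨q1, q2, q3⟩ := key u hinv hu.1 hu.2.1
    have e := intervalIntegral.integral_congr (μ := volume) (a := 0) (b := 1)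
      fun t _ => Symm.pol_comp hr hfix ψ (i.insertNth t y : R3)
    rw [← hPdef, intervalIntegral.integral_add p1 p2, intervalIntegral.integral_add q1 q2, p3, q3] at e
    linarith

/-- Rearranging along a line brings a function closer to the centred arc. -/
theorem line_contraction {q g : ℝ → ℝ} (hq : Continuous q) (hg : Continuous g)
    (hqI : ∀ t, q t ∈ Icc (0 : ℝ) 1) (hgI : ∀ t, g t ∈ Icc (0 : ℝ) 1)
    (hanti : AntitoneOn q (Icc 0 (1 / 2))) (hsym : ∀ t ∈ Icc (0 : ℝ) 1, q t = q (dist1 t))
    (hmom : ∀ ψ : ℝ → ℝ, Continuous ψ →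
      ∫ t in (0 : ℝ)..1, ψ (q t) = ∫ t in (0 : ℝ)..1, ψ (g t))
    {A : Set ℝ} (hA : MeasurableSet A) {l : ℝ} (hl : volume.real (Icc (0 : ℝ) 1 ∩ A) = l) :
    ∫ t in Icc (0 : ℝ) 1, |q t - {t | dist1 t < l / 2}.indicator (fun _ => (1 : ℝ)) t| ≤
      ∫ t in Icc (0 : ℝ) 1, |g t - A.indicator (fun _ => (1 : ℝ)) t| := by
  have h0 : 0 ≤ l := hl ▸ measureReal_nonneg
  have h1 : l ≤ 1 := hl ▸ (measureReal_mono inter_subset_left (by simp)).trans_eq (by simp)
  have hl2 : l / 2 ∈ Icc (0 : ℝ) (1 / 2) := ⟨by linarith, by linarith⟩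
  set s := q (l / 2)
  set B : Set ℝ := {t | dist1 t < l / 2} with hB
  have hBm : MeasurableSet B := measurableSet_lt measurable_dist1 measurable_const
  set ψ : ℝ → ℝ := fun v => v - 2 * max (v - s) 0 with hψ
  have hψc : Continuous ψ := by fun_prop
  have hψi : ∀ {v : ℝ → ℝ}, Continuous v → IntegrableOn (fun t => ψ (v t)) (Icc 0 1) :=
    fun hv => (hψc.comp hv).continuousOn.integrableOn_compact isCompact_Icc
  have hind : ∀ {S : Set ℝ}, MeasurableSet S →
      IntegrableOn (fun t => (1 - 2 * s) * S.indicator (fun _ => (1 : ℝ)) t) (Icc 0 1) :=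
    fun hS => (((integrableOn_const (by simp)).integrable).indicator hS).const_mul _
  have hval : ∀ {S : Set ℝ}, MeasurableSet S → volume.real (Icc (0 : ℝ) 1 ∩ S) = l →
      ∫ t in Icc (0 : ℝ) 1, (1 - 2 * s) * S.indicator (fun _ => (1 : ℝ)) t = (1 - 2 * s) * l := by
    intro S hS hv
    rw [integral_const_mul, setIntegral_indicator hS, setIntegral_const, hv, smul_eq_mul, mul_one]
  have habs : ∀ {v : ℝ → ℝ} {S : Set ℝ}, Continuous v → (∀ t, v t ∈ Icc (0 : ℝ) 1) →
      MeasurableSet S →
      IntegrableOn (fun t => |v t - S.indicator (fun _ => (1 : ℝ)) t|) (Icc 0 1) := by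
    intro v S hv hvI hS
    refine integrableOn_unit ((hv.measurable.sub (measurable_const.indicator hS)).abs) (C := 2)
      fun t => ?_
    rw [abs_abs, abs_le]
    by_cases ht : t ∈ S <;> simp [ht] <;> constructor <;> linarith [(hvI t).1, (hvI t).2]
  have left : ∫ t in Icc (0 : ℝ) 1, |q t - B.indicator (fun _ => (1 : ℝ)) t| =
      (∫ t in Icc (0 : ℝ) 1, ψ (q t)) + (1 - 2 * s) * l := by
    rw [← hval hBm (volume_arc h0 h1), ← integral_add (hψi hq) (hind hBm)]
    refine setIntegral_congr_fun measurableSet_Icc fun t ht => ?_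
    by_cases htB : t ∈ B
    · have : s ≤ q t := by
        rw [hsym t ht]; exact hanti (dist1_mem t) hl2 htB.le
      rw [indicator_of_mem htB, abs_of_nonpos (by linarith [(hqI t).2]), hψ]
      simp only [max_eq_left (sub_nonneg.2 this)]
      ring
    · have : q t ≤ s := by
        rw [hsym t ht]; exact hanti hl2 (dist1_mem t) (not_lt.1 htB)
      rw [indicator_of_notMem htB, sub_zero, abs_of_nonneg (hqI t).1, hψ]
      simp only [max_eq_right (sub_nonpos.2 this)]
      ring
  have right : (∫ t in Icc (0 : ℝ) 1, ψ (g t)) + (1 - 2 * s) * l ≤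
      ∫ t in Icc (0 : ℝ) 1, |g t - A.indicator (fun _ => (1 : ℝ)) t| := by
    rw [← hval hA hl, ← integral_add (hψi hg) (hind hA)]
    refine setIntegral_mono_on ((hψi hg).add (hind hA)) (habs hg hgI hA) measurableSet_Icc
      fun t _ => ?_
    have a1 := le_max_left (g t - s) 0
    have a2 := le_max_right (g t - s) 0
    by_cases htA : t ∈ A
    · rw [indicator_of_mem htA, abs_of_nonpos (by linarith [(hgI t).2])]
      simp only [hψ]; linarith
    · rw [indicator_of_notMem htA, sub_zero, abs_of_nonneg (hgI t).1]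
      simp only [hψ]; linarith
  have hm := hmom ψ hψc
  rw [intervalIntegral.integral_of_le zero_le_one, intervalIntegral.integral_of_le zero_le_one,
    ← integral_Icc_eq_integral_Ioc, ← integral_Icc_eq_integral_Ioc] at hm
  linarith

/-- **Rearrangement in one coordinate.** -/
theorem exists_rearr (i : Fin 3) {L : ℝ≥0} {f : R3 → ℝ} (hf : LipschitzWith L f)
    (hp : IsPeriodic f) (hI : ∀ x, f x ∈ Icc (0 : ℝ) 1) :
    ∃ h : R3 → ℝ, LipschitzWith L h ∧ IsPeriodic h ∧ (∀ x, h x ∈ Icc (0 : ℝ) 1) ∧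
      (∫ x in cube, gradNorm h x ≤ ∫ x in cube, gradNorm f x) ∧
      ∀ E : Set R3, MeasurableSet E → MeasurableSet (steiner i E) →
        ∫ x in cube, |h x - ind (steiner i E) x| ≤ ∫ x in cube, |f x - ind E x| := by
  obtain ⟨h, hh, hfixed⟩ := Symm.exists_fixed (sys_line i f) (f := f) (L := L)
    ⟨hf, hI, Symm.inv_lattice_iff.2 hp, ⟨hf.continuous.measurable, hI, fun _ _ _ => rfl⟩,
      fun _ _ => rfl, le_rfl⟩
  have hper := Symm.inv_lattice_iff.1 hh.inv
  refine ⟨h, hh.lip, hper, hh.range, hh.energy, fun E hE hS => ?_⟩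
  have hi : ∀ {v : R3 → ℝ} {F : Set R3}, Continuous v → (∀ x, v x ∈ Icc (0 : ℝ) 1) →
      MeasurableSet F → IntegrableOn (fun x => |v x - ind F x|) cube := by
    intro v F hv hvI hF
    refine Symm.integrableOn_cube ((hv.measurable.sub (measurable_ind hF)).abs) (C := 1) fun x => ?_
    rw [abs_abs, abs_le]
    constructor <;> linarith [(hvI x).1, (hvI x).2, (ind_nonneg F x).1, (ind_nonneg F x).2]
  refine integral_le_of_lines i (hi hh.lip.continuous hh.range hS) (hi hf.continuous hI hE)
    fun y hy => ?_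
  have hx : (i.insertNth 0 y : R3) ∈ cube := mem_cube_iff.2 ⟨⟨le_rfl, zero_le_one⟩, hy⟩
  obtain ⟨anti, sym⟩ := Symm.shape hh.lip.continuous hper i
    (fun a ha ha0 x hx => hfixed _ ⟨a, ha, ha0, rfl⟩ x hx) hx
  simp only [Fin.update_insertNth] at anti sym
  have eS : ∀ t, ind (steiner i E) (i.insertNth t y) =
      {t | dist1 t < lineLen i E y / 2}.indicator (fun _ => (1 : ℝ)) t := fun t => by
    simp only [ind, indicator, steiner, mem_ofPred_eq, Fin.insertNth_apply_same,
      Fin.removeNth_insertNth]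
  have eE : ∀ t, ind E (i.insertNth t y) =
      {t | (i.insertNth t y : R3) ∈ E}.indicator (fun _ => (1 : ℝ)) t := fun t => rfl
  simp only [eS, eE]
  refine line_contraction (hh.lip.continuous.comp (continuous_insertNth i y))
    (hf.continuous.comp (continuous_insertNth i y)) (fun t => hh.range _) (fun t => hI _) anti
    (fun t ht => ?_) (fun ψ hψ => hh.q.2.2 ψ hψ y)
    (hE.preimage (continuous_insertNth i y).measurable) rfl
  rw [dist1_of_unit ht]
  rcases le_total t (1 / 2) with h' | h'
  · rw [min_eq_left (by linarith)]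
  · rw [min_eq_right (by linarith)]
    have := sym (1 - t) ⟨by linarith [ht.2], by linarith⟩
    rw [sub_sub_cancel] at this
    exact this

end Vale.Agent.P232.Rigid
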