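import Vale.Agent.P232.Rigid.SteinerSets

/-!
# P232: Steiner symmetrisation of minimisers, and minimisers decreasing in all coordinates
-/

open MeasureTheory Set Filter Function
open scoped Topology NNReal

namespace Vale.Agent.P232.Rigid

theorem ind_congr {A B : Set R3} {x y : R3} (h : x ∈ A ↔ y ∈ B) : ind A x = ind B y := by
  by_cases hx : x ∈ A
  · simp [ind, hx, h.1 hx]
  · simp [ind, hx, mt h.2 hx]

theorem isPeriodic_mirror {E : Set R3} (hE : IsPeriodic fun x => x ∈ E) (k : Fin 3) (c : ℝ) :
    IsPeriodic fun x => x ∈ {x : R3 | update x k (2 * c - x k) ∈ E} := by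
  intro x z
  have e : update (x + fun j => (z j : ℝ)) k (2 * c - (x + fun j => (z j : ℝ)) k) =
      update x k (2 * c - x k) + fun j => ((update z k (-z k) j : ℤ) : ℝ) := by
    ext j
    rcases eq_or_ne j k with rfl | h
    · simp; ring
    · simp [h]
  show (update _ k _ ∈ E) = (update _ k _ ∈ E)
  rw [e]
  exact hE _ _

theorem steiner_mirror {i k : Fin 3} (hki : k ≠ i) (c : ℝ) (E : Set R3) :
    steiner i {x | update x k (2 * c - x k) ∈ E} =
      {x | update x k (2 * c - x k) ∈ steiner i E} := by
  ext x
  simp only [steiner, mem_ofPred_eq, update_of_ne hki.symm]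
  suffices lineLen i {x | update x k (2 * c - x k) ∈ E} (i.removeNth x) =
      lineLen i E (i.removeNth (update x k (2 * c - x k))) by rw [this]
  refine congrArg (volume.real : Set ℝ → ℝ) ?_
  ext s
  simp only [lineSet, mem_ofPred_eq, Fin.insertNth_removeNth]
  rw [update_of_ne hki, update_comm hki]

/-- **Steiner symmetrisation of minimisers.** -/
theorem stmtSteiner : StmtSteiner := by
  intro V _ E hE i
  have mS := measurableSet_steiner hE.meas i
  have pS := periodic_steiner hE.per i
  refine ⟨⟨mS, pS, ?_, ?_⟩, dec_of_down mS pS (down_steiner_self i E), ?_, fun k hki => ⟨?_, ?_⟩⟩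
  · rw [measureReal_def, volume_steiner_inter_cube hE.meas i, ← measureReal_def, hE.vol]
  · obtain ⟨f, hfL, hfp, hfI, hfl, hfe⟩ := hE.approx
    choose L hfL using hfL
    choose h hhL hhp hhI hhe hhd using fun n => exists_rearr i (hfL n) (hfp n) (hfI n)
    refine ⟨h, fun n => ⟨L n, hhL n⟩, hhp, hhI, ?_, fun ε hε => ?_⟩
    · exact tendsto_of_tendsto_of_tendsto_of_le_of_le tendsto_const_nhds hfl
        (fun n => integral_nonneg fun x => abs_nonneg _) fun n => hhd n E hE.meas mS
    · filter_upwards [hfe ε hε] with n hn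
      exact (hhe n).trans hn
  · refine (Filter.EventuallyEq.of_eq ?_)
    ext x
    simp only [steiner, mem_ofPred_eq, update_self, Fin.removeNth_update, mul_zero, zero_sub,
      dist1_neg]
  · intro c hc
    have hm : MeasurableSet {x : R3 | update x k (2 * c - x k) ∈ E} :=
      hE.meas.preimage (Symm.mirror_refl k c).lip.continuous.measurable
    have h := steiner_congr hm hE.meas (isPeriodic_mirror hE.per k c) hE.per hc i
    rwa [steiner_mirror hki c E] at h
  · intro hk
    have mk := measurableSet_steiner hE.meas k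
    have pk := periodic_steiner hE.per k
    have h : SetAE (steiner i (steiner k E)) (steiner i E) :=
      steiner_congr mk hE.meas pk hE.per hk i
    have mF := measurableSet_steiner mk i
    have pF := periodic_steiner pk i
    have hd : Dec k (steiner i (steiner k E)) :=
      dec_of_down mF pF (down_steiner hki (down_steiner_self k E))
    exact ((steiner_congr mF mS pF pS h k).symm.trans hd).trans h

theorem abs_max_min_le {p q a b : ℝ} (hab : b ≤ a) :
    |max p q - a| + |min p q - b| ≤ |p - a| + |q - b| := by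
  rcases le_total q p with h | h
  · rw [max_eq_left h, min_eq_right h]
  · rw [max_eq_right h, min_eq_left h]
    rcases abs_cases (q - a) with h1 | h1 <;> rcases abs_cases (p - b) with h2 | h2 <;>
      rcases abs_cases (p - a) with h3 | h3 <;> rcases abs_cases (q - b) with h4 | h4 <;> linarith

/-- Polarisations do not move functions away from a set decreasing in all distances. -/
theorem sys_down {F : Set R3} (hF : MeasurableSet F) (pF : IsPeriodic fun x => x ∈ F)
    (hd : ∀ k, Down k F) (D : ℝ) :
    Symm.Sys Symm.lattice Symm.torusWeight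
      {σ : R3 → R3 | ∃ (j : Fin 3) (a : ℝ), a ∈ Ioo (-(1 / 2) : ℝ) (1 / 2) ∧ a ≠ 0 ∧
        σ = Symm.mirror j a}
      fun h => Measurable h ∧ (∀ x, h x ∈ Icc (0 : ℝ) 1) ∧ ∫ x in cube, |h x - ind F x| ≤ D := by
  have h0 := Symm.sys_mirror
  have hint : ∀ {v : R3 → ℝ} {σ : R3 → R3}, Measurable v → (∀ x, v x ∈ Icc (0 : ℝ) 1) →
      Measurable σ → IntegrableOn (fun x => |v (σ x) - ind F (σ x)|) cube := by
    intro v σ hv hvI hσ
    refine Symm.integrableOn_cube (((hv.sub (measurable_ind hF)).abs).comp hσ) (C := 1) fun x => ?_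
    rw [abs_abs, abs_le]
    constructor <;>
      linarith [(hvI (σ x)).1, (hvI (σ x)).2, (ind_nonneg F (σ x)).1, (ind_nonneg F (σ x)).2]
  refine ⟨h0.refl, h0.wc, h0.wT, h0.inv, h0.fix, h0.int, ?_, ?_⟩
  · intro u g hu hlim
    have hgm : Measurable g := measurable_of_tendsto_metrizable (fun n => (hu n).1) (tendsto_pi_nhds.2 hlim)
    have hgI : ∀ x, g x ∈ Icc (0 : ℝ) 1 := fun x =>
      isClosed_Icc.mem_of_tendsto (hlim x) (Eventually.of_forall fun n => (hu n).2.1 x)
    refine ⟨hgm, hgI, le_of_tendsto (tendsto_integral_of_dominated_convergence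
      (μ := volume.restrict cube) (fun _ => (1 : ℝ))
      (fun n => (hint (hu n).1 (hu n).2.1 measurable_id).aestronglyMeasurable)
      (by exact integrableOn_const (by simp [volume_cube]))
      (fun n => Eventually.of_forall fun x => ?_)
      (Eventually.of_forall fun x => ((hlim x).sub_const _).abs)) (Eventually.of_forall fun n => (hu n).2.2)⟩
    rw [id, Real.norm_eq_abs, abs_abs, abs_le]
    constructor <;> linarith [((hu n).2.1 x).1, ((hu n).2.1 x).2, (ind_nonneg F x).1, (ind_nonneg F x).2]
  · intro σ hσ u hinv hu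
    have hr := h0.refl σ hσ
    have hfix := h0.fix σ hσ u hinv
    have hwm := h0.wc.measurable
    have hσm := hr.lip.continuous.measurable
    have hum := hu.1.comp hσm
    have hPm : Measurable (Symm.pol Symm.torusWeight σ u) :=
      Measurable.ite (measurableSet_le (hwm.comp hσm) hwm) (hu.1.max hum) (hu.1.min hum)
    have hPI : ∀ x, Symm.pol Symm.torusWeight σ u x ∈ Icc (0 : ℝ) 1 := Symm.pol_mem hu.2.1
    have hP : Symm.Inv Symm.lattice (Symm.pol Symm.torusWeight σ u) :=
      Symm.inv_pol h0.wT (h0.inv σ hσ _ h0.wT) hinv (h0.inv σ hσ u hinv)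
    obtain ⟨j, a, ha, ha0, rfl⟩ := hσ
    have hmono : ∀ x, Symm.torusWeight (Symm.mirror j a x) ≤ Symm.torusWeight x →
        ind F (Symm.mirror j a x) ≤ ind F x := by
      intro x hx
      by_cases hm : Symm.mirror j a x ∈ F
      · have hle := dist1_le_of_cos (u := 2 * a - x j) (t := x j) (by
          linarith [Symm.torusWeight_mirror j a x])
        have hxF := hd j _ (x j) hm (by simpa [Symm.mirror] using hle)
        rw [show update (Symm.mirror j a x) j (x j) = x by simp [Symm.mirror]] at hxF
        simp [ind, hm, hxF]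
      · simpa [ind, hm] using (ind_nonneg F x).1
    have hpair : ∀ x, |Symm.pol Symm.torusWeight (Symm.mirror j a) u x - ind F x| +
        |Symm.pol Symm.torusWeight (Symm.mirror j a) u (Symm.mirror j a x) -
          ind F (Symm.mirror j a x)| ≤
        |u x - ind F x| + |u (Symm.mirror j a x) - ind F (Symm.mirror j a x)| := by
      intro x
      have hadd := Symm.pol_add hr hfix x
      have e := min_add_max (u x) (u (Symm.mirror j a x))
      rcases le_total (Symm.torusWeight (Symm.mirror j a x)) (Symm.torusWeight x) with hx | hx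
      · have e1 : Symm.pol Symm.torusWeight (Symm.mirror j a) u x =
            max (u x) (u (Symm.mirror j a x)) := if_pos hx
        rw [show Symm.pol Symm.torusWeight (Symm.mirror j a) u (Symm.mirror j a x) =
          min (u x) (u (Symm.mirror j a x)) by linarith, e1]
        exact abs_max_min_le (hmono x hx)
      · have e1 := Symm.pol_of_le hfix hx
        rw [show Symm.pol Symm.torusWeight (Symm.mirror j a) u (Symm.mirror j a x) =
          max (u x) (u (Symm.mirror j a x)) by linarith, e1, max_comm, min_comm]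
        have hb := hmono (Symm.mirror j a x) (by rwa [hr.inv])
        rw [hr.inv] at hb
        linarith [abs_max_min_le (p := u (Symm.mirror j a x)) (q := u x) hb]
    refine ⟨hPm, hPI, le_trans ?_ hu.2.2⟩
    have hFi : Symm.Inv Symm.lattice (ind F) := Symm.inv_lattice_iff.2 fun x z => by
      exact ind_congr (iff_of_eq (pF x z))
    have hI : ∀ {v : R3 → ℝ}, Symm.Inv Symm.lattice v → Measurable v →
        (∀ x, v x ∈ Icc (0 : ℝ) 1) → IntegrableOn (fun x => |v x - ind F x|) cube ∧
        IntegrableOn (fun x => |v (Symm.mirror j a x) - ind F (Symm.mirror j a x)|) cube ∧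
        ∫ x in cube, |v (Symm.mirror j a x) - ind F (Symm.mirror j a x)| =
          ∫ x in cube, |v x - ind F x| := fun {v} hv hvm hvI =>
      ⟨hint hvm hvI measurable_id, hint hvm hvI hσm,
        h0.int _ ⟨j, a, ha, ha0, rfl⟩ (fun x => |v x - ind F x|)
          (fun x k hk => by simp only [hv x k hk, hFi x k hk]) (hint hvm hvI measurable_id) (hint hvm hvI hσm)⟩
    obtain ⟨p1, p2, p3⟩ := hI hP hPm hPI
    obtain ⟨q1, q2, q3⟩ := hI hinv hu.1 hu.2.1
    have e := setIntegral_mono (p1.add p2) (q1.add q2) hpair
    simp only [Pi.add_apply] at e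
    rw [integral_add p1 p2, integral_add q1 q2, p3, q3] at e
    linarith

theorem isPeriodic_body (s : Finset (Fin 3)) (R : ℝ) (c : R3) :
    IsPeriodic fun x => x ∈ body s R c := fun x z => by
  simp only [body, mem_ofPred_eq, Pi.add_apply, add_sub_right_comm, dist1_add_int]

theorem dist1_half_sub (t : ℝ) : dist1 (1 - t) = dist1 t := by
  rw [show 1 - t = -t + ((1 : ℤ) : ℝ) by push_cast; ring, dist1_add_int, dist1_neg]

/-- **Minimisers decreasing in all coordinates**, from the classification in the cube. -/
theorem stmtDec_of_cube (hc : StmtCube) : StmtDec := by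
  intro V hV E hE hdec
  set S0 := steiner 0 E
  set S1 := steiner 1 S0
  set F := steiner 2 S1
  have m0 : MeasurableSet S0 := measurableSet_steiner hE.meas 0
  have p0 : IsPeriodic fun x => x ∈ S0 := periodic_steiner hE.per 0
  have m1 : MeasurableSet S1 := measurableSet_steiner m0 1
  have p1 : IsPeriodic fun x => x ∈ S1 := periodic_steiner p0 1
  have mF : MeasurableSet F := measurableSet_steiner m1 2
  have pF : IsPeriodic fun x => x ∈ F := periodic_steiner p1 2
  have h1E : SetAE S1 E := (steiner_congr m0 hE.meas p0 hE.per (hdec 0) 1).trans (hdec 1)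
  have hFE : SetAE F E := (steiner_congr m1 hE.meas p1 hE.per h1E 2).trans (hdec 2)
  have hdown : ∀ k, Down k F := by
    intro k
    fin_cases k
    · exact down_steiner (by decide) (down_steiner (by decide) (down_steiner_self 0 E))
    · exact down_steiner (by decide) (down_steiner_self 1 S0)
    · exact down_steiner_self 2 S1
  have hsymF : ∀ i x, (Symm.mirror i (1 / 2) x ∈ F ↔ x ∈ F) := by
    have h : ∀ i x, x ∈ F → Symm.mirror i (1 / 2) x ∈ F := fun i x hx =>
      hdown i x _ hx (by norm_num [dist1_half_sub])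
    exact fun i x => ⟨fun hx => (Symm.mirror_refl i (1 / 2)).inv x ▸ h i _ hx, h i x⟩
  have hindF : ∀ i x, ind F (Symm.mirror i (1 / 2) x) = ind F x := fun i x =>
    ind_congr (hsymF i x)
  obtain ⟨f, hfL, hfp, hfI, hfl, hfe⟩ := hE.approx
  choose L hfL using hfL
  have hfix := fun n => Symm.exists_fixed
    (sys_down mF pF hdown (∫ x in cube, |f n x - ind F x|)) (f := f n) (L := L n)
    ⟨hfL n, hfI n, Symm.inv_lattice_iff.2 (hfp n), ⟨(hfL n).continuous.measurable, hfI n, le_rfl⟩,
      fun _ _ => rfl, le_rfl⟩
  choose h hh hfixed using hfix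
  have hper := fun n => Symm.inv_lattice_iff.1 (hh n).inv
  have hsh : ∀ n (i : Fin 3), ∀ x ∈ cube,
      AntitoneOn (fun t => h n (update x i t)) (Icc 0 (1 / 2)) ∧
        ∀ t ∈ Icc (0 : ℝ) (1 / 2), h n (update x i (1 - t)) = h n (update x i t) :=
    fun n i x hx => Symm.shape (hh n).lip.continuous (hper n) i
      (fun a ha ha0 y hy => hfixed n _ ⟨i, a, ha, ha0, rfl⟩ y hy) hx
  have hsymm := fun n => Symm.symm_of_shape (hper n) (hsh n)
  have hhalf : Measurable fun x : R3 => (1 / 2 : ℝ) • x := measurable_const_smul _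
  set E' : Set R3 := (fun x : R3 => (1 / 2 : ℝ) • x) ⁻¹' F
  have hscale : ∀ {G : Set R3}, MeasurableSet G → (∀ i x, (Symm.mirror i (1 / 2) x ∈ G ↔ x ∈ G)) →
      volume.real ((fun x : R3 => (1 / 2 : ℝ) • x) ⁻¹' G ∩ cube) = volume.real (G ∩ cube) := by
    intro G hG hsG
    have key := Symm.integral_half (G := G.indicator fun _ => (1 : ℝ))
      (fun i x => ind_congr (hsG i x)) (measurable_const.indicator hG) (C := 1)
      (fun x => by by_cases hx : x ∈ G <;> simp [hx])
    have e : (fun x : R3 => G.indicator (fun _ => (1 : ℝ)) ((1 / 2 : ℝ) • x)) =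
        ((fun x : R3 => (1 / 2 : ℝ) • x) ⁻¹' G).indicator fun _ => (1 : ℝ) := rfl
    rw [e, setIntegral_indicator hG, setIntegral_indicator (hhalf hG), setIntegral_const,
      setIntegral_const, smul_eq_mul, smul_eq_mul, mul_one, mul_one] at key
    rwa [inter_comm, inter_comm G]
  have hdist : ∀ n, ∫ x in cube, |Symm.small (h n) x - ind E' x| ≤ ∫ x in cube, |f n x - ind E x| := by
    intro n
    have e1 : ∫ x in cube, |Symm.small (h n) x - ind E' x| =
        ∫ x in cube, |h n x - ind F x| := by
      rw [← Symm.integral_half (G := fun x => |h n x - ind F x|)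
        (fun i x => by rw [congrFun (hsymm n i) x, hindF i x])
        (((hh n).lip.continuous.measurable.sub (measurable_ind mF)).abs) (C := 1) (fun x => by
          rw [abs_abs, abs_le]
          constructor <;> linarith [((hh n).range x).1, ((hh n).range x).2, (ind_nonneg F x).1,
            (ind_nonneg F x).2])]
      refine setIntegral_congr_fun measurableSet_cube fun x hx => ?_
      rw [Symm.small_eq hx]
      rfl
    rw [e1]
    refine (hh n).q.2.2.trans_eq (integral_congr_ae (ae_restrict_of_ae ?_))
    filter_upwards [Filter.eventuallyEq_set.1 hFE] with x hx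
    rw [ind_congr hx]
  have hcm : CubeMin (fun _ => True) V E' := by
    refine ⟨mF.preimage hhalf, ?_, fun n => Symm.small (h n),
      fun n => ⟨L n, Symm.lipschitzWith_small (hh n).lip⟩, fun n x => (hh n).range _,
      fun n => ⟨Symm.antitone_small (hsh n), trivial⟩, ?_, fun ε hε => ?_⟩
    · rw [hscale mF hsymF, ← hE.vol]
      exact measureReal_congr (hFE.inter (ae_eq_refl cube))
    · exact tendsto_of_tendsto_of_tendsto_of_le_of_le tendsto_const_nhds hfl
        (fun n => integral_nonneg fun x => abs_nonneg _) hdist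
    · filter_upwards [hfe ε hε] with n hn
      rw [Symm.integral_gradNorm_small (hh n).lip (hsymm n), cubeCandidate]
      linarith [(hh n).energy]
  obtain ⟨s, R, hS, hEq⟩ := hc V hV E' hcm
  refine ⟨s, R, hS, hFE.symm.trans ?_⟩
  have mB : MeasurableSet (body s R 0) :=
    measurableSet_lt (Finset.measurable_sum _ fun i _ =>
      (measurable_dist1.comp ((measurable_pi_apply i).sub_const _)).pow_const 2) measurable_const
  have hsymB : ∀ i x, (Symm.mirror i (1 / 2) x ∈ body s R 0 ↔ x ∈ body s R 0) := fun i x => by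
    simp only [body, mem_ofPred_eq, Pi.zero_apply, sub_zero]
    rw [Finset.sum_congr rfl fun j _ => ?_]
    rcases eq_or_ne j i with rfl | hj
    · simp [Symm.mirror, dist1_half_sub]
    · simp [Symm.mirror, hj]
  refine setAE_of_cube pF (isPeriodic_body s R 0) (Filter.eventuallyEq_set.2 ?_)
  set B : Set R3 := {x | ¬(x ∈ F ↔ x ∈ body s R 0)}
  have hBm : MeasurableSet B := by
    rw [show B = F \ body s R 0 ∪ body s R 0 \ F by ext x; simp [B]; tauto]
    exact (mF.diff mB).union (mB.diff mF)
  have hB0 : volume.real ((fun x : R3 => (1 / 2 : ℝ) • x) ⁻¹' B ∩ cube) = 0 := by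
    have : volume ((fun x : R3 => (1 / 2 : ℝ) • x) ⁻¹' B ∩ cube) = 0 := by
      rw [← Measure.restrict_apply (hhalf hBm)]
      refine measure_mono_null (fun x hx => ?_) (ae_iff.1 ((Filter.eventuallyEq_set.1 hEq).and
        (ae_restrict_mem measurableSet_cube)))
      rintro ⟨hiff, hxc⟩
      refine hx ?_
      show (1 / 2 : ℝ) • x ∈ F ↔ (1 / 2 : ℝ) • x ∈ body s R 0
      refine hiff.trans ?_
      simp only [quad, body, mem_ofPred_eq, Pi.smul_apply, smul_eq_mul, Pi.zero_apply, sub_zero]
      have e : ∑ i ∈ s, x i ^ 2 = 4 * ∑ i ∈ s, dist1 (1 / 2 * x i) ^ 2 := by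
        rw [Finset.mul_sum]
        refine Finset.sum_congr rfl fun i _ => ?_
        have a0 : 0 ≤ x i := hxc.1 i
        have a1 : x i ≤ 1 := hxc.2 i
        rw [dist1_of_mem (by linarith) (by linarith)]
        ring
      rw [e]
      constructor <;> intro <;> nlinarith
    rw [measureReal_def, this, ENNReal.toReal_zero]
  rw [hscale hBm (fun i x => by simp only [B, mem_ofPred_eq, hsymF i x, hsymB i x]),
    measureReal_eq_zero_iff (ne_top_of_le_ne_top (by simp [volume_cube])
      (measure_mono inter_subset_right))] at hB0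
  rw [ae_iff, Measure.restrict_apply hBm]
  exact hB0

end Vale.Agent.P232.Rigid
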