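import Vale.Agent.P232.Rigid.Rearr

/-!
# P232: Steiner symmetrisation of periodic sets
-/

open MeasureTheory Set Filter Function
open scoped Topology NNReal ENNReal

namespace Vale.Agent.P232.Rigid

theorem ae_cube_of_lines (i : Fin 3) {P : R3 → Prop} (hm : MeasurableSet {x | P x})
    (h : ∀ᵐ y ∂volume.restrict sq, ∀ᵐ t ∂volume.restrict (Icc (0 : ℝ) 1), P (i.insertNth t y)) :
    ∀ᵐ x ∂volume.restrict cube, P x := by
  have hmp := (measurePreserving_lineMap i).comp
    (Measure.measurePreserving_swap (μ := volume.restrict sq) (ν := volume.restrict (Icc (0 : ℝ) 1)))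
  rw [← hmp.map_eq, ae_map_iff hmp.measurable.aemeasurable hm]
  exact (Measure.ae_prod_iff_ae_ae (hm.preimage hmp.measurable)).2 h

theorem measurable_removeNth (i : Fin 3) : Measurable fun x : R3 => i.removeNth x :=
  measurable_pi_lambda _ fun _ => measurable_pi_apply _

theorem measurableSet_steiner {E : Set R3} (hE : MeasurableSet E) (i : Fin 3) :
    MeasurableSet (steiner i E) :=
  measurableSet_lt (measurable_dist1.comp (measurable_pi_apply i))
    (((measurable_lineLen hE i).comp (measurable_removeNth i)).div_const 2)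

theorem periodic_steiner {E : Set R3} (hE : IsPeriodic fun x => x ∈ E) (i : Fin 3) :
    IsPeriodic fun x => x ∈ steiner i E := by
  intro x k
  have e : i.removeNth (x + fun j => (k j : ℝ)) =
      i.removeNth x + fun j => ((i.removeNth k : Fin 2 → ℤ) j : ℝ) := rfl
  simp only [steiner, mem_ofPred_eq, Pi.add_apply, dist1_add_int, e, lineLen,
    lineSet_periodic hE]

theorem lineLen_steiner (i : Fin 3) (E : Set R3) (y : Fin 2 → ℝ) :
    lineLen i (steiner i E) y = lineLen i E y := by
  have e : lineSet i (steiner i E) y =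
      Icc (0 : ℝ) 1 ∩ {t | dist1 t < lineLen i E y / 2} := by
    ext t
    simp [lineSet, steiner]
  rw [lineLen, e, volume_arc (lineLen_nonneg i E y) (lineLen_le_one i E y)]

theorem volume_inter_cube (i : Fin 3) {A : Set R3} (hA : MeasurableSet A) :
    volume (A ∩ cube) = ∫⁻ y in sq, ENNReal.ofReal (lineLen i A y) := by
  have h := lintegral_cube_lines i (F := A.indicator 1) (measurable_const.indicator hA)
  rw [lintegral_indicator_one hA, Measure.restrict_apply hA] at h
  rw [h]
  refine lintegral_congr fun y => ?_
  rw [← volume_lineSet]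
  have hm : Measurable fun t : ℝ => (i.insertNth t y : R3) := (continuous_insertNth i y).measurable
  calc ∫⁻ t in Icc (0 : ℝ) 1, A.indicator 1 (i.insertNth t y : R3)
      = ∫⁻ t in Icc (0 : ℝ) 1, ((fun t => (i.insertNth t y : R3)) ⁻¹' A).indicator 1 t := rfl
    _ = volume (lineSet i A y) := by
      rw [lintegral_indicator_one (hm hA), Measure.restrict_apply (hm hA)]
      congr 1
      ext t
      simp [lineSet, and_comm]

theorem volume_steiner_inter_cube {E : Set R3} (hE : MeasurableSet E) (i : Fin 3) :
    volume (steiner i E ∩ cube) = volume (E ∩ cube) := by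
  simp only [volume_inter_cube i (measurableSet_steiner hE i), volume_inter_cube i hE,
    lineLen_steiner]

theorem steiner_congr {A B : Set R3} (hA : MeasurableSet A) (hB : MeasurableSet B)
    (pA : IsPeriodic fun x => x ∈ A) (pB : IsPeriodic fun x => x ∈ B) (h : SetAE A B) (i : Fin 3) :
    SetAE (steiner i A) (steiner i B) := by
  refine setAE_of_cube (periodic_steiner pA i) (periodic_steiner pB i) (Filter.eventuallyEq_set.2 ?_)
  have mA := measurableSet_steiner hA i
  have mB := measurableSet_steiner hB i
  refine ae_cube_of_lines i (P := fun x => x ∈ steiner i A ↔ x ∈ steiner i B) ?_ ?_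
  · rw [show {x | x ∈ steiner i A ↔ x ∈ steiner i B} =
      steiner i A ∩ steiner i B ∪ (steiner i A)ᶜ ∩ (steiner i B)ᶜ by ext x; simp; tauto]
    exact (mA.inter mB).union (mA.compl.inter mB.compl)
  filter_upwards [ae_lines i (ae_restrict_of_ae (Filter.eventuallyEq_set.1 h))] with y hy
  have hl : lineLen i A y = lineLen i B y := by
    refine measureReal_congr (Filter.eventuallyEq_set.2 ?_)
    filter_upwards [(ae_restrict_iff' measurableSet_Icc).1 hy] with t ht
    exact and_congr_right ht
  exact Eventually.of_forall fun t => by simp [steiner, hl]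

theorem down_steiner_self (i : Fin 3) (E : Set R3) : Down i (steiner i E) := fun x t hx ht => by
  simp only [steiner, mem_ofPred_eq, update_self, Fin.removeNth_update] at hx ⊢
  exact ht.trans_lt hx

theorem down_steiner {k i : Fin 3} (hki : k ≠ i) {F : Set R3} (hF : Down k F) :
    Down k (steiner i F) := fun x t hx ht => by
  simp only [steiner, mem_ofPred_eq, update_of_ne hki.symm] at hx ⊢
  refine hx.trans_le (div_le_div_of_nonneg_right (measureReal_mono ?_ ?_) (by norm_num))
  · rintro s ⟨hs, hsF⟩
    refine ⟨hs, ?_⟩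
    rw [Fin.insertNth_removeNth] at hsF ⊢
    rw [update_comm hki]
    exact hF _ t hsF (by rwa [update_of_ne hki])
  · exact ne_top_of_le_ne_top (by simp [Real.volume_Icc]) (measure_mono fun s hs => hs.1)

theorem ae_dist1_ne (c : ℝ) : ∀ᵐ t ∂volume.restrict (Icc (0 : ℝ) 1), dist1 t ≠ c := by
  rw [ae_restrict_iff' measurableSet_Icc]
  filter_upwards [((Set.toFinite ({c, 1 - c} : Set ℝ)).countable.ae_notMem volume)] with t ht htI
  intro he
  rw [dist1_of_unit htI] at he
  rcases min_choice t (1 - t) with e | e <;> rw [e] at he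
  · exact ht (by simp [he])
  · exact ht (by simp [← he])

theorem dec_of_down {k : Fin 3} {G : Set R3} (hG : MeasurableSet G)
    (pG : IsPeriodic fun x => x ∈ G) (hd : Down k G) : Dec k G := by
  refine setAE_of_cube (periodic_steiner pG k) pG (Filter.eventuallyEq_set.2 ?_)
  have mS := measurableSet_steiner hG k
  refine ae_cube_of_lines k (P := fun x => x ∈ steiner k G ↔ x ∈ G) ?_ ?_
  · rw [show {x | x ∈ steiner k G ↔ x ∈ G} =
      steiner k G ∩ G ∪ (steiner k G)ᶜ ∩ Gᶜ by ext x; simp; tauto]
    exact (mS.inter hG).union (mS.compl.inter hG.compl)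
  refine Eventually.of_forall fun y => ?_
  filter_upwards [ae_dist1_ne (lineLen k G y / 2)] with t ht
  have hmono : ∀ s, (k.insertNth t y : R3) ∈ G → dist1 s ≤ dist1 t →
      (k.insertNth s y : R3) ∈ G := fun s hG hs => by
    simpa using hd _ s hG (by simpa using hs)
  have harc := volume_arc (l := 2 * dist1 t) (by linarith [(dist1_mem t).1])
    (by linarith [(dist1_mem t).2])
  rw [mul_div_cancel_left₀ _ (two_ne_zero' ℝ)] at harc
  have fin : ∀ {s : Set ℝ}, s ⊆ Icc (0 : ℝ) 1 → volume s ≠ ⊤ := fun hs =>
    ne_top_of_le_ne_top (by simp [Real.volume_Icc]) (measure_mono hs)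
  simp only [steiner, mem_ofPred_eq, Fin.insertNth_apply_same, Fin.removeNth_insertNth]
  constructor
  · intro hlt
    by_contra hn
    have hle : lineLen k G y ≤ 2 * dist1 t := by
      refine (measureReal_mono ?_ (fin inter_subset_left)).trans_eq harc
      rintro s ⟨hs, hsG⟩
      refine ⟨hs, ?_⟩
      show dist1 s < dist1 t
      by_contra hc
      exact hn (by simpa using hd _ t hsG (by simpa using not_lt.1 hc))
    linarith
  · intro hmem
    have hle : 2 * dist1 t ≤ lineLen k G y := by
      refine harc.symm.trans_le (measureReal_mono ?_ (fin fun s hs => hs.1))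
      rintro s ⟨hs, (hsd : dist1 s < dist1 t)⟩
      exact ⟨hs, hmono s hmem (by linarith)⟩
    exact lt_of_le_of_ne (by linarith) ht

end Vale.Agent.P232.Rigid
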