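import Vale.Agent.P232.Assembly
import Vale.Agent.P232.Rigid.Back
import Vale.Agent.P232.Rigid.Bisect
import Vale.Agent.P232.Rigid.Induct
import Vale.Agent.P232.Rigid.Named
import Vale.Agent.P232.Rigid.Polar
import Vale.Agent.P232.Rigid.Steiner

/-!
# P232: the classification of all minimisers from the classification of sorted relative minimisers
-/

open MeasureTheory Set

namespace Vale.Agent.P232.Rigid

/-- The functional inequality on the torus from the one for smooth sorted functions. -/
theorem funIso_of_smoothIso (h : SmoothIso) : FunIso :=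
  Symm.funIso_of_cubeIso (Symm.cubeIso_of_sortedIso (sortedIso_of_smoothIso h))

/-- Minimisers of volume at most one half. -/
theorem classify_of_sorted (h : SmoothIso) (hc : StmtSorted) : StmtClassify :=
  stmtClassify_of stmtSteiner (stmtBisect (funIso_of_smoothIso h)) stmtBack
    (stmtDec_of_cube (stmtCube_of_stmtSorted hc))

/-- The profile, and all sets attaining it. -/
theorem answer_of_sorted (h : SmoothIso) (hc : StmtSorted) :
    (∀ V ∈ Ioo (0 : ℝ) 1, profile V = ENNReal.ofReal (candidate V)) ∧
      ∀ V ∈ Ioo (0 : ℝ) 1, ∀ E, IsCompetitor E V → perimeter E = profile V →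
        NamedShape V E ∨ NamedShape (1 - V) Eᶜ :=
  ⟨profile_eq_candidate_of_smoothIso h, classify_named (classify_of_sorted h hc)⟩

end Vale.Agent.P232.Rigid
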